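import Vale.Agent.P022D.Sel.Defs

/-!
# P022, dihedral case, block Sel: eigenfunctionals
-/

set_option linter.all false

noncomputable section

namespace Vale.Agent.P022D.Sel

theorem mem_X {F : Type} [Field F] {A : Type} [AddCommGroup A] {t : A →+ A} {x : F}
    {l : A →+ F} : l ∈ X F t x ↔ ∀ a, l (t a) = x * l a := Iff.rfl

/-- rank and nullity for maps between submodules -/
theorem rk {F V W : Type} [Field F] [AddCommGroup V] [Module F V] [AddCommGroup W] [Module F W]
    (p : Submodule F V) (q : Submodule F W) (s : p →ₗ[F] q) :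
    Module.rank F (LinearMap.range s) + Module.rank F (LinearMap.ker s) = Module.rank F p :=
  s.rank_range_add_rank_ker

theorem ext0 {A B F : Type} [AddCommGroup A] [AddCommGroup B] [Field F] [CharP F 2]
    (f : A →+ B) (l : A →+ F) (hl : ∀ a b, f a = 2 • b → l a = 0) :
    ∃ k : B →+ F, ∀ a, k (f a) = l a := by
  let B2 : AddSubgroup B := (nsmulAddMonoidHom 2 : B →+ B).range
  have h2 : ∀ y : B ⧸ B2, 2 • y = 0 := by
    intro y
    obtain ⟨b, rfl⟩ := QuotientAddGroup.mk'_surjective B2 y
    rw [← map_nsmul]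
    exact (QuotientAddGroup.eq_zero_iff _).2 ⟨b, rfl⟩
  letI : Module (ZMod 2) (B ⧸ B2) := AddCommGroup.zmodModule h2
  letI : Module (ZMod 2) F := (ZMod.algebra F 2).toModule
  let g : A →+ B ⧸ B2 := (QuotientAddGroup.mk' B2).comp f
  let p : Submodule (ZMod 2) (B ⧸ B2) := AddSubgroup.toZModSubmodule 2 g.range
  let g' : A →+ p := g.codRestrict p fun a => ⟨a, rfl⟩
  have hs : Function.Surjective g' := by
    rintro ⟨_, a, rfl⟩
    exact ⟨a, rfl⟩
  have hk : g'.ker ≤ l.ker := by
    intro a ha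
    have h1 : g a = 0 := congrArg Subtype.val ha
    obtain ⟨b, hb⟩ := (QuotientAddGroup.eq_zero_iff _).1 h1
    exact hl a b hb.symm
  let l' : p →+ F := g'.liftOfSurjective hs ⟨l, hk⟩
  have hl' : ∀ a, l' (g' a) = l a := fun a =>
    AddMonoidHom.liftOfRightInverse_comp_apply g' _ _ ⟨l, hk⟩ a
  obtain ⟨k, hk⟩ := LinearMap.exists_extend (AddMonoidHom.toZModLinearMap 2 l')
  refine ⟨k.toAddMonoidHom.comp (QuotientAddGroup.mk' B2), fun a => ?_⟩
  rw [← hl' a]
  exact LinearMap.congr_fun hk (g' a)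

theorem ext : EXT := by
  intro A B F _ _ _ _ f s t m x hm hx ht hf l hl h0
  obtain ⟨k, hk⟩ := ext0 f l h0
  have hm0 : m ≠ 0 := by
    rintro rfl
    simp at hm
  have hx0 : x ≠ 0 := by
    rintro rfl
    rw [zero_pow hm0] at hx
    exact zero_ne_one hx
  have hm1 : (m : F) = 1 := by
    obtain ⟨c, rfl⟩ := hm
    have : (2 : F) = 0 := by exact_mod_cast CharP.cast_eq_zero F 2
    push_cast
    rw [this]
    ring
  let k' : B →+ F :=
    { toFun := fun b => ∑ i ∈ Finset.range m, x⁻¹ ^ i * k (t^[i] b)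
      map_zero' := by simp [iterate_map_zero]
      map_add' := fun a b => by
        simp only [iterate_map_add, map_add, mul_add, Finset.sum_add_distrib] }
  have hk' : ∀ b, k' b = ∑ i ∈ Finset.range m, x⁻¹ ^ i * k (t^[i] b) := fun _ => rfl
  refine ⟨k', fun b => ?_, fun a => ?_⟩
  · have e1 := Finset.sum_range_succ (fun i => x⁻¹ ^ i * k (t^[i] b)) m
    have e2 := Finset.sum_range_succ' (fun i => x⁻¹ ^ i * k (t^[i] b)) m
    have e3 : x⁻¹ ^ m = 1 := by rw [inv_pow, hx, inv_one]
    simp only [ht, e3, pow_zero, Function.iterate_zero, id] at e1 e2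
    have e4 := add_right_cancel (e1.symm.trans e2)
    rw [hk', hk', e4, Finset.mul_sum]
    refine Finset.sum_congr rfl fun i _ => ?_
    rw [Function.iterate_succ_apply, pow_succ]
    field_simp
  · have e : ∀ i, t^[i] (f a) = f (s^[i] a) := by
      intro i
      induction i with
      | zero => rfl
      | succ i ih => rw [Function.iterate_succ_apply', Function.iterate_succ_apply', ih, hf]
    have e' : ∀ i, l (s^[i] a) = x ^ i * l a := by
      intro i
      induction i with
      | zero => simp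
      | succ i ih => rw [Function.iterate_succ_apply', hl, ih]; ring
    rw [hk']
    have : ∀ i ∈ Finset.range m, x⁻¹ ^ i * k (t^[i] (f a)) = l a := by
      intro i _
      rw [e, hk, e', ← mul_assoc, ← mul_pow, inv_mul_cancel₀ hx0, one_pow, one_mul]
    rw [Finset.sum_congr rfl this, Finset.sum_const, Finset.card_range, nsmul_eq_mul, hm1, one_mul]

section

variable {A F : Type} [AddCommGroup A] [Field F] [CharP F 2]

/-- the restriction of `t` to a stable subgroup -/
def rs (t : A →+ A) (B : AddSubgroup A) (h : ∀ b ∈ B, t b ∈ B) : B →+ B :=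
  (t.comp B.subtype).codRestrict B fun b => h b b.2

theorem rs_iter (t : A →+ A) (B : AddSubgroup A) (h : ∀ b ∈ B, t b ∈ B) (i : ℕ) (b : B) :
    (((rs t B h)^[i] b : B) : A) = t^[i] b := by
  induction i with
  | zero => rfl
  | succ i ih => rw [Function.iterate_succ_apply', Function.iterate_succ_apply', ← ih]; rfl

/-- pull back of eigenfunctionals -/
def pb {C : Type} [AddCommGroup C] (f : C →+ A) (s : C →+ C) (t : A →+ A) (x : F)
    (hf : ∀ c, f (s c) = t (f c)) : X F t x →ₗ[F] X F s x where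
  toFun l := ⟨l.1.comp f, fun c => by
    rw [AddMonoidHom.comp_apply, AddMonoidHom.comp_apply, hf]; exact l.2 _⟩
  map_add' _ _ := rfl
  map_smul' _ _ := rfl

theorem step (hE : EXT) (t : A →+ A) (m : ℕ) (x : F) (hm : Odd m) (hx : x ^ m = 1)
    (ht : ∀ a, t^[m] a = a) (B B' : AddSubgroup A) (h : ∀ b ∈ B, t b ∈ B)
    (h' : ∀ b ∈ B', t b ∈ B') (hle : B' ≤ B) (h2 : ∀ b ∈ B, 2 • b ∈ B') :
    Module.rank F (X F (rs t B' h') x) ≤ Module.rank F (X F (rs t B h) x) := by
  have two : (2 : F) = 0 := by exact_mod_cast CharP.cast_eq_zero F 2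
  let i : B' →+ B := AddSubgroup.inclusion hle
  let d : B →+ B' := ((nsmulAddMonoidHom 2 : A →+ A).comp B.subtype).codRestrict B'
    fun b => h2 b b.2
  let r := pb (F := F) i (rs t B' h') (rs t B h) x fun _ => rfl
  let s := pb (F := F) d (rs t B h) (rs t B' h') x fun c => Subtype.ext (map_nsmul t 2 (c : A)).symm
  have h1 : LinearMap.ker s ≤ LinearMap.range r := by
    intro l hl
    obtain ⟨k, hk, e⟩ := hE B' B F i (rs t B' h') (rs t B h) m x hm hx
      (fun b => Subtype.ext ((rs_iter t B h m b).trans (ht _))) (fun _ => rfl) l.1 l.2 (by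
        intro a b hab
        have e0 : ((i a : B) : A) = ((2 • b : B) : A) := congrArg Subtype.val hab
        have e1 : a = d b := Subtype.ext e0
        rw [e1]
        exact DFunLike.congr_fun (congrArg Subtype.val (LinearMap.mem_ker.1 hl)) b)
    exact ⟨⟨k, hk⟩, Subtype.ext (AddMonoidHom.ext e)⟩
  have h3 : LinearMap.range s ≤ LinearMap.ker r := by
    rintro _ ⟨l, rfl⟩
    refine LinearMap.mem_ker.2 (Subtype.ext (AddMonoidHom.ext fun b => ?_))
    have e1 : d (i b) = 2 • b := rfl
    show l.1 (d (i b)) = 0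
    rw [e1, map_nsmul, nsmul_eq_mul, Nat.cast_ofNat, two, zero_mul]
  have a1 := rk (F := F) (V := B' →+ F) (W := B →+ F) _ _ s
  have a2 := rk (F := F) (V := B →+ F) (W := B' →+ F) _ _ r
  refine a1.symm.le.trans (le_trans ?_ a2.le)
  rw [add_comm]
  exact add_le_add (Submodule.rank_mono h1) (Submodule.rank_mono h3)

end

theorem lb (hE : EXT) : LB := by
  intro A C F _ _ _ _ f s t m N x hm hx ht hf hN hA P hP h0
  have two : (2 : F) = 0 := by exact_mod_cast CharP.cast_eq_zero F 2
  obtain ⟨k, N', hN', rfl⟩ := Nat.exists_eq_two_pow_mul_odd hN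
  let B : ℕ → AddSubgroup A := fun j => f.range ⊔ (nsmulAddMonoidHom (2 ^ j) : A →+ A).range
  have mem : ∀ j b, b ∈ B j ↔ ∃ c a, b = f c + 2 ^ j • a := by
    intro j b
    rw [AddSubgroup.mem_sup]
    constructor
    · rintro ⟨_, ⟨c, rfl⟩, _, ⟨a, rfl⟩, rfl⟩
      exact ⟨c, a, rfl⟩
    · rintro ⟨c, a, rfl⟩
      exact ⟨_, ⟨c, rfl⟩, _, ⟨a, rfl⟩, rfl⟩
  have st : ∀ j, ∀ b ∈ B j, t b ∈ B j := by
    intro j b hb
    obtain ⟨c, a, rfl⟩ := (mem j b).1 hb
    exact (mem j _).2 ⟨s c, t a, by rw [map_add, map_nsmul, hf]⟩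
  have h1 : ∀ j, Module.rank F (X F (rs t (B j) (st j)) x) ≤ Module.rank F (X F t x) := by
    intro j
    induction j with
    | zero =>
      let d : A →+ B 0 := (AddMonoidHom.id A).codRestrict (B 0) fun a =>
        (mem 0 _).2 ⟨0, a, by simp⟩
      refine LinearMap.rank_le_of_injective (pb d t (rs t (B 0) (st 0)) x fun _ => rfl) ?_
      intro l l' e
      exact Subtype.ext (AddMonoidHom.ext fun b =>
        DFunLike.congr_fun (congrArg Subtype.val e) (b : A))
    | succ j ih =>
      refine (step hE t m x hm hx ht (B j) (B (j + 1)) (st j) (st (j + 1)) ?_ ?_).trans ih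
      · intro b hb
        obtain ⟨c, a, rfl⟩ := (mem _ b).1 hb
        exact (mem _ _).2 ⟨c, 2 • a, by rw [smul_smul, pow_succ]⟩
      · intro b hb
        obtain ⟨c, a, rfl⟩ := (mem _ b).1 hb
        exact (mem _ _).2 ⟨2 • c, a, by rw [smul_add, smul_smul, pow_succ', map_nsmul]⟩
  refine le_trans ?_ (h1 k)
  let g : C →+ B k := f.codRestrict (B k) fun c => (mem k _).2 ⟨c, 0, by simp⟩
  let r := pb (F := F) g s (rs t (B k) (st k)) x fun c => Subtype.ext (hf c)
  have h3 : P ≤ (LinearMap.range r).map (X F s x).subtype := by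
    intro l hl
    obtain ⟨q, hq, e⟩ := hE C (B k) F g s (rs t (B k) (st k)) m x hm hx
      (fun b => Subtype.ext ((rs_iter t _ _ m b).trans (ht _))) (fun c => Subtype.ext (hf c))
      l (hP hl) (by
        intro a b hab
        obtain ⟨c, a', e1⟩ := (mem k b).1 b.2
        obtain ⟨c', e2⟩ := hA a'
        have e3 : f a = 2 • (f c + 2 ^ k • a') := by
          rw [← e1]; exact congrArg Subtype.val hab
        have e4 : f (N' • a - 2 • (N' • c + c')) = 0 := by
          rw [map_sub, map_nsmul, map_nsmul, map_add, map_nsmul, e2, e3]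
          module
        have e5 := h0 l hl _ e4
        obtain ⟨u, rfl⟩ := hN'
        simp only [map_sub, map_nsmul, nsmul_eq_mul] at e5
        push_cast at e5
        rw [two] at e5
        simpa using e5)
    exact ⟨r ⟨q, hq⟩, ⟨_, rfl⟩, AddMonoidHom.ext e⟩
  exact (Submodule.rank_mono h3).trans
    ((rank_map_le _ _).trans (rank_range_le r))

end Vale.Agent.P022D.Sel
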