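import Vale.Agent.P022D.Sel.Defs
import Vale.Agent.P022.H651.FCH

/-! From characters of the Galois group to ray class characters. -/

set_option linter.all false

noncomputable section

namespace Vale.Agent.P022D.Sel.ArtA

open NumberField IsDedekindDomain Pointwise
open Vale.Agent.P022 Vale.Agent.P022.C
open Vale.Agent.P027M.S (Pr Inert mx)
open Vale.Agent.P027M.S.Gen (cm val_cm mem_cm norm_cm)

theorem fr_conj {P : Ideal (𝓞 Qb)} {N : ℕ} {g : GQ} (s : GQ)
    (h : ∀ x : 𝓞 Qb, g • x - x ^ N ∈ P) (x : 𝓞 Qb) : (s * g * s⁻¹) • x - x ^ N ∈ s • P := by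
  rw [Ideal.mem_pointwise_smul_iff_inv_smul_mem, smul_sub, smul_pow', ← mul_smul]
  have e : s⁻¹ * (s * g * s⁻¹) = g * s⁻¹ := by group
  rw [e, mul_smul]
  exact h _

theorem prime_in {R : Type} [CommRing R] {P : Ideal R} (hP : P.IsPrime) (n : ℕ) :
    n ≠ 0 → (n : R) ∈ P → ∃ l : ℕ, l.Prime ∧ (l : R) ∈ P := by
  induction n using induction_on_primes with
  | zero => intro h; exact absurd rfl h
  | one =>
    intro _ h
    exact absurd ((Ideal.eq_top_iff_one P).2 (by simpa using h)) hP.ne_top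
  | prime_mul p a hp ih =>
    intro h0 h
    rw [Nat.cast_mul] at h
    rcases hP.mem_or_mem h with h | h
    · exact ⟨p, hp, h⟩
    · exact ih (fun e => h0 (by rw [e, mul_zero])) h

variable {L F : Type} [Field L] [NumberField L] [Field F]

theorem nr_ne (v : Pr L) : Ideal.absNorm v.asIdeal ≠ 0 := by
  rw [Ne, Ideal.absNorm_eq_zero_iff]
  exact v.ne_bot

theorem up {j : L →+* Qb} {v : Pr L} {P : Ideal (𝓞 Qb)} (hb : below j P = v.asIdeal) {l : ℕ}
    (h : (l : 𝓞 L) ∈ v.asIdeal) : (l : 𝓞 Qb) ∈ P := by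
  rw [← hb, below, Ideal.mem_comap, map_natCast] at h
  exact h

theorem conj_eq {Γ : Subgroup GQ} {h : GQ} {x : F} {T Q : Finset ℕ} {φ : GQ → F}
    (H : Adm Γ h x T Q φ) {s g : GQ} (hs : s ∈ Γ) (hg : g ∈ Γ) : φ (s * g * s⁻¹) = φ g := by
  have h1 := H.add _ (Γ.mul_mem (Γ.mul_mem hs hg) (Γ.inv_mem hs)) _ hs
  rw [inv_mul_cancel_right, H.add _ hs _ hg] at h1
  rw [add_comm] at h1
  exact (add_right_cancel h1).symm

theorem indep {j : L →+* Qb} {h : GQ} {x : F} {T Q : Finset ℕ} {φ : GQ → F}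
    (H : Adm (GK j) h x T Q φ) {v : Pr L} (hv : v ∉ ov L Q) {P P' : Ideal (𝓞 Qb)} {g g' : GK j}
    (h1 : FrI j v P g) (h2 : FrI j v P' g') : φ g = φ g' := by
  obtain ⟨s, rfl⟩ := H916.exists_smul j h1.1 h2.1 (h1.2.1.trans h2.2.1.symm)
  rw [← conj_eq H s.2 g.2]
  have hm : (s : GQ) * g * (s : GQ)⁻¹ ∈ GK j :=
    (GK j).mul_mem ((GK j).mul_mem s.2 g.2) ((GK j).inv_mem s.2)
  have hf := fr_conj (s : GQ) h1.2.2
  generalize (s : GQ) * g * (s : GQ)⁻¹ = k at hm hf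
  obtain ⟨l, hl, hlv⟩ := prime_in v.isPrime _ (nr_ne v) (Ideal.absNorm_mem _)
  have hQ : l ∉ Q := fun hq => hv ⟨l, hq, hl.ne_zero, hlv⟩
  have hi : Inert ((s : GQ) • P) (k * (g' : GQ)⁻¹) := by
    intro y
    have e := Ideal.sub_mem _ (hf ((g' : GQ)⁻¹ • y)) (h2.2.2 ((g' : GQ)⁻¹ • y))
    rwa [sub_sub_sub_cancel_right, smul_inv_smul, ← mul_smul] at e
  have h0 := H.unr l hl hQ _ h2.1 (up h2.2.1 hlv) _ hi
  have h3 := H.add _ ((GK j).mul_mem hm ((GK j).inv_mem g'.2)) _ g'.2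
  rwa [inv_mul_cancel_right, h0, zero_add] at h3

theorem stab {j : L →+* Qb} {v : Pr L} {P : Ideal (𝓞 Qb)} {g : GK j} (h : FrI j v P g) :
    Stab P g := by
  intro y
  constructor
  · intro hy
    have e := P.sub_mem hy (h.2.2 y)
    rw [sub_sub_cancel] at e
    exact h.1.mem_of_pow_mem _ e
  · intro hy
    have e := P.add_mem (h.2.2 y) (P.pow_mem_of_mem hy _ (Nat.pos_of_ne_zero (nr_ne v)))
    rwa [sub_add_cancel] at e

theorem inv_j {j : L →+* Qb} {h : GQ} {τ : L ≃+* L} (hτ : ∀ y, j (τ y) = h (j y)) (y : L) :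
    h⁻¹ (j y) = j (τ.symm y) := by
  have e := hτ (τ.symm y)
  rw [RingEquiv.apply_symm_apply] at e
  rw [e, ← AlgEquiv.mul_apply, inv_mul_cancel]
  rfl

theorem mem_conj {j : L →+* Qb} {h : GQ} {τ : L ≃+* L} (hτ : ∀ y, j (τ y) = h (j y)) {g : GQ}
    (hg : g ∈ GK j) : h * g * h⁻¹ ∈ GK j := by
  intro y
  rw [AlgEquiv.mul_apply, AlgEquiv.mul_apply, inv_j hτ, hg, ← hτ, RingEquiv.apply_symm_apply]

theorem fr_mv {j : L →+* Qb} {h : GQ} {τ : L ≃+* L} (hτ : ∀ y, j (τ y) = h (j y)) {v : Pr L}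
    {P : Ideal (𝓞 Qb)} {g : GK j} (H : FrI j v P g) :
    FrI j (mv τ v) (h • P) ⟨h * g * h⁻¹, mem_conj hτ g.2⟩ := by
  have := H.1
  refine ⟨inferInstance, ?_, ?_⟩
  · ext y
    rw [below, Ideal.mem_comap, Ideal.mem_pointwise_smul_iff_inv_smul_mem, mv, mem_cm, ← H.2.1,
      below, Ideal.mem_comap]
    have e : h⁻¹ • RingOfIntegers.mapRingHom j y =
        RingOfIntegers.mapRingHom j (RingOfIntegers.mapRingEquiv τ.symm y) := by
      apply RingOfIntegers.ext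
      exact inv_j hτ y
    rw [e]
  · have e : Ideal.absNorm (mv τ v).asIdeal = Ideal.absNorm v.asIdeal := norm_cm τ.symm v
    rw [e]
    exact fr_conj h H.2.2

open Classical in
/-- the values at chosen Frobenius elements -/
def val (F : Type) [Field F] (Q : Finset ℕ) (g : Pr L → GQ) : (GQ → F) →ₗ[F] (Pr L → F) where
  toFun φ v := if v ∈ ov L Q then 0 else φ (g v)
  map_add' φ ψ := by
    funext v
    by_cases hv : v ∈ ov L Q <;> simp [hv]
  map_smul' c φ := by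
    funext v
    by_cases hv : v ∈ ov L Q <;> simp [hv]

theorem val_in {Q : Finset ℕ} (g : Pr L → GQ) (φ : GQ → F) {v : Pr L} (hv : v ∈ ov L Q) :
    val F Q g φ v = 0 := if_pos hv

theorem val_out {Q : Finset ℕ} (g : Pr L → GQ) (φ : GQ → F) {v : Pr L} (hv : v ∉ ov L Q) :
    val F Q g φ v = φ (g v) := if_neg hv

end Vale.Agent.P022D.Sel.ArtA

namespace Vale.Agent.P022D.Sel

open ArtA Vale.Agent.P022 Vale.Agent.P022.C

theorem art (hL : LAW) (hI : INJ) : ART := by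
  intro L F _ _ _ _ j h τ x T Q Z h2 hτ hZ
  choose P g hg using H651.exists_frI j
  let A := (val F Q fun v => (g v : GQ)).domRestrict Z
  refine ⟨LinearMap.range A, ?_, ?_⟩
  · rintro _ ⟨⟨φ, hφ⟩, rfl⟩
    have H := hZ φ hφ
    change Ray τ x T Q (val F Q (fun v => (g v : GQ)) φ)
    refine ⟨fun v hv => ?_, fun v => ?_, ?_⟩
    · by_cases hq : v ∈ ov L Q
      · exact val_in _ _ hq
      · rw [val_out _ _ hq]
        obtain ⟨l, hl, l0, hlv⟩ := hv.resolve_right hq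
        exact H.dec l hl l0 _ (hg v).1 (up (hg v).2.1 hlv) _ (stab (hg v))
    · by_cases hq : v ∈ ov L Q
      · have hq' : mv τ v ∈ ov L Q := (cm_ov τ.symm Q v).2 hq
        rw [val_in _ _ hq, val_in _ _ hq', mul_zero]
      · have hq' : mv τ v ∉ ov L Q := fun k => hq ((cm_ov τ.symm Q v).1 k)
        rw [val_out _ _ hq, val_out _ _ hq', indep H hq' (hg _) (fr_mv hτ (hg v))]
        exact H.eqv _ (g v).2
    · exact hL L F j h x T Q φ _ h2 H (fun v hv => val_in _ _ hv)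
        (fun v hv P' g' k => by rw [val_out _ _ hv]; exact indep H hv k (hg v))
  · refine LinearMap.rank_le_of_injective A.rangeRestrict ?_
    rw [← LinearMap.ker_eq_bot, LinearMap.ker_rangeRestrict, LinearMap.ker_eq_bot']
    rintro ⟨φ, hφ⟩ h0
    have H := hZ φ hφ
    refine Subtype.ext (hI L F j h x T Q φ H fun v hv P' g' k => ?_)
    rw [indep H hv k (hg v), ← val_out (fun v => (g v : GQ)) φ hv]
    exact congrFun h0 v

end Vale.Agent.P022D.Sel
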