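import Vale.Agent.P022D.Sel.Defs
import Mathlib.FieldTheory.Galois.Profinite
import Mathlib.Topology.Algebra.ClopenNhdofOne

/-!
# P022, dihedral case, block Sel: existence of the auxiliary primes
-/

set_option linter.all false

noncomputable section

namespace Vale.Agent.P022D.Sel

open Vale.Agent.P022
open Vale.Agent.P027M.S (mx)

namespace AuxP

theorem key (hD : P027M.TW.Spec_DENS) (V : Subgroup GQ) (hV : IsOpen (V : Set GQ))
    (A : Finset ℕ) (σ : GQ) (p : ℕ) (hp : p.Prime) (p2 : p ≠ 2) :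
    ∃ (q : ℕ) (φ : GQ) (k m o : ℕ), q.Prime ∧ q ∉ A ∧ IsFrob q φ ∧ Odd k ∧ ¬ p ∣ k ∧ Odd m ∧
      φ⁻¹ * σ ^ (k * m) ∈ V ∧ m.Coprime o ∧ (σ ^ k) ^ o ∈ V := by
  have a1 : Algebra.IsAlgebraic ℚ Qb := AlgebraicClosure.isAlgebraic ℚ
  have a2 : IsAlgClosure ℚ Qb := ⟨inferInstance, inferInstance⟩
  have a3 : IsGalois ℚ Qb := IsAlgClosure.isGalois ℚ Qb
  have a4 : CompactSpace GQ := inferInstance
  obtain ⟨N, hN⟩ := IsTopologicalGroup.exist_openNormalSubgroup_sub_clopen_nhds_of_one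
    (⟨V.isClosed_of_isOpen hV, hV⟩ : IsClopen (V : Set GQ)) V.one_mem
  haveI : N.toSubgroup.Normal := N.isNormal'
  haveI : Finite (GQ ⧸ N.toSubgroup) := N.toSubgroup.quotient_finite_of_isOpen N.isOpen'
  let r : GQ →* GQ ⧸ N.toSubgroup := QuotientGroup.mk' N.toSubgroup
  have hr : ∀ g, r g = 1 ↔ g ∈ N.toSubgroup := fun g => QuotientGroup.eq_one_iff g
  have ho : IsOpen {g : GQ | r g = 1} := by
    have e : {g : GQ | r g = 1} = (N.toSubgroup : Set GQ) := Set.ext hr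
    rw [e]
    exact N.isOpen'
  have n0 : orderOf (r σ) ≠ 0 := (orderOf_pos _).ne'
  obtain ⟨a, n₁, h1, e1⟩ := Nat.exists_eq_pow_mul_and_not_dvd n0 2 (by norm_num)
  have n1 : n₁ ≠ 0 := by
    rintro rfl
    exact h1 (dvd_zero 2)
  obtain ⟨b, k, h2, e2⟩ := Nat.exists_eq_pow_mul_and_not_dvd n1 p hp.ne_one
  have k1 : Odd k := by
    rw [← Nat.not_even_iff_odd, even_iff_two_dvd]
    exact fun h => h1 (e2 ▸ h.mul_left _)
  have hd : orderOf (r (σ ^ k)) ∣ 2 ^ a * p ^ b := by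
    rw [orderOf_dvd_iff_pow_eq_one, map_pow, ← pow_mul, ← orderOf_dvd_iff_pow_eq_one, e1, e2]
    exact ⟨1, by ring⟩
  have p3 : (3 : ℝ) ≤ p := by
    have := hp.two_le
    exact_mod_cast (by omega : 3 ≤ p)
  obtain ⟨φ, ⟨q, q1, q2, q3⟩, m, hm, hφ⟩ := hD _ r ho A (σ ^ k) {2, p}
    (by
      intro l hl
      rcases Finset.mem_insert.1 hl with rfl | hl
      · exact Nat.prime_two
      · rw [Finset.mem_singleton.1 hl]
        exact hp)
    (by
      rw [Finset.sum_pair p2.symm]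
      have : (1 : ℝ) / p ≤ 1 / 3 := one_div_le_one_div_of_le (by norm_num) p3
      push_cast
      linarith)
    (by
      intro l hl h
      rcases (Nat.Prime.dvd_mul hl).1 (h.trans hd) with h | h
      · rw [(Nat.prime_dvd_prime_iff_eq hl Nat.prime_two).1 (hl.dvd_of_dvd_pow h)]
        exact Finset.mem_insert_self _ _
      · rw [(Nat.prime_dvd_prime_iff_eq hl hp).1 (hl.dvd_of_dvd_pow h)]
        exact Finset.mem_insert_of_mem (Finset.mem_singleton_self _))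
  have hin : ∀ m' : ℕ, r φ = r (σ ^ k) ^ m' → φ⁻¹ * σ ^ (k * m') ∈ V := fun m' h => by
    apply hN
    show _ ∈ N.toSubgroup
    rw [← hr, map_mul, map_inv, h, pow_mul, map_pow r (σ ^ k) m', inv_mul_cancel]
  have hoV : (σ ^ k) ^ orderOf (r (σ ^ k)) ∈ V := by
    apply hN
    show _ ∈ N.toSubgroup
    rw [← hr, map_pow r (σ ^ k), pow_orderOf_eq_one]
  rcases Nat.even_or_odd m with he | he
  · have o1 : Odd (orderOf (r (σ ^ k))) := by
      rw [← Nat.not_even_iff_odd, even_iff_two_dvd]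
      intro h
      have := Nat.dvd_gcd (even_iff_two_dvd.1 he) h
      rw [hm.gcd_eq_one] at this
      omega
    refine ⟨q, φ, k, m + orderOf (r (σ ^ k)), _, q1, q2, q3, k1, h2, he.add_odd o1, hin _ ?_,
      by simpa using hm, hoV⟩
    rw [pow_add, pow_orderOf_eq_one, mul_one, hφ]
  · exact ⟨q, φ, k, m, _, q1, q2, q3, k1, h2, he, hin _ hφ, hm, hoV⟩

variable {F : Type} [Field F] {ρ : GQ →* GL (Fin 2) F} {H : Subgroup GQ}

theorem mx_mul (g h : GQ) : mx ρ (g * h) = mx ρ g * mx ρ h := by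
  simp only [mx, map_mul, Units.val_mul]

theorem mx_one : mx ρ 1 = 1 := by simp only [mx, map_one, Units.val_one]

theorem det_ne (g : GQ) : mx ρ g 0 0 * mx ρ g 1 1 - mx ρ g 0 1 * mx ρ g 1 0 ≠ 0 := by
  rw [← Matrix.det_fin_two]
  exact ((Matrix.isUnit_iff_isUnit_det _).1 (ρ g).isUnit).ne_zero

theorem sq_mem (h : Dh ρ H) {g : GQ} (hg : g ∉ H) : g * g ∈ H := by
  by_contra hc
  have h1 := (h.ad _ hc).1
  have h2 := det_ne (ρ := ρ) g
  rw [mx_mul, Matrix.mul_apply, Fin.sum_univ_two] at h1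
  rw [(h.ad g hg).1] at h1 h2
  apply h2
  linear_combination -h1

theorem odd_not_mem (h : Dh ρ H) {g : GQ} (hg : g ∉ H) {m : ℕ} (hm : Odd m) : g ^ m ∉ H := by
  obtain ⟨j, rfl⟩ := hm
  intro hc
  rw [pow_succ, pow_mul, sq] at hc
  exact hg ((H.mul_mem_cancel_left (H.pow_mem (sq_mem h hg) j)).1 hc)

theorem not_sc (h : Dh ρ H) {g : GQ} (hg : g ∉ H) : ¬ Sc ρ g := fun hs => by
  apply det_ne (ρ := ρ) g
  rw [(h.ad g hg).1, hs.1]
  ring

theorem diag_pow (h : Dh ρ H) {g : GQ} (hg : g ∈ H) (m : ℕ) :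
    mx ρ (g ^ m) 0 0 = mx ρ g 0 0 ^ m ∧ mx ρ (g ^ m) 1 1 = mx ρ g 1 1 ^ m := by
  induction m with
  | zero => simp [mx_one]
  | succ m ih =>
    rw [pow_succ, mx_mul, Matrix.mul_apply, Matrix.mul_apply, Fin.sum_univ_two, Fin.sum_univ_two,
      ih.1, ih.2, (h.dg g hg).1, (h.dg g hg).2]
    constructor <;> ring

theorem sc_congr {g g' : GQ} (e : ρ (g⁻¹ * g') = 1) (hs : Sc ρ g) : Sc ρ g' := by
  have : ρ g' = ρ g := by
    rw [map_mul, map_inv, inv_mul_eq_one] at e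
    exact e.symm
  unfold Sc mx at *
  rwa [this]

end AuxP

open AuxP in
theorem aux (hD : P027M.TW.Spec_DENS) : AUX := by
  intro F _ _ ρ H h U A σ hU hσ
  have hV : IsOpen ((U ⊓ ρ.ker : Subgroup GQ) : Set GQ) := hU.inter h.opn
  by_cases hH : σ ∈ H
  · have y0 : mx ρ σ 1 1 ≠ 0 := fun e => det_ne (ρ := ρ) σ (by rw [e, (h.dg σ hH).1]; ring)
    set ψ : F := mx ρ σ 0 0 / mx ρ σ 1 1 with hψ
    have hsc : ∀ j : ℕ, Sc ρ (σ ^ j) → ψ ^ j = 1 := fun j hj => by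
      have e := hj.2.2
      rw [(diag_pow h hH j).1, (diag_pow h hH j).2] at e
      rw [hψ, div_pow, e, div_self (pow_ne_zero _ y0)]
    have hone : ∀ j : ℕ, ρ (σ ^ j) = 1 → ψ ^ j = 1 := fun j hj => hsc j (by
      unfold Sc mx
      rw [hj]
      simp)
    have ψ1 : ψ ≠ 1 := fun e => hσ ⟨(h.dg σ hH).1, (h.dg σ hH).2, (div_eq_one_iff_eq y0).1 e⟩
    have t1 : orderOf ψ ≠ 1 := fun e => ψ1 (orderOf_eq_one_iff.1 e)
    obtain ⟨p, hp, p2, hpt⟩ : ∃ p : ℕ, p.Prime ∧ p ≠ 2 ∧ p ∣ orderOf ψ := by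
      by_cases t0 : orderOf ψ = 0
      · exact ⟨3, Nat.prime_three, by norm_num, t0 ▸ dvd_zero 3⟩
      · refine ⟨(orderOf ψ).minFac, Nat.minFac_prime t1, fun e => ?_, Nat.minFac_dvd _⟩
        obtain ⟨j, hj⟩ : 2 ∣ orderOf ψ := e ▸ Nat.minFac_dvd _
        have h2 : (ψ ^ j - 1) ^ 2 = 0 := by
          have h3 : (ψ ^ j) ^ 2 = 1 := by rw [← pow_mul, mul_comm, ← hj, pow_orderOf_eq_one]
          have h4 : (2 : F) = 0 := CharTwo.two_eq_zero
          linear_combination h3 + (1 - ψ ^ j) * h4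
        have h5 : orderOf ψ ∣ j :=
          orderOf_dvd_iff_pow_eq_one.2 (sub_eq_zero.1 (pow_eq_zero_iff two_ne_zero |>.1 h2))
        have := Nat.le_of_dvd (by omega) h5
        omega
    obtain ⟨q, φ, k, m, o, q1, q2, q3, k1, k2, m1, hv, hc, ho⟩ := key hD _ hV A σ p hp p2
    refine ⟨q, q1, q2, φ, k * m, q3, k1.mul m1, hv.1, fun hs => k2 (hpt.trans ?_)⟩
    have e1 : (ψ ^ k) ^ m = 1 := by
      rw [← pow_mul]
      exact hsc _ (sc_congr hv.2 hs)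
    have e2 : (ψ ^ k) ^ o = 1 := by
      rw [← pow_mul]
      exact hone _ (by rw [pow_mul]; exact ho.2)
    have e3 := Nat.dvd_gcd (orderOf_dvd_iff_pow_eq_one.2 e1) (orderOf_dvd_iff_pow_eq_one.2 e2)
    rw [hc.gcd_eq_one, Nat.dvd_one, orderOf_eq_one_iff] at e3
    exact orderOf_dvd_iff_pow_eq_one.2 e3
  · obtain ⟨q, φ, k, m, o, q1, q2, q3, k1, -, m1, hv, -, -⟩ :=
      key hD _ hV A σ 3 Nat.prime_three (by norm_num)
    exact ⟨q, q1, q2, φ, k * m, q3, k1.mul m1, hv.1, fun hs =>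
      not_sc h (odd_not_mem h hH (k1.mul m1)) (sc_congr hv.2 hs)⟩

end Vale.Agent.P022D.Sel
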