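import Vale.Agent.P022D.Sel.Defs
import Vale.Agent.P011.Arith.SUnit

/-!
# P022, block Sel: the count
-/

set_option linter.all false

noncomputable section

namespace Vale.Agent.P022D.Sel

open NumberField IsDedekindDomain
open Vale.Agent.P022 Vale.Agent.P022.C
open Vale.Agent.P027M.S (Pr Inert mx)
open Vale.Agent.P027M.S.Gen (cm val_cm mem_cm)
open scoped Classical

namespace Count

variable {L : Type} [Field L] [NumberField L] {F : Type} [Field F] [CharP F 2]

theorem pr_ext {v w : Pr L} (h : ∀ y : L, v.valuation L y = w.valuation L y) : v = w := by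
  apply HeightOneSpectrum.ext
  ext y
  rw [← v.valuation_lt_one_iff_mem (K := L) y, ← w.valuation_lt_one_iff_mem (K := L) y, h]

theorem cm_mv (τ : L ≃+* L) (v : Pr L) : cm τ (mv τ v) = v :=
  pr_ext fun y => by rw [val_cm, mv, val_cm, RingEquiv.symm_apply_apply]

theorem mv_cm (τ : L ≃+* L) (v : Pr L) : mv τ (cm τ v) = v :=
  pr_ext fun y => by rw [mv, val_cm, val_cm, RingEquiv.apply_symm_apply]

theorem val_iter (τ : L ≃+* L) (n : ℕ) : ∀ (v : Pr L) (y : L),
    ((cm τ)^[n] v).valuation L y = v.valuation L (τ^[n] y) := by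
  induction n with
  | zero => intro v y; rfl
  | succ n ih =>
    intro v y
    rw [Function.iterate_succ_apply', val_cm, ih, Function.iterate_succ_apply]

theorem mv_ov (τ : L ≃+* L) (A : Finset ℕ) (v : Pr L) : mv τ v ∈ ov L A ↔ v ∈ ov L A :=
  cm_ov τ.symm A v

theorem ov_fin (A : Finset ℕ) : (ov L A).Finite := by
  have h : ∀ l : ℕ, {v : Pr L | l ≠ 0 ∧ (l : 𝓞 L) ∈ v.asIdeal}.Finite := by
    intro l
    by_cases hl : l = 0
    · simp [hl]
    · refine (P011.Arith.finite_dvd (F := L) (I := Ideal.span {(l : 𝓞 L)}) ?_).subset ?_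
      · simpa using hl
      · intro v hv
        exact Ideal.dvd_span_singleton.mpr hv.2
  refine (A.finite_toSet.biUnion fun l _ => h l).subset ?_
  rintro v ⟨l, hl, h0, hv⟩
  exact Set.mem_biUnion hl ⟨h0, hv⟩

theorem sq_cm (τ : L ≃+* L) (u : Pr L) (y : L) : Sq u (τ y) ↔ Sq (cm τ u) y := by
  unfold Sq
  rw [val_cm]
  refine and_congr Iff.rfl ⟨fun ⟨z, hz⟩ => ⟨τ.symm z, ?_⟩, fun ⟨z, hz⟩ => ⟨τ z, ?_⟩⟩
  · rwa [val_cm, map_sub, map_pow, RingEquiv.apply_symm_apply]
  · rwa [val_cm, map_sub, map_pow] at hz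

theorem val_of {v : Pr L} {y : L} (hy : y ≠ 0) (h : ordv v y = 0) : v.valuation L y = 1 := by
  have h0 : v.valuation L y ≠ 0 := (Valuation.ne_zero_iff _).mpr hy
  rw [ordv, neg_eq_zero] at h
  rw [← WithZero.exp_log h0, h, WithZero.exp_zero]

theorem ord_of {v : Pr L} {y : L} (h : v.valuation L y = 1) : ordv v y = 0 := by
  rw [ordv, h, WithZero.log_one, neg_zero]

theorem ord_mul (v : Pr L) {y z : L} (hy : y ≠ 0) (hz : z ≠ 0) :
    ordv v (y * z) = ordv v y + ordv v z := by
  rw [ordv, ordv, ordv, map_mul, WithZero.log_mul ((Valuation.ne_zero_iff _).mpr hy)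
    ((Valuation.ne_zero_iff _).mpr hz), neg_add]

/-- the element of the field -/
def ev {U : Subgroup Lˣ} (y : Additive U) : L := ((Additive.toMul y : U) : Lˣ)

theorem ev_ne {U : Subgroup Lˣ} (y : Additive U) : ev y ≠ 0 := Units.ne_zero _

theorem ev_add {U : Subgroup Lˣ} (y z : Additive U) : ev (y + z) = ev y * ev z := rfl

/-- the symbols -/
def sy (Q : Finset ℕ) (y : L) (u : Pr L) : ZMod 2 := if u ∈ ov L Q ∧ ¬ Sq u y then 1 else 0

/-- the elements are units at the primes above `Q` -/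
def Un (Q : Finset ℕ) (U : Subgroup Lˣ) : Prop :=
  ∀ y : Additive U, ∀ u ∈ ov L Q, u.valuation L (ev y) = 1

/-- the symbol map -/
def syH (hS : SYM) {Q : Finset ℕ} {U : Subgroup Lˣ} (hU : Un Q U) :
    Additive U →+ (Pr L → ZMod 2) :=
  AddMonoidHom.mk' (fun y => sy Q (ev y)) fun y z => by
    funext u
    rw [Pi.add_apply, ev_add]
    unfold sy
    by_cases hu : u ∈ ov L Q
    · have h := hS L u (ev y) (ev z) (hU y u hu) (hU z u hu)
      have h' := hS L u (ev z) (ev y) (hU z u hu) (hU y u hu)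
      rw [mul_comm] at h'
      by_cases a : Sq u (ev y) <;> by_cases b : Sq u (ev z)
      · simp [hu, a, b, (h.1 a).mpr b]
      · simp [hu, a, b, (h.1 a)]
      · simp [hu, a, b, (h'.1 b)]
      · simp only [hu, a, b, h.2 a b, not_true, and_false, not_false_iff, and_self, if_true,
          if_false]
        rfl
    · simp [hu]

/-- the pairing -/
def pa (Q : Finset ℕ) : (Pr L → F) →ₗ[F] ((Pr L → ZMod 2) →+ F) where
  toFun e := AddMonoidHom.mk'
    (fun b => ∑ u ∈ (ov_fin (L := L) Q).toFinset, e u * ZMod.castHom (dvd_refl 2) F (b u))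
    fun b c => by
      rw [← Finset.sum_add_distrib]
      exact Finset.sum_congr rfl fun u _ => by rw [Pi.add_apply, map_add, mul_add]
  map_add' e f := AddMonoidHom.ext fun b => by
    rw [AddMonoidHom.add_apply, AddMonoidHom.mk'_apply, AddMonoidHom.mk'_apply,
      AddMonoidHom.mk'_apply, ← Finset.sum_add_distrib]
    exact Finset.sum_congr rfl fun u _ => by rw [Pi.add_apply, add_mul]
  map_smul' c e := AddMonoidHom.ext fun b => by
    rw [AddMonoidHom.smul_apply, AddMonoidHom.mk'_apply, AddMonoidHom.mk'_apply,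
      smul_eq_mul, Finset.mul_sum]
    exact Finset.sum_congr rfl fun u _ => by
      rw [Pi.smul_apply, smul_eq_mul, RingHom.id_apply, mul_assoc]

theorem pa_apply (Q : Finset ℕ) (e : Pr L → F) (b : Pr L → ZMod 2) : pa Q e b =
    ∑ u ∈ (ov_fin (L := L) Q).toFinset, e u * ZMod.castHom (dvd_refl 2) F (b u) := rfl

/-- the precomposition -/
def pre {A B : Type} [AddCommGroup A] [AddCommGroup B] (f : A →+ B) :
    (B →+ F) →ₗ[F] (A →+ F) where
  toFun k := k.comp f
  map_add' _ _ := rfl
  map_smul' _ _ := rfl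

/-- the functional of a vector -/
def res (hS : SYM) {Q : Finset ℕ} {U : Subgroup Lˣ} (hU : Un Q U) (τ : L ≃+* L) (x : F) :
    E F (mv τ) x (ov L Q) →ₗ[F] (Additive U →+ F) :=
  (pre (syH hS hU)).comp ((pa Q).comp (Submodule.subtype _))

theorem res_apply (hS : SYM) {Q : Finset ℕ} {U : Subgroup Lˣ} (hU : Un Q U) (τ : L ≃+* L) (x : F)
    (e : E F (mv τ) x (ov L Q)) (y : Additive U) :
    res hS hU τ x e y = pa Q (e : Pr L → F) (sy Q (ev y)) := rfl

/-- the action on the symbols -/
def tB (τ : L ≃+* L) : (Pr L → ZMod 2) →+ (Pr L → ZMod 2) :=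
  AddMonoidHom.mk' (fun b u => b (cm τ u)) fun _ _ => rfl

theorem tB_iter (τ : L ≃+* L) (n : ℕ) : ∀ (b : Pr L → ZMod 2) (u : Pr L),
    (tB τ)^[n] b u = b ((cm τ)^[n] u) := by
  induction n with
  | zero => intro b u; rfl
  | succ n ih =>
    intro b u
    rw [Function.iterate_succ_apply, ih, Function.iterate_succ_apply']
    rfl

theorem key (hE : EXT) (hS : SYM) {Q : Finset ℕ} {U : Subgroup Lˣ} (hU : Un Q U) (τ : L ≃+* L)
    {m : ℕ} {x : F} (hm : Odd m) (hx : x ^ m = 1) (hτ : ∀ y, τ^[m] y = y)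
    (s : Additive U →+ Additive U) (hs : ∀ y, ev (s y) = τ (ev y)) (l : Additive U →+ F)
    (hl : l ∈ X F s x) (hk : ∀ y, (∀ u ∈ ov L Q, Sq u (ev y)) → l y = 0) :
    ∃ e, res hS hU τ x e = l := by
  obtain ⟨k, hk1, hk2⟩ := hE _ _ F (syH hS hU) s (tB τ) m x hm hx
    (fun b => funext fun u => by
      rw [tB_iter]
      congr 1
      exact pr_ext fun y => by rw [val_iter, hτ])
    (fun y => funext fun u => by
      change sy Q (ev (s y)) u = sy Q (ev y) (cm τ u)
      unfold sy
      rw [hs]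
      exact if_congr (and_congr (cm_ov τ Q u).symm (not_congr (sq_cm τ u _))) rfl rfl)
    l hl (fun y b h => hk y fun u hu => by
      by_contra hc
      have h1 : sy Q (ev y) u = (2 • b) u := congrFun h u
      rw [sy, if_pos ⟨hu, hc⟩, Pi.smul_apply, two_nsmul, CharTwo.add_self_eq_zero] at h1
      exact one_ne_zero h1)
  refine ⟨⟨fun u => if u ∈ ov L Q then k (Pi.single u 1) else 0, fun v hv => if_neg hv,
    fun v => ?_⟩, AddMonoidHom.ext fun y => ?_⟩
  · beta_reduce
    by_cases hv : v ∈ ov L Q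
    · rw [if_pos hv, if_pos ((mv_ov τ Q v).mpr hv), ← hk1 (Pi.single v 1)]
      congr 1
      funext u
      change _ = (Pi.single v 1 : Pr L → ZMod 2) (cm τ u)
      by_cases h : u = mv τ v
      · rw [h, cm_mv, Pi.single_eq_same, Pi.single_eq_same]
      · rw [Pi.single_eq_of_ne h, Pi.single_eq_of_ne]
        intro h'
        exact h (by rw [← h', mv_cm])
    · rw [if_neg hv, if_neg (fun h => hv ((mv_ov τ Q v).mp h)), mul_zero]
  · rw [res_apply, pa_apply, ← hk2 y]
    have e : syH hS hU y = ∑ u ∈ (ov_fin (L := L) Q).toFinset, Pi.single u (sy Q (ev y) u) := by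
      funext w
      rw [Finset.sum_apply]
      by_cases hw : w ∈ ov L Q
      · rw [Finset.sum_eq_single w (fun u _ h => Pi.single_eq_of_ne h.symm _)
          (fun h => absurd ((ov_fin Q).mem_toFinset.mpr hw) h), Pi.single_eq_same]
        rfl
      · rw [Finset.sum_eq_zero fun u hu => Pi.single_eq_of_ne
          (fun h : w = u => hw (h ▸ (ov_fin Q).mem_toFinset.mp hu)) _]
        exact if_neg fun h => hw h.1
    rw [e, map_sum]
    refine Finset.sum_congr rfl fun u hu => ?_
    change (if u ∈ ov L Q then k (Pi.single u 1) else 0) * _ = _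
    rw [if_pos ((ov_fin Q).mem_toFinset.mp hu)]
    unfold sy
    split_ifs
    · rw [map_one, mul_one]
    · rw [map_zero, mul_zero, Pi.single_zero, map_zero]

theorem fin_supp {y : L} (hy : y ≠ 0) (a : Pr L → F) :
    (Function.support fun v : Pr L => (ordv v y : F) * a v).Finite :=
  (P011.Arith.finite_valuation_ne_one y hy).subset fun v hv h =>
    hv (by change ((ordv v y : ℤ) : F) * a v = 0; rw [ord_of h, Int.cast_zero, zero_mul])

/-- the functional of a character -/
def lam (U : Subgroup Lˣ) : (Pr L → F) →ₗ[F] (Additive U →+ F) where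
  toFun a := AddMonoidHom.mk' (fun y => ∑ᶠ v : Pr L, (ordv v (ev y) : F) * a v) fun y z => by
    rw [← finsum_add_distrib (fin_supp (ev_ne y) a) (fin_supp (ev_ne z) a)]
    exact finsum_congr fun v => by
      rw [ev_add, ord_mul v (ev_ne y) (ev_ne z), Int.cast_add, add_mul]
  map_add' a b := AddMonoidHom.ext fun y => by
    rw [AddMonoidHom.add_apply, AddMonoidHom.mk'_apply, AddMonoidHom.mk'_apply,
      AddMonoidHom.mk'_apply,
      ← finsum_add_distrib (fin_supp (ev_ne y) a) (fin_supp (ev_ne y) b)]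
    exact finsum_congr fun v => by rw [Pi.add_apply, mul_add]
  map_smul' c a := AddMonoidHom.ext fun y => by
    rw [AddMonoidHom.smul_apply, AddMonoidHom.mk'_apply, AddMonoidHom.mk'_apply,
      smul_eq_mul, mul_finsum]
    exact finsum_congr fun v => by
      rw [Pi.smul_apply, smul_eq_mul, RingHom.id_apply]; ring

theorem lam_apply (U : Subgroup Lˣ) (a : Pr L → F) (y : Additive U) :
    lam U a y = ∑ᶠ v : Pr L, (ordv v (ev y) : F) * a v := rfl

/-- the action on the units at `Q` -/
def tG (τ : L ≃+* L) (Q : Finset ℕ) :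
    Additive (((ov L Q)ᶜ).unit L) →+ Additive (((ov L Q)ᶜ).unit L) where
  toFun y := Additive.ofMul ⟨Units.map (τ : L →* L) (Additive.toMul y : ((ov L Q)ᶜ).unit L),
    fun v hv => by
      have h := (Additive.toMul y).2 (cm τ v) (fun h => hv fun k => h ((cm_ov τ Q v).2 k))
      rwa [val_cm] at h⟩
  map_zero' := congrArg Additive.ofMul (Subtype.ext (map_one _))
  map_add' y z := congrArg Additive.ofMul (Subtype.ext (map_mul _ _ _))

theorem disj {A Q : Finset ℕ} (hA : ∀ l ∈ A, l = 0 ∨ l.Prime) (hQ : ∀ q ∈ Q, q.Prime ∧ q ∉ A)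
    {v : Pr L} (h : v ∈ ov L Q) : v ∉ ov L A := by
  rintro ⟨l, hl, h0, hv⟩
  obtain ⟨q, hq, -, hw⟩ := h
  have hp : l.Prime := (hA l hl).resolve_left h0
  have hc : Nat.Coprime l q :=
    (Nat.coprime_primes hp (hQ q hq).1).mpr fun e => (hQ q hq).2 (e ▸ hl)
  obtain ⟨a, b, hab⟩ := Nat.Coprime.cast (R := 𝓞 L) hc
  exact v.isPrime.ne_top ((Ideal.eq_top_iff_one _).mpr
    (hab ▸ Ideal.add_mem _ (Ideal.mul_mem_left _ a hv) (Ideal.mul_mem_left _ b hw)))

theorem split (τ : L ≃+* L) (x : F) {T A : Finset ℕ} (h : T ⊆ A) :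
    Module.rank F (E F (mv τ) x (ov L T)) + Module.rank F (E F (mv τ) x (ov L A \ ov L T)) ≤
      Module.rank F (E F (mv τ) x (ov L A)) := by
  have sub : ov L T ⊆ ov L A := fun v ⟨l, hl, k⟩ => ⟨l, h hl, k⟩
  rw [← Submodule.rank_sup_add_rank_inf_eq]
  have e : E F (mv τ) x (ov L T) ⊓ E F (mv τ) x (ov L A \ ov L T) = ⊥ := by
    refine (Submodule.eq_bot_iff _).mpr fun a ha => funext fun v => ?_
    by_cases hv : v ∈ ov L T
    · exact ha.2.1 v fun k => k.2 hv
    · exact ha.1.1 v hv
  rw [e, rank_bot, add_zero]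
  refine Submodule.rank_mono (sup_le (fun a ha => ⟨fun v hv => ha.1 v fun k => hv (sub k), ha.2⟩)
    fun a ha => ⟨fun v hv => ha.1 v fun k => hv k.1, ha.2⟩)

/-- the restriction to a set -/
def cut (S : Set (Pr L)) : (Pr L → F) →ₗ[F] (Pr L → F) where
  toFun a v := if v ∈ S then a v else 0
  map_add' a b := funext fun v => by
    rw [Pi.add_apply, Pi.add_apply]; split_ifs <;> simp
  map_smul' c a := funext fun v => by
    rw [Pi.smul_apply, Pi.smul_apply]; split_ifs <;> simp

theorem rank_le {V W : Type} [AddCommGroup V] [Module F V] [AddCommGroup W] [Module F W]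
    (f : V →ₗ[F] W) (R : Submodule F V) :
    Module.rank F R = Module.rank F (R.map f) + Module.rank F (R ⊓ LinearMap.ker f : Submodule F V) := by
  rw [← LinearMap.rank_range_add_rank_ker (f.domRestrict R), LinearMap.range_domRestrict,
    LinearMap.ker_domRestrict, ← Submodule.map_comap_subtype]
  congr 1
  exact (Submodule.equivMapOfInjective _ R.injective_subtype _).rank_eq

end Count

open Count in
theorem count (hE : EXT) (hS : SYM) : COUNT := by
  intro L F _ _ _ _ τ m x T Q A Y R hm hx hτ hTA hA hQ hB hY hK hR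
  have hU : Un Q ((ov L A).unit L) := fun y u hu => (Additive.toMul y).2 u (disj hA hQ hu)
  have hG : Un Q (((ov L Q)ᶜ).unit L) := fun y u hu => (Additive.toMul y).2 u fun k => k hu
  have h1 := split τ x hTA
  have h2 : Module.rank F (R.map (cut (ov L A))) ≤
      Module.rank F (E F (mv τ) x (ov L A \ ov L T)) := by
    refine Submodule.rank_mono ?_
    rintro _ ⟨a, ha, rfl⟩
    refine ⟨fun v hv => ?_, fun v => ?_⟩
    · change (if v ∈ ov L A then a v else 0) = 0
      split_ifs with h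
      · exact (hR a ha).zero v (Or.inl (by by_contra k; exact hv ⟨h, k⟩))
      · rfl
    · change (if mv τ v ∈ ov L A then a (mv τ v) else 0) = x * if v ∈ ov L A then a v else 0
      by_cases h : v ∈ ov L A
      · rw [if_pos h, if_pos ((mv_ov τ A v).mpr h), (hR a ha).eqv]
      · rw [if_neg h, if_neg fun k => h ((mv_ov τ A v).mp k), mul_zero]
  have h3 := rank_le (cut (F := F) (ov L A)) R
  set R0 : Submodule F (Pr L → F) := R ⊓ LinearMap.ker (cut (ov L A)) with hR0
  have z0 : ∀ a ∈ R0, ∀ v ∈ ov L A, a v = 0 := fun a ha v hv => by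
    have h := congrFun (LinearMap.mem_ker.mp ha.2) v
    change (if v ∈ ov L A then a v else 0) = 0 at h
    rwa [if_pos hv] at h
  have h4 : Module.rank F Y ≤ Module.rank F (LinearMap.range (res hS hU τ x)) :=
    Submodule.rank_mono fun l hl =>
      key hE hS hU τ hm hx hτ (tU τ A) (fun y => rfl) l (hY hl) (hK l hl)
  have h5 : Module.rank F R0 = Module.rank F (R0.map (lam (((ov L Q)ᶜ).unit L))) := by
    rw [rank_le (lam (((ov L Q)ᶜ).unit L)) R0]
    have e : R0 ⊓ LinearMap.ker (lam (((ov L Q)ᶜ).unit L)) = ⊥ := by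
      refine (Submodule.eq_bot_iff _).mpr fun a ha => funext fun v => ?_
      by_cases hvA : v ∈ ov L A
      · exact z0 a ha.1 v hvA
      by_cases hvQ : v ∈ ov L Q
      · exact (hR a ha.1.1).zero v (Or.inr hvQ)
      obtain ⟨y, y0, y1, y2⟩ := hB v hvA
      have h := DFunLike.congr_fun (LinearMap.mem_ker.mp ha.2)
        (Additive.ofMul ⟨Units.mk0 y y0, fun u hu => val_of y0 (y2 u
          (disj hA hQ (not_not.mp hu)) fun e => hvQ (e ▸ not_not.mp hu))⟩)
      rw [lam_apply, finsum_eq_single _ v] at h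
      · change ((ordv v y : ℤ) : F) * a v = 0 at h
        rwa [y1, Int.cast_one, one_mul] at h
      · intro w hw
        change ((ordv w y : ℤ) : F) * a w = 0
        by_cases k : w ∈ ov L A
        · rw [z0 a ha.1 w k, mul_zero]
        · rw [y2 w k hw, Int.cast_zero, zero_mul]
    rw [e, rank_bot, add_zero]
  have h6 : Module.rank F (R0.map (lam (((ov L Q)ᶜ).unit L))) ≤
      Module.rank F (LinearMap.ker (res hS hU τ x)) := by
    refine le_trans (Submodule.rank_mono ?_) (rank_map_le (res hS hG τ x) _)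
    rintro _ ⟨a, ha, rfl⟩
    obtain ⟨e, he⟩ := key hE hS hG τ hm hx hτ (tG τ Q) (fun y => rfl) (lam _ a)
      (fun y => by
        rw [lam_apply, lam_apply, mul_finsum,
          ← finsum_comp_equiv (⟨mv τ, cm τ, cm_mv τ, mv_cm τ⟩ : Pr L ≃ Pr L)]
        refine finsum_congr fun v => ?_
        change ((ordv (mv τ v) (τ (ev y)) : ℤ) : F) * a (mv τ v) = _
        rw [(hR a ha.1).eqv, ordv, ← val_cm, cm_mv, ordv]
        ring)
      (fun y hy => (hR a ha.1).law (ev y) (ev_ne y) hy)
    refine ⟨e, LinearMap.mem_ker.mpr (AddMonoidHom.ext fun y => ?_), he⟩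
    have h := DFunLike.congr_fun he
      (Additive.ofMul ⟨(Additive.toMul y : (ov L A).unit L), fun u hu => hU y u (not_not.mp hu)⟩)
    refine h.trans ?_
    rw [lam_apply]
    refine finsum_eq_zero_of_forall_eq_zero fun w => ?_
    by_cases k : w ∈ ov L A
    · rw [z0 a ha w k, mul_zero]
    · change ((ordv w (ev y) : ℤ) : F) * a w = 0
      rw [ord_of (y := ev y) ((Additive.toMul y).2 w k), Int.cast_zero, zero_mul]
  have h7 := LinearMap.rank_range_add_rank_ker (res hS hU τ x)
  calc _ = (Module.rank F Y + Module.rank F R0) + (Module.rank F (E F (mv τ) x (ov L T)) +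
        Module.rank F (R.map (cut (ov L A)))) := by rw [h3]; ring
    _ ≤ _ := add_le_add (h7 ▸ add_le_add h4 (h5 ▸ h6)) ((add_le_add le_rfl h2).trans h1)

end Vale.Agent.P022D.Sel
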