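import Vale.Agent.P022D.Sel.Defs
import Vale.Agent.P022.H916.Fld

/-!
# P022D, block Sel: the fields attached to a dihedral representation
-/

set_option linter.all false

noncomputable section

namespace Vale.Agent.P022D.Sel

open NumberField
open Vale.Agent.P022 Vale.Agent.P022.C
open Vale.Agent.P027M.S (mx)

namespace FldP

variable {F : Type} [Field F] {ρ : GQ →* GL (Fin 2) F} {H : Subgroup GQ}

theorem ent (ρ : GQ →* GL (Fin 2) F) (g h : GQ) (i j : Fin 2) :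
    mx ρ (g * h) i j = mx ρ g i 0 * mx ρ h 0 j + mx ρ g i 1 * mx ρ h 1 j := by
  simp only [mx, map_mul, Units.val_mul, Matrix.mul_apply, Fin.sum_univ_two]

theorem det_ne (ρ : GQ →* GL (Fin 2) F) (g : GQ) :
    mx ρ g 0 0 * mx ρ g 1 1 - mx ρ g 0 1 * mx ρ g 1 0 ≠ 0 := by
  rw [← Matrix.det_fin_two]
  exact (Matrix.isUnits_det_units (ρ g)).ne_zero

theorem dne (hD : Dh ρ H) {g : GQ} (hg : g ∈ H) : mx ρ g 0 0 ≠ 0 ∧ mx ρ g 1 1 ≠ 0 := by
  have := det_ne ρ g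
  rw [(hD.dg g hg).1, zero_mul, sub_zero] at this
  exact mul_ne_zero_iff.1 this

theorem ane (hD : Dh ρ H) {g : GQ} (hg : g ∉ H) : mx ρ g 0 1 ≠ 0 ∧ mx ρ g 1 0 ≠ 0 := by
  have := det_ne ρ g
  rw [(hD.ad g hg).1, zero_mul, zero_sub, neg_ne_zero] at this
  exact mul_ne_zero_iff.1 this

theorem two (hD : Dh ρ H) (g : GQ) (hg : g ∉ H) (g' : GQ) (hg' : g' ∉ H) : g * g' ∈ H := by
  by_contra hn
  have h := (hD.ad _ hn).1
  rw [ent, (hD.ad g hg).1, zero_mul, zero_add] at h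
  exact mul_ne_zero (ane hD hg).1 (ane hD hg').2 h

theorem sc_iff (g : GQ) : Sc ρ g ↔ ρ g ∈ Subgroup.center (GL (Fin 2) F) := by
  constructor
  · rintro ⟨h1, h2, h3⟩
    rw [Subgroup.mem_center_iff]
    intro A
    apply Units.ext
    simp only [mx] at h1 h2 h3
    ext i j
    fin_cases i <;> fin_cases j <;>
      simp [Matrix.mul_apply, Fin.sum_univ_two, h1, h2, h3, mul_comm]
  · intro h
    rw [Subgroup.mem_center_iff] at h
    have h1 := congrArg (fun A : GL (Fin 2) F => (A : Matrix (Fin 2) (Fin 2) F))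
      (h (Matrix.GeneralLinearGroup.mkOfDetNeZero !![1, 1; 0, 1] (by simp)))
    have h2 := congrArg (fun A : GL (Fin 2) F => (A : Matrix (Fin 2) (Fin 2) F))
      (h (Matrix.GeneralLinearGroup.mkOfDetNeZero !![1, 0; 1, 1] (by simp)))
    have a := congrFun (congrFun h1 0) 0
    have b := congrFun (congrFun h1 0) 1
    have c := congrFun (congrFun h2 0) 0
    simp [Matrix.mul_apply, Fin.sum_univ_two] at a b c
    refine ⟨c, a, ?_⟩
    simp only [mx]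
    linear_combination -b

/-- the elements which act by scalars -/
def Gam (ρ : GQ →* GL (Fin 2) F) : Subgroup GQ := (Subgroup.center (GL (Fin 2) F)).comap ρ

theorem mem_Gam (g : GQ) : g ∈ Gam ρ ↔ Sc ρ g := (sc_iff g).symm

theorem Gam_le (hD : Dh ρ H) : Gam ρ ≤ H := by
  intro g hg
  by_contra hn
  exact (ane hD hn).1 ((mem_Gam g).1 hg).1

theorem Gam_open (hD : Dh ρ H) : IsOpen (Gam ρ : Set GQ) := by
  refine Subgroup.isOpen_mono (H₁ := ρ.ker) (fun g hg => ?_) hD.opn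
  show ρ g ∈ Subgroup.center _
  rw [MonoidHom.mem_ker.1 hg]
  exact Subgroup.one_mem _

theorem sq_mem (hD : Dh ρ H) (g : GQ) (hg : g ∉ H) : g * g ∈ Gam ρ := by
  rw [mem_Gam]
  obtain ⟨h1, h2⟩ := hD.ad g hg
  refine ⟨?_, ?_, ?_⟩ <;> simp only [ent, h1, h2] <;> ring

theorem conj_mem (hD : Dh ρ H) (g u : GQ) (hu : u ∈ H) : g * u * g⁻¹ ∈ H := by
  by_cases hg : g ∈ H
  · exact H.mul_mem (H.mul_mem hg hu) (H.inv_mem hg)
  · refine two hD _ (fun h => hg ?_) _ (fun h => hg (by simpa using H.inv_mem h))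
    simpa using H.mul_mem h (H.inv_mem hu)

/-- the ratio of the two characters -/
def psi (hD : Dh ρ H) : H →* F where
  toFun g := mx ρ g 0 0 / mx ρ g 1 1
  map_one' := by simp [mx]
  map_mul' g h := by
    rw [Subgroup.coe_mul, ent, ent, (hD.dg g g.2).1, (hD.dg g g.2).2, zero_mul, zero_mul, add_zero,
      zero_add, mul_div_mul_comm]

theorem psi_eq_one (hD : Dh ρ H) (g : H) : psi hD g = 1 ↔ (g : GQ) ∈ Gam ρ := by
  rw [mem_Gam]
  show mx ρ g 0 0 / mx ρ g 1 1 = 1 ↔ _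
  rw [div_eq_one_iff_eq (dne hD g.2).2]
  exact ⟨fun h => ⟨(hD.dg g g.2).1, (hD.dg g g.2).2, h⟩, fun h => h.2.2⟩

theorem exists_s (hq : QUAD) (hk : KUMQ) (hD : Dh ρ H) : ∃ s ∈ Ginf, s ∉ H := by
  by_contra hn
  push Not at hn
  obtain ⟨d, w, hd, hw, hH, hH'⟩ := hq H (Subgroup.isOpen_mono (Gam_le hD) (Gam_open hD)) (two hD)
  obtain ⟨e, f, z, hz⟩ := hk d w hd hw (fun g hg => hH g (hn g hg))
  obtain ⟨g, hg, hfix⟩ := hD.cyc
  obtain ⟨ζ, hζ⟩ := IsAlgClosed.exists_pow_nat_eq (-1 : Qb) (n := 4) (by norm_num)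
  have h8 : g ζ = ζ := hfix ζ (by
    rw [show (8 : ℕ) = 4 * 2 by norm_num, pow_mul, hζ]; norm_num)
  have hi : (ζ ^ 2) ^ 2 = -1 := by rw [← pow_mul]; exact hζ
  have hr : (ζ - ζ ^ 3) ^ 2 = 2 := by linear_combination (ζ ^ 2 - 2) * hζ
  have hv : ((ζ ^ 2) ^ e * (ζ - ζ ^ 3) ^ f * (z : Qb)) ^ 2 = w ^ 2 := by
    rw [hw, hz, mul_pow, mul_pow, ← pow_mul, mul_comm e, pow_mul, hi, ← pow_mul, mul_comm f,
      pow_mul, hr]
    push_cast
    ring
  have hgv : g ((ζ ^ 2) ^ e * (ζ - ζ ^ 3) ^ f * (z : Qb)) =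
      (ζ ^ 2) ^ e * (ζ - ζ ^ 3) ^ f * (z : Qb) := by
    simp only [map_mul, map_pow, map_sub, h8, map_ratCast]
  have hgw : g w = w := by
    rcases sq_eq_sq_iff_eq_or_eq_neg.1 hv with h | h
    · rw [← h, hgv]
    · have : w = -((ζ ^ 2) ^ e * (ζ - ζ ^ 3) ^ f * (z : Qb)) := by rw [h, neg_neg]
      rw [this, map_neg, hgv]
  have h0 : w = 0 := by
    have := hH' g hg
    rw [hgw] at this
    linear_combination (1 / 2 : Qb) * this
  rw [h0] at hw
  exact hd (by exact_mod_cast (by simpa using hw.symm : (d : Qb) = 0))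

end FldP

open FldP in
theorem fld (hq : QUAD) (hk : KUMQ) (ho : ODD) : FLD := by
  intro F _ _ ρ H hD
  have hHo : IsOpen (H : Set GQ) := Subgroup.isOpen_mono (Gam_le hD) (Gam_open hD)
  obtain ⟨K, iK, iK2, _, _, jK, -, -, hK, -⟩ := H916.exists_fld (algebraMap ℚ Qb) H hHo
    (fun g _ x => g.commutes x) (fun g _ u hu => conj_mem hD g u hu)
  subst hK
  have hN : (Gam ρ).Normal := Subgroup.Normal.comap inferInstance ρ
  obtain ⟨L, iL, iL2, iA, iG, jL, res, hdict, hL, hker⟩ := H916.exists_fld jK (Gam ρ) (Gam_open hD)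
    (Gam_le hD) (fun g _ u hu => hN.conj_mem u hu g)
  have hfd : FiniteDimensional K L := Module.Finite.of_restrictScalars_finite ℚ K L
  have hcard : Nat.card (L ≃ₐ[K] L) = Module.finrank K L := IsGalois.card_aut_eq_finrank K L
  let χ : (L ≃ₐ[K] L) →* F := (Units.coeHom F).comp
    (res.liftOfRightInverse (Function.surjInv hdict.surj)
    (Function.rightInverse_surjInv hdict.surj) ⟨(psi hD).toHomUnits, fun g hg => by
      rw [MonoidHom.mem_ker] at hg ⊢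
      exact Units.ext ((psi_eq_one hD g).2 ((hker g).1 hg))⟩)
  have hχ : ∀ g, χ (res g) = psi hD g := fun g => by
    simp only [χ, MonoidHom.comp_apply, MonoidHom.liftOfRightInverse_comp_apply]
    rfl
  have hχ1 : ∀ σ, χ σ = 1 → σ = 1 := by
    intro σ hσ
    obtain ⟨g, rfl⟩ := hdict.surj σ
    rw [hχ] at hσ
    exact (hker g).2 ((psi_eq_one hD g).1 hσ)
  have hinj : Function.Injective χ := (injective_iff_map_eq_one χ).2 hχ1
  have hcyc : IsCyclic (L ≃ₐ[K] L) := isCyclic_of_injective_ringHom χ hinj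
  have hodd : Odd (Module.finrank K L) := by
    rw [← hcard, ← Nat.not_even_iff_odd, even_iff_two_dvd]
    intro h2
    haveI : Fact (Nat.Prime 2) := ⟨Nat.prime_two⟩
    obtain ⟨σ, hσ⟩ := exists_prime_orderOf_dvd_card' 2 h2
    have h1 : χ σ ^ 2 = 1 := by rw [← map_pow, ← hσ, pow_orderOf_eq_one, map_one]
    have h3 : χ σ = 1 := by
      rcases sq_eq_one_iff.1 h1 with h | h
      · exact h
      · rw [h, CharTwo.neg_eq]
    rw [hχ1 σ h3, orderOf_one] at hσ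
    omega
  obtain ⟨τ, hτ⟩ := IsCyclic.exists_monoid_generator (α := L ≃ₐ[K] L)
  obtain ⟨g0, hg0⟩ := hdict.surj τ
  have hτm : τ ^ Module.finrank K L = 1 := by rw [← hcard, pow_card_eq_one']
  obtain ⟨γ, hγ, h, hh, hg⟩ := ho (Gam ρ) g0 _ (Gam_open hD) hodd (by
    have := (hker (g0 ^ Module.finrank K L)).1 (by rw [map_pow, hg0, hτm])
    simpa using this)
  have hhH : h ∈ GK jK := by
    have := (GK jK).mul_mem ((GK jK).inv_mem (Gam_le hD hγ)) g0.2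
    rwa [hg, inv_mul_cancel_left] at this
  have hres : res ⟨h, hhH⟩ = τ := by
    have e : g0 = ⟨γ, Gam_le hD hγ⟩ * ⟨h, hhH⟩ := Subtype.ext hg
    rw [← hg0, e, map_mul, (hker ⟨γ, Gam_le hD hγ⟩).2 hγ, one_mul]
  obtain ⟨s, hsI, hsH⟩ := exists_s hq hk hD
  have hgen : ∀ g ∈ GK jK, ∃ i : ℕ, ∃ γ ∈ Gam ρ, g = h ^ i * γ := by
    intro g hg
    obtain ⟨i, hi⟩ := hτ (res ⟨g, hg⟩)
    refine ⟨i, (h ^ i)⁻¹ * g, ?_, by rw [mul_inv_cancel_left]⟩
    have := (hker ((⟨h, hhH⟩ ^ i)⁻¹ * ⟨g, hg⟩)).1 (by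
      rw [map_mul, map_inv, map_pow, hres, ← hi, inv_mul_cancel])
    simpa using this
  have hinf0 : ∀ g ∈ GK jK, ∃ γ ∈ Gam ρ, ∃ t ∈ Ginf, g = γ * t := by
    intro g hg
    obtain ⟨i, γ, hγ, rfl⟩ := hgen g hg
    exact ⟨_, hN.conj_mem γ hγ (h ^ i), h ^ i, Ginf.pow_mem hh i, by group⟩
  refine ⟨K, L, iK, iK2, iL, iL2, iA, iG, jK, jL, h, s, χ τ, τ, rfl, ?_, hodd, ?_, ?_⟩
  · rw [hL]
    refine ⟨hD, mem_Gam, hN, Gam_le hD, two hD, sq_mem hD, hhH, hh, hsH, hsI, ?_, ?_, hgen, ?_⟩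
    · rw [← hres, hχ]
      exact (div_mul_cancel₀ _ (dne hD hhH).2).symm
    · intro h1
      obtain ⟨g, hg, hne⟩ := hD.irr
      obtain ⟨i, hi⟩ := hτ (res ⟨g, hg⟩)
      have : res ⟨g, hg⟩ = 1 := by rw [← hi, hχ1 τ h1]; simp
      exact hne ((mem_Gam g).1 ((hker _).1 this)).2.2
    · intro g
      by_cases hg : g ∈ GK jK
      · exact hinf0 g hg
      · obtain ⟨γ, hγ, t, ht, e⟩ := hinf0 (g * s⁻¹)
          (two hD g hg _ (fun h => hsH (by simpa using (GK jK).inv_mem h)))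
        exact ⟨γ, hγ, t * s, Ginf.mul_mem ht hsI, by rw [← mul_assoc, ← e, inv_mul_cancel_right]⟩
  · rw [← map_pow, hτm, map_one]
  · intro y
    rw [← hres]
    exact (hdict.act ⟨h, hhH⟩ y).symm

end Vale.Agent.P022D.Sel
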