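import Vale.Agent.P022D.Sel.Defs

/-!
# P022, dihedral case, block Sel: the general bound and the assembly
-/

set_option linter.all false

noncomputable section

namespace Vale.Agent.P022D.Sel

open NumberField IsDedekindDomain
open Vale.Agent.P022 Vale.Agent.P022.C
open Vale.Agent.P027M.S (Pr Inert mx)

theorem IsDec.cases {l : ℕ} {D : Set GQ} (h : IsDec l D) : l = 0 ∨ l.Prime :=
  h.imp (fun h => h.1) fun h => h.1

theorem gen (hART : ART) (hC : COUNT) (hPL : PL) (hS : SUM) (hPI : PLI) : GEN := by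
  intro K L F _ _ _ _ _ _ _ j h τ m x T Q A D D' Y e hm hx hτ hj h0 h2 hTA hA hQ hD hD' hB hY hK
    hU Z hZ
  have hQ0 : ∀ q ∈ Q, q ≠ 0 := fun q hq e => hQ q hq (e ▸ hTA h0)
  have hQp : ∀ q ∈ Q, q.Prime := fun q hq => (hD' q hq).cases.resolve_left (hQ0 q hq)
  obtain ⟨R, hR, h1⟩ := hART L F j h τ.toRingEquiv x T Q Z (fun h => hQ 2 h (hTA h2)) hj hZ
  have hit : ∀ y, (τ.toRingEquiv)^[m] y = y := by
    intro y
    have e1 : ∀ i : ℕ, (τ.toRingEquiv)^[i] y = (τ ^ i) y := by
      intro i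
      induction i with
      | zero => rfl
      | succ i ih => rw [Function.iterate_succ_apply', ih, pow_succ']; rfl
    rw [e1, hτ]
    rfl
  have h3 := hC L F τ.toRingEquiv m x T Q A Y R hm hx hit hTA hA
    (fun q hq => ⟨hQp q hq, hQ q hq⟩) hB hY hK hR
  obtain ⟨-, sT⟩ := hS L F τ.toRingEquiv x T fun l hl => (hD l hl).cases
  obtain ⟨fQ, sQ⟩ := hS L F τ.toRingEquiv x Q fun l hl => (hD' l hl).cases
  obtain ⟨fA, -⟩ := hS L F τ.toRingEquiv x A hA
  have eT : ∑ l ∈ T, Module.rank F (Ind F (GK j) h x (D l)) ≤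
      Module.rank F (E F (mv τ.toRingEquiv) x (ov L T)) +
        Module.rank F (E F (fun w : InfinitePlace L => τ • w) x Set.univ) := by
    rw [← Finset.sum_erase_add _ _ h0, sT]
    refine add_le_add (le_of_eq (Finset.sum_congr rfl fun l hl => ?_))
      (hPI K L F j h τ x (D 0) hj (hD 0 h0))
    exact (hPL L F j h τ.toRingEquiv x l (D l) hj (Finset.ne_of_mem_erase hl)
      (hD l (Finset.mem_of_mem_erase hl))).symm
  have eQ : Module.rank F (E F (mv τ.toRingEquiv) x (ov L Q)) =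
      ∑ q ∈ Q, Module.rank F (Ind F (GK j) h x (D' q)) := by
    rw [sQ, Finset.erase_eq_of_notMem fun h => hQ0 0 h rfl]
    exact Finset.sum_congr rfl fun l hl =>
      hPL L F j h τ.toRingEquiv x l (D' l) hj (hQ0 l hl) (hD' l hl)
  rw [← eQ]
  have fY : Module.rank F Y < Cardinal.aleph0 :=
    lt_of_le_of_lt ((le_add_self.trans le_self_add).trans h3) (Cardinal.add_lt_aleph0 fQ fA)
  refine (add_le_add h1 eT).trans ?_
  refine (Cardinal.add_le_add_iff_of_lt_aleph0 (Cardinal.add_lt_aleph0 fY fA)).1 ?_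
  refine le_trans (le_of_eq ?_) ((add_le_add h3 hU).trans (le_of_eq ?_)) <;> ring

theorem asm (hT : TWO) (hA : ADM) (hK : KER) : ASM := by
  classical
  intro F _ _ ρ H Γ h s x T Q D D' G h0 hD hQ b1 b2 Z hZ
  let α : ((GQ → M2 F) × (ℕ → M2 F)) →ₗ[F] (GQ → F) :=
    { toFun := fun z => (H : Set GQ).indicator fun g => z.1 g 0 0
      map_add' := fun z w => funext fun g => by
        by_cases hg : g ∈ (H : Set GQ) <;> simp [Set.indicator, hg]
      map_smul' := fun c z => funext fun g => by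
        by_cases hg : g ∈ (H : Set GQ) <;> simp [Set.indicator, hg] }
  let β : ((GQ → M2 F) × (ℕ → M2 F)) →ₗ[F] (GQ → F) :=
    { toFun := fun z => (Γ : Set GQ).indicator fun g => z.1 g 0 1
      map_add' := fun z w => funext fun g => by
        by_cases hg : g ∈ (Γ : Set GQ) <;> simp [Set.indicator, hg]
      map_smul' := fun c z => funext fun g => by
        by_cases hg : g ∈ (Γ : Set GQ) <;> simp [Set.indicator, hg] }
  have key : ∀ (W : Submodule F ((GQ → M2 F) × (ℕ → M2 F)))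
      (γ : ((GQ → M2 F) × (ℕ → M2 F)) →ₗ[F] (GQ → F)),
      Module.rank F W =
        Module.rank F (W.map γ) + Module.rank F (W ⊓ LinearMap.ker γ : Submodule F _) := by
    intro W γ
    have e := (γ.domRestrict W).rank_range_add_rank_ker
    rw [LinearMap.range_domRestrict, LinearMap.ker_domRestrict] at e
    rw [← e]
    congr 1
    rw [← Submodule.map_comap_subtype]
    exact (Submodule.equivMapOfInjective _ W.injective_subtype _).rank_eq
  have c1 := b1 (Z.map α) (by
    rintro _ ⟨z, hz, rfl⟩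
    exact (hA F ρ H Γ h s x T Q D z.1 z.2 G h0 hD (hZ z hz)).1)
  have c2 := b2 ((Z ⊓ LinearMap.ker α).map β) (by
    rintro _ ⟨z, hz, rfl⟩
    exact (hA F ρ H Γ h s x T Q D z.1 z.2 G h0 hD (hZ z hz.1)).2)
  have c3 := hK F ρ H Γ h s x T Q D ((Z ⊓ LinearMap.ker α) ⊓ LinearMap.ker β) G (by
    intro z hz
    refine ⟨hZ z hz.1.1, fun g hg => ?_, fun g hg => ?_⟩
    · have e := congrFun (LinearMap.mem_ker.1 hz.1.2) g
      rwa [show α z g = z.1 g 0 0 from Set.indicator_of_mem hg fun g => z.1 g 0 0] at e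
    · have e := congrFun (LinearMap.mem_ker.1 hz.2) g
      rwa [show β z g = z.1 g 0 1 from Set.indicator_of_mem hg fun g => z.1 g 0 1] at e)
  have c4 : ∑ q ∈ Q, Module.rank F (Ind F H 1 1 (D' q)) +
      ∑ q ∈ Q, Module.rank F (Ind F Γ h x (D' q)) ≤ 2 * (Q.card : Cardinal) := by
    rw [← Finset.sum_add_distrib]
    refine (Finset.sum_le_sum fun q hq => ?_).trans
      (le_of_eq (by rw [Finset.sum_const, nsmul_eq_mul, mul_comm] :
        ∑ _q ∈ Q, (2 : Cardinal) = 2 * (Q.card : Cardinal)))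
    obtain ⟨φ, h1, h2⟩ := hQ q hq
    exact hT F ρ H Γ h s x (D' q) φ G h1 h2
  rw [key Z α, key (Z ⊓ LinearMap.ker α) β]
  refine (add_le_add le_rfl (add_le_add le_rfl c3)).trans ?_
  refine le_trans (le_of_eq ?_) ((add_le_add (add_le_add c1 c2) (le_refl (3 : Cardinal))).trans ?_)
  · ring
  refine le_trans (le_of_eq ?_) ((add_le_add c4 (le_refl (5 : Cardinal))).trans (le_of_eq ?_))
  · push_cast
    ring
  · push_cast
    ring

end Vale.Agent.P022D.Sel
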