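import Vale.Agent.P022D.Sel.Defs

/-!
# P022D, block Sel: a character which kills almost all Frobenius elements is trivial
-/

set_option linter.all false

noncomputable section

namespace Vale.Agent.P022D.Sel

open NumberField IsDedekindDomain
open Vale.Agent.P022 Vale.Agent.P022.C
open Vale.Agent.P027M.S (Pr Inert mx)

namespace Inj

theorem gal : IsGalois ℚ Qb :=
  have : Algebra.IsAlgebraic ℚ Qb := AlgebraicClosure.isAlgebraic ℚ
  have : IsAlgClosure ℚ Qb := ⟨inferInstance, inferInstance⟩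
  IsAlgClosure.isGalois ℚ Qb

theorem opnGK {L : Type} [Field L] [NumberField L] (j : L →+* Qb) :
    IsOpen (GK j : Set GQ) := by
  haveI : IsGalois ℚ Qb := gal
  obtain ⟨a, ha⟩ := Field.exists_primitive_element ℚ L
  have h1 : IsOpen (MulAction.stabilizer GQ (j a) : Set GQ) :=
    stabilizer_isOpen_of_isIntegral (j a)
  have h2 : MulAction.stabilizer GQ (j a) ≤ GK j := by
    intro g hg y
    have hy : y ∈ (⊤ : IntermediateField ℚ L) := trivial
    rw [← ha] at hy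
    have hg' : g (j a) = j a := hg
    induction hy using IntermediateField.adjoin_induction with
    | mem x hx => rw [Set.mem_singleton_iff.1 hx]; exact hg'
    | algebraMap x => rw [eq_ratCast, map_ratCast, map_ratCast]
    | add x y _ _ hx hy => rw [map_add, map_add, hx, hy]
    | inv x _ hx => rw [map_inv₀, map_inv₀, hx]
    | mul x y _ _ hx hy => rw [map_mul, map_mul, hx, hy]
  exact Subgroup.isOpen_mono h2 h1

theorem norm_eq {L : Type} [Field L] [NumberField L] (v : Pr L) (l : ℕ) (hl : l.Prime)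
    (hv : (l : 𝓞 L) ∈ v.asIdeal) (h : ∀ x : 𝓞 L, x - x ^ l ∈ v.asIdeal) :
    Ideal.absNorm v.asIdeal = l := by
  haveI := v.isMaximal
  letI := Ideal.Quotient.field v.asIdeal
  haveI : Finite (𝓞 L ⧸ v.asIdeal) := v.asIdeal.finiteQuotientOfFreeOfNeBot v.ne_bot
  letI := Fintype.ofFinite (𝓞 L ⧸ v.asIdeal)
  have hN : Ideal.absNorm v.asIdeal = Fintype.card (𝓞 L ⧸ v.asIdeal) := by
    rw [Ideal.absNorm_apply, Submodule.cardQuot_apply, Nat.card_eq_fintype_card]
  have h0 : ((l : ℕ) : 𝓞 L ⧸ v.asIdeal) = 0 := by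
    rw [← map_natCast (Ideal.Quotient.mk v.asIdeal), Ideal.Quotient.eq_zero_iff_mem]
    exact hv
  haveI : Fact l.Prime := ⟨hl⟩
  haveI : CharP (𝓞 L ⧸ v.asIdeal) l := (CharP.charP_iff_prime_eq_zero hl).2 h0
  obtain ⟨n, -, hn⟩ := FiniteField.card (𝓞 L ⧸ v.asIdeal) l
  have h1 : ∀ x : (𝓞 L ⧸ v.asIdeal)ˣ, x ^ (l - 1) = 1 := by
    intro x
    obtain ⟨y, hy⟩ := Ideal.Quotient.mk_surjective (x : 𝓞 L ⧸ v.asIdeal)
    have h2 : (x : 𝓞 L ⧸ v.asIdeal) = x ^ l := by
      rw [← hy, ← map_pow, Ideal.Quotient.eq]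
      exact h y
    have h3 : x ^ (l - 1) * x = 1 * x := by
      rw [← pow_succ, Nat.sub_add_cancel hl.one_lt.le, one_mul]
      exact Units.ext (by rw [Units.val_pow_eq_pow_val]; exact h2.symm)
    exact mul_right_cancel h3
  have h4 := (FiniteField.forall_pow_eq_one_iff (𝓞 L ⧸ v.asIdeal) (l - 1)).1 h1
  have h5 := Nat.le_of_dvd (by have := hl.two_le; omega) h4
  have h6 : l ≤ Fintype.card (𝓞 L ⧸ v.asIdeal) := by
    rw [hn]
    exact Nat.le_self_pow n.ne_zero l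
  have := hl.two_le
  omega

theorem pow_odd {F : Type} [Field F] [CharP F 2] {Γ : Subgroup GQ} {φ : GQ → F}
    (ha : ∀ σ ∈ Γ, ∀ τ ∈ Γ, φ (σ * τ) = φ σ + φ τ) {g : GQ} (hg : g ∈ Γ) {m : ℕ} (hm : Odd m) :
    φ (g ^ m) = φ g := by
  obtain ⟨k, rfl⟩ := hm
  have h := Γ.pow_mem hg k
  rw [pow_succ, two_mul, pow_add, ha _ (Γ.mul_mem h h) _ hg, ha _ h _ h, CharTwo.add_self_eq_zero,
    zero_add]

end Inj

open Inj

theorem inj (hD : Vale.Agent.P027M.TW.Spec_DENS) : INJ := by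
  intro L F _ _ _ _ j h x T Q φ hφ hF
  funext g
  by_cases hg : g ∈ GK j
  swap
  · exact hφ.off g hg
  haveI : IsGalois ℚ Qb := gal
  obtain ⟨U₀, hU₀, hz⟩ := hφ.opn
  have hW : IsOpen ((U₀ ⊓ GK j : Subgroup GQ) : Set GQ) := hU₀.inter (opnGK j)
  haveI : Finite (GQ ⧸ (U₀ ⊓ GK j)) := Subgroup.quotient_finite_of_isOpen _ hW
  haveI : (U₀ ⊓ GK j).FiniteIndex := Subgroup.finiteIndex_of_finite_quotient
  have hU : IsOpen ((U₀ ⊓ GK j).normalCore : Set GQ) :=
    Subgroup.isOpen_of_isClosed_of_finiteIndex _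
      (Subgroup.normalCore_isClosed _ (Subgroup.isClosed_of_isOpen _ hW))
  have hle : (U₀ ⊓ GK j).normalCore ≤ U₀ ⊓ GK j := Subgroup.normalCore_le _
  generalize (U₀ ⊓ GK j).normalCore = U, (U₀ ⊓ GK j).normalCore_normal = hN at hU hle
  haveI : Finite (GQ ⧸ U) := Subgroup.quotient_finite_of_isOpen _ hU
  have hr : IsOpen {g : GQ | QuotientGroup.mk' U g = 1} := by
    have : {g : GQ | QuotientGroup.mk' U g = 1} = U := by
      ext g
      exact QuotientGroup.eq_one_iff g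
    rw [this]
    exact hU
  have hpos : orderOf (QuotientGroup.mk' U g) ≠ 0 := (orderOf_pos _).ne'
  obtain ⟨a, m, hm, hn⟩ := Nat.exists_eq_two_pow_mul_odd hpos
  have ho : orderOf (QuotientGroup.mk' U (g ^ m)) ∣ 2 ^ a := by
    apply orderOf_dvd_of_pow_eq_one
    rw [map_pow, ← pow_mul, mul_comm, ← hn, pow_orderOf_eq_one]
  obtain ⟨ψ, ⟨l, hl, hS, P, hP, hlP, hfr⟩, k, hk, he⟩ :=
    hD (GQ ⧸ U) (QuotientGroup.mk' U) hr (Q.biUnion Nat.primeFactors) (g ^ m) {2}
      (fun p hp => by rw [Finset.mem_singleton.1 hp]; exact Nat.prime_two)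
      (by rw [Finset.sum_singleton]; norm_num)
      (fun p hp hd => Finset.mem_singleton.2
        ((Nat.prime_dvd_prime_iff_eq hp Nat.prime_two).1 (hp.dvd_of_dvd_pow (hd.trans ho))))
  have hgm : g ^ m ∈ GK j := (GK j).pow_mem hg m
  rw [Pi.zero_apply, ← pow_odd hφ.add hg hm]
  by_cases h1 : g ^ m ∈ U
  · exact hz _ (hle h1).1
  have hko : Odd k := by
    obtain ⟨b, -, hb⟩ := (Nat.dvd_prime_pow Nat.prime_two).1 ho
    rw [hb] at hk
    rcases b with _ | b
    · exact absurd ((QuotientGroup.eq_one_iff _).1 (orderOf_eq_one_iff.1 hb)) h1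
    · exact Nat.coprime_two_right.1 (hk.coprime_dvd_right (dvd_pow_self 2 b.succ_ne_zero))
  have hu : ψ⁻¹ * (g ^ m) ^ k ∈ U := by
    rw [← map_pow] at he
    exact QuotientGroup.eq.1 he
  have hψ : ψ ∈ GK j := by
    have := (GK j).mul_mem ((GK j).pow_mem hgm k) ((GK j).inv_mem (hle hu).2)
    rwa [mul_inv_rev, inv_inv, mul_inv_cancel_left] at this
  have hlv : (l : 𝓞 L) ∈ below j P := by
    rw [below, Ideal.mem_comap, map_natCast]
    exact hlP
  let v : Pr L := ⟨below j P, Ideal.comap_isPrime _ _, fun h0 => by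
    rw [h0, Ideal.mem_bot] at hlv
    exact hl.ne_zero (Nat.cast_eq_zero.1 hlv)⟩
  have hNv : Ideal.absNorm v.asIdeal = l := by
    refine norm_eq v l hl hlv fun y => ?_
    have h2 := hfr (RingOfIntegers.mapRingHom j y)
    have h3 : ψ • RingOfIntegers.mapRingHom j y = RingOfIntegers.mapRingHom j y :=
      Subtype.ext (hψ y)
    rw [h3, ← map_pow, ← map_sub] at h2
    exact h2
  have hv : v ∉ ov L Q := by
    rintro ⟨q, hq, hq0, hqv⟩
    have hc : Nat.Coprime l q := (Nat.Prime.coprime_iff_not_dvd hl).2 fun hd =>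
      hS (Finset.mem_biUnion.2 ⟨q, hq, Nat.mem_primeFactors.2 ⟨hl, hd, hq0⟩⟩)
    obtain ⟨c, d, hcd⟩ := (Nat.isCoprime_iff_coprime.2 hc).map (Int.castRingHom (𝓞 L))
    apply v.isPrime.ne_top
    rw [Ideal.eq_top_iff_one, ← hcd]
    refine add_mem (Ideal.mul_mem_left _ _ ?_) (Ideal.mul_mem_left _ _ ?_)
    · rw [map_natCast]; exact hlv
    · rw [map_natCast]; exact hqv
  have h4 : φ ψ = 0 := hF v hv P ⟨ψ, hψ⟩ ⟨hP, rfl, fun y => by rw [hNv]; exact hfr y⟩
  rw [← pow_odd hφ.add hgm hko, ← mul_inv_cancel_left ψ ((g ^ m) ^ k),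
    hφ.add _ hψ _ (hle hu).2, h4, hz _ (hle hu).1, add_zero]

end Vale.Agent.P022D.Sel
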