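import Vale.Agent.P022D.Sel.Defs

/-!
# P022, dihedral case, block Sel: the spaces at an auxiliary prime and the kernel
-/

set_option linter.all false

noncomputable section

namespace Vale.Agent.P022D.Sel

open Vale.Agent.P022 Vale.Agent.P022.C
open Vale.Agent.P027M.S (mx)

namespace KerH

section Lin

variable {F V U : Type} [Field F] [AddCommGroup V] [Module F V] [AddCommGroup U] [Module F U]

theorem step (f : V →ₗ[F] U) (S : Submodule F U) (Z : Submodule F V) (c : Cardinal)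
    (hf : ∀ z ∈ Z, f z ∈ S)
    (hc : ∀ K : Submodule F V, K ≤ Z → (∀ z ∈ K, f z = 0) → Module.rank F K ≤ c) :
    Module.rank F Z ≤ Module.rank F S + c := by
  rw [← LinearMap.rank_range_add_rank_ker (f.domRestrict Z)]
  refine add_le_add (Submodule.rank_mono ?_) ?_
  · rintro _ ⟨z, rfl⟩
    exact hf z.1 z.2
  · rw [(Submodule.equivMapOfInjective Z.subtype Z.injective_subtype
      (LinearMap.ker (f.domRestrict Z))).rank_eq]
    refine hc _ ?_ ?_
    · rintro _ ⟨z, -, rfl⟩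
      exact z.2
    · rintro _ ⟨z, hz, rfl⟩
      exact hz

theorem step1 (f : V →ₗ[F] F) (Z : Submodule F V) (c : Cardinal)
    (hc : ∀ K : Submodule F V, K ≤ Z → (∀ z ∈ K, f z = 0) → Module.rank F K ≤ c) :
    Module.rank F Z ≤ 1 + c := by
  have h := step f ⊤ Z c (fun _ _ => trivial) hc
  rwa [rank_top, Module.rank_self] at h

theorem nul (Z : Submodule F V) (h : ∀ z ∈ Z, z = 0) : Module.rank F Z ≤ 0 := by
  rw [(Submodule.eq_bot_iff Z).2 h, rank_bot]

theorem fam {ι : Type} (T : Finset ι) (f : ι → V →ₗ[F] U) (S : ι → Submodule F U) (c : Cardinal) :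
    ∀ Z : Submodule F V, (∀ z ∈ Z, ∀ i ∈ T, f i z ∈ S i) →
      (∀ K : Submodule F V, K ≤ Z → (∀ z ∈ K, ∀ i ∈ T, f i z = 0) → Module.rank F K ≤ c) →
      Module.rank F Z ≤ ∑ i ∈ T, Module.rank F (S i) + c := by
  classical
  induction T using Finset.induction_on with
  | empty =>
    intro Z _ hc
    rw [Finset.sum_empty, zero_add]
    exact hc Z le_rfl fun _ _ i hi => absurd hi (Finset.notMem_empty i)
  | insert a T ha ih =>
    intro Z hf hc
    rw [Finset.sum_insert ha, add_assoc]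
    refine step (f a) (S a) Z _ (fun z hz => hf z hz a (Finset.mem_insert_self a T))
      fun K hK h0 => ih K (fun z hz i hi => hf z (hK hz) i (Finset.mem_insert_of_mem hi))
        fun K' hK' h1 => hc K' (hK'.trans hK) fun z hz i hi => ?_
    rcases Finset.mem_insert.1 hi with rfl | hi
    · exact h0 z (hK' hz)
    · exact h1 z hz i hi

end Lin

section Mat

variable {F : Type} [Field F]

theorem diag {A B : M2 F} (M : M2 F) (hA : A 0 1 = 0 ∧ A 1 0 = 0) (hB : B 0 1 = 0 ∧ B 1 0 = 0)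
    (h : A * B = 1) : A 0 0 * B 0 0 = 1 ∧ A 1 1 * B 1 1 = 1 ∧
      (A * M * B) 0 0 = M 0 0 ∧ (A * M * B) 1 1 = M 1 1 ∧
      (A * M * B) 0 1 = A 0 0 * B 1 1 * M 0 1 ∧ (A * M * B) 1 0 = A 1 1 * B 0 0 * M 1 0 := by
  have h0 := congrFun (congrFun h 0) 0
  have h1 := congrFun (congrFun h 1) 1
  simp only [Matrix.mul_apply, Fin.sum_univ_two, hA.1, hA.2, hB.1, hB.2, Matrix.one_apply_eq,
    zero_mul, mul_zero, add_zero, zero_add] at h0 h1 ⊢
  refine ⟨h0, h1, ?_, ?_, by ring, by ring⟩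
  · linear_combination M 0 0 * h0
  · linear_combination M 1 1 * h1

theorem anti {A B : M2 F} (M : M2 F) (hA : A 0 0 = 0 ∧ A 1 1 = 0) (hB : B 0 0 = 0 ∧ B 1 1 = 0)
    (h : A * B = 1) : (A * M * B) 0 0 = M 1 1 ∧ ((A * M * B) 0 1 = 0 → M 1 0 = 0) := by
  have h0 := congrFun (congrFun h 0) 0
  have h1 := congrFun (congrFun h 1) 1
  simp only [Matrix.mul_apply, Fin.sum_univ_two, hA.1, hA.2, hB.1, hB.2, Matrix.one_apply_eq,
    zero_mul, mul_zero, add_zero, zero_add] at h0 h1 ⊢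
  refine ⟨?_, fun e => ?_⟩
  · linear_combination M 1 1 * h0
  · linear_combination (B 1 0 * A 1 0) * e - M 1 0 * A 1 0 * B 0 1 * h0 - M 1 0 * h1

theorem ext4 {M : M2 F} (a : M 0 0 = 0) (b : M 0 1 = 0) (c : M 1 0 = 0) (d : M 1 1 = 0) :
    M = 0 := by
  ext i j
  fin_cases i <;> fin_cases j
  exacts [a, b, c, d]

variable {ρ : GQ →* GL (Fin 2) F} {H Γ : Subgroup GQ} {h s : GQ} {x : F}

theorem mmul (ρ : GQ →* GL (Fin 2) F) (g h : GQ) : mx ρ (g * h) = mx ρ g * mx ρ h := by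
  simp only [mx, map_mul, Units.val_mul]

theorem mone (ρ : GQ →* GL (Fin 2) F) : mx ρ 1 = 1 := by simp only [mx, map_one, Units.val_one]

theorem minv (ρ : GQ →* GL (Fin 2) F) (g : GQ) : mx ρ g * mx ρ g⁻¹ = 1 := by
  rw [← mmul, mul_inv_cancel, mone]

/-- conjugation -/
def cj (ρ : GQ →* GL (Fin 2) F) (g : GQ) (M : M2 F) : M2 F := mx ρ g * M * mx ρ g⁻¹

theorem cj_mul (g h : GQ) (M : M2 F) : cj ρ (g * h) M = cj ρ g (cj ρ h M) := by
  simp only [cj, mul_inv_rev, mmul, Matrix.mul_assoc]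

theorem cj_one (M : M2 F) : cj ρ 1 M = M := by
  rw [cj, inv_one, mone, one_mul, mul_one]

theorem cj_zero (g : GQ) : cj ρ g 0 = 0 := by rw [cj, mul_zero, zero_mul]

theorem cjH (G : Gd ρ H Γ h s x) {g : GQ} (hg : g ∈ H) (M : M2 F) :
    cj ρ g M 0 0 = M 0 0 ∧ cj ρ g M 1 1 = M 1 1 :=
  let ⟨_, _, a, b, _⟩ := diag M (G.dh.dg g hg) (G.dh.dg _ (H.inv_mem hg)) (minv ρ g)
  ⟨a, b⟩

theorem cjG (G : Gd ρ H Γ h s x) {g : GQ} (hg : g ∈ Γ) (M : M2 F) : cj ρ g M 0 1 = M 0 1 := by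
  obtain ⟨_, b, _, _, e, _⟩ :=
    diag M (G.dh.dg g (G.le hg)) (G.dh.dg _ (H.inv_mem (G.le hg))) (minv ρ g)
  rw [cj, e, ((G.sc g).1 hg).2.2, b, one_mul]

theorem cjh (G : Gd ρ H Γ h s x) (M : M2 F) :
    cj ρ h M 0 1 = x * M 0 1 ∧ x * cj ρ h M 1 0 = M 1 0 := by
  obtain ⟨a, b, _, _, e, f⟩ := diag M (G.dh.dg h G.hH) (G.dh.dg _ (H.inv_mem G.hH)) (minv ρ h)
  have k := G.hx
  rw [cj, e, f]
  constructor
  · linear_combination mx ρ h⁻¹ 1 1 * M 0 1 * k + x * M 0 1 * b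
  · linear_combination -(mx ρ h⁻¹ 0 0 * M 1 0) * k + M 1 0 * a

theorem cjs (G : Gd ρ H Γ h s x) (M : M2 F) :
    cj ρ s M 0 0 = M 1 1 ∧ (cj ρ s M 0 1 = 0 → M 1 0 = 0) :=
  anti M (G.dh.ad s G.sH) (G.dh.ad _ fun k => G.sH (H.inv_mem_iff.1 k)) (minv ρ s)

theorem nrmH (G : Gd ρ H Γ h s x) (g : GQ) {σ : GQ} (hσ : σ ∈ H) : g * σ * g⁻¹ ∈ H := by
  by_cases hg : g ∈ H
  · exact H.mul_mem (H.mul_mem hg hσ) (H.inv_mem hg)
  · exact G.two _ (fun k => hg ((H.mul_mem_cancel_right hσ).1 k)) _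
      fun k => hg (H.inv_mem_iff.1 k)

theorem pw (G : Gd ρ H Γ h s x) (i : ℕ) : mx ρ (h ^ i) 0 0 = x ^ i * mx ρ (h ^ i) 1 1 := by
  induction i with
  | zero => rw [pow_zero, pow_zero, mone, one_mul, Matrix.one_apply_eq, Matrix.one_apply_eq]
  | succ i ih =>
    have a := G.dh.dg h G.hH
    rw [pow_succ, mmul]
    simp only [Matrix.mul_apply, Fin.sum_univ_two, a.1, a.2, mul_zero, add_zero, zero_add, ih,
      G.hx]
    ring

theorem ind_pw {D : Set GQ} {f : GQ → F} (hf : f ∈ Ind F Γ h x D) (i : ℕ) (g : GQ) :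
    f (h ^ i * g) = x ^ i * f g := by
  induction i with
  | zero => rw [pow_zero, pow_zero, one_mul, one_mul]
  | succ i ih => rw [pow_succ', mul_assoc, hf.2.1, ih, pow_succ', mul_assoc]

/-- a cocycle with these vanishing entries is zero -/
theorem coc0 (G : Gd ρ H Γ h s x) {c : GQ → M2 F} (hc : ∀ g k, c (g * k) = c g + cj ρ g (c k))
    (h1 : ∀ g ∈ H, c g 0 0 = 0) (h2 : ∀ g ∈ Γ, c g 0 1 = 0) (a : c s 0 0 = 0) (b : c h 0 1 = 0)
    (d : c h 1 0 = 0) : c = 0 := by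
  have key : ∀ σ, c s + cj ρ s (c σ) = c (s * σ * s⁻¹) + cj ρ (s * σ * s⁻¹) (c s) := fun σ => by
    rw [← hc, ← hc, inv_mul_cancel_right]
  have s1 : ∀ σ ∈ H, c σ 1 1 = 0 := fun σ hσ => by
    have e := congrFun (congrFun (key σ) 0) 0
    have k := nrmH G s hσ
    rw [Matrix.add_apply, Matrix.add_apply, (cjs G _).1, (cjH G k _).1, h1 _ k] at e
    linear_combination e
  have s2 : ∀ γ ∈ Γ, c γ = 0 := fun γ hγ => by
    have e := congrFun (congrFun (key γ) 0) 1
    have k := G.nrm.conj_mem γ hγ s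
    rw [Matrix.add_apply, Matrix.add_apply, cjG G k, h2 _ k] at e
    exact ext4 (h1 _ (G.le hγ)) (h2 _ hγ) ((cjs G _).2 (by linear_combination e))
      (s1 _ (G.le hγ))
  have s3 : c h = 0 := ext4 (h1 _ G.hH) b d (s1 _ G.hH)
  have s4 : ∀ i : ℕ, ∀ γ ∈ Γ, c (h ^ i * γ) = 0 := fun i γ hγ => by
    induction i with
    | zero => rw [pow_zero, one_mul, s2 γ hγ]
    | succ i ih => rw [pow_succ', mul_assoc, hc, ih, s3, cj_zero, add_zero]
  have s5 : ∀ g ∈ H, c g = 0 := fun g hg => by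
    obtain ⟨i, γ, hγ, rfl⟩ := G.gen g hg
    exact s4 i γ hγ
  have s6 : c s = cj ρ h (c s) := by
    have k : s⁻¹ * h * s⁻¹⁻¹ ∈ H := nrmH G s⁻¹ G.hH
    have e := key (s⁻¹ * h * s⁻¹⁻¹)
    have e2 : s * (s⁻¹ * h * s⁻¹⁻¹) * s⁻¹ = h := by group
    rwa [s5 _ k, cj_zero, add_zero, e2, s3, zero_add] at e
  have x1 := sub_ne_zero.2 G.x1
  have s7 : c s = 0 := by
    have e1 := (cjh G (c s)).1
    have e2 := (cjh G (c s)).2
    rw [← s6] at e1 e2
    have e3 := congrFun (congrFun (hc s s) 0) 0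
    rw [s5 _ (G.two s G.sH s G.sH), Matrix.add_apply, (cjs G _).1, a, zero_add] at e3
    refine ext4 a ((mul_eq_zero.1 ?_).resolve_left x1) ((mul_eq_zero.1 ?_).resolve_left x1)
      e3.symm
    · linear_combination -e1
    · linear_combination e2
  funext g
  by_cases hg : g ∈ H
  · exact s5 g hg
  · have k : g * s⁻¹ ∈ H := G.two g hg _ fun k => G.sH (H.inv_mem_iff.1 k)
    have e := hc (g * s⁻¹) s
    rwa [inv_mul_cancel_right, s5 _ k, s7, cj_zero, add_zero] at e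

/-- an entry of the conjugates of the trivialisation -/
def en (ρ : GQ →* GL (Fin 2) F) (i j : Fin 2) (l : ℕ) :
    ((GQ → M2 F) × (ℕ → M2 F)) →ₗ[F] (GQ → F) where
  toFun z g := cj ρ g (z.2 l) i j
  map_add' y z := by
    funext g
    simp only [cj, Prod.snd_add, Pi.add_apply, mul_add, add_mul, Matrix.add_apply]
  map_smul' t z := by
    funext g
    simp only [cj, Prod.smul_snd, Pi.smul_apply, Matrix.mul_smul, Matrix.smul_mul,
      Matrix.smul_apply, RingHom.id_apply]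

/-- an entry of the cocycle -/
def ev (F : Type) [Field F] (g : GQ) (i j : Fin 2) : ((GQ → M2 F) × (ℕ → M2 F)) →ₗ[F] F where
  toFun z := z.1 g i j
  map_add' _ _ := rfl
  map_smul' _ _ := rfl

end Mat

end KerH

open KerH

theorem two : TWO := by
  intro F _ _ ρ H Γ h s x D φ G hD hφ
  by_cases hH : φ ∈ H
  · have a : Module.rank F (Ind F H 1 1 D) ≤ 1 + (1 + 0) :=
      step1 (LinearMap.proj 1) _ _ fun K hK h1 => step1 (LinearMap.proj s) _ _
        fun K' hK' h2 => nul _ fun f hf => by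
          have m := hK (hK' hf)
          funext g
          by_cases hg : g ∈ H
          · have e := m.1 g hg 1
            rw [mul_one] at e
            exact e.trans (h1 f (hK' hf))
          · have e := m.1 _ (G.two g hg _ fun k => G.sH (H.inv_mem_iff.1 k)) s
            rw [inv_mul_cancel_right] at e
            exact e.trans (h2 f hf)
    have b : Module.rank F (Ind F Γ h x D) ≤ 0 := nul _ fun f hf => by
      funext g
      obtain ⟨i, γ, hγ, e⟩ := G.gen _ (nrmH G g hH)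
      have e1 : g * φ = h ^ i * (γ * g) := by rw [← mul_assoc, ← e, inv_mul_cancel_right]
      have e2 := hf.2.2 φ hD g
      rw [e1, ind_pw hf, hf.1 γ hγ] at e2
      have e3 : x ^ i ≠ 1 := fun k => by
        have a := G.dh.dg _ (H.pow_mem G.hH i)
        have b : h ^ i ∈ Γ := (G.sc _).2 ⟨a.1, a.2, by rw [pw G, k, one_mul]⟩
        have c := G.nrm.conj_mem _ (Γ.mul_mem b hγ) g⁻¹
        rw [← e] at c
        exact hφ (by simpa [mul_assoc] using c)
      exact (mul_eq_zero.1 (show (x ^ i - 1) * f g = 0 by linear_combination e2)).resolve_left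
        (sub_ne_zero.2 e3)
    refine (add_le_add a b).trans (le_of_eq ?_)
    rw [add_zero, add_zero, one_add_one_eq_two]
  · have out : ∀ g ∉ H, g * φ⁻¹ ∈ H := fun g hg =>
      G.two g hg _ fun k => hH (H.inv_mem_iff.1 k)
    have red : ∀ f : GQ → F, (∀ d ∈ D, ∀ g, f (g * d) = f g) → (∀ g ∈ H, f g = 0) → f = 0 :=
      fun f h1 h2 => by
        funext g
        by_cases hg : g ∈ H
        · exact h2 g hg
        · have e := h1 φ hD (g * φ⁻¹)
          rw [inv_mul_cancel_right] at e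
          exact e.trans (h2 _ (out g hg))
    have a : Module.rank F (Ind F H 1 1 D) ≤ 1 + 0 :=
      step1 (LinearMap.proj 1) _ _ fun K hK h1 => nul _ fun f hf =>
        red f (hK hf).2.2 fun g hg => by
          have e := (hK hf).1 g hg 1
          rw [mul_one] at e
          exact e.trans (h1 f hf)
    have b : Module.rank F (Ind F Γ h x D) ≤ 1 + 0 :=
      step1 (LinearMap.proj 1) _ _ fun K hK h1 => nul _ fun f hf =>
        red f (hK hf).2.2 fun g hg => by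
          obtain ⟨i, γ, hγ, rfl⟩ := G.gen g hg
          have e := (hK hf).1 γ hγ 1
          rw [mul_one] at e
          rw [ind_pw (hK hf), e, show f 1 = 0 from h1 f hf, mul_zero]
    refine (add_le_add a b).trans (le_of_eq ?_)
    rw [add_zero, one_add_one_eq_two]

theorem ker : KER := by
  intro F _ _ ρ H Γ h s x T Q D Z G hZ
  have main : Module.rank F Z ≤ 1 + (1 + (1 + (∑ l ∈ T, Module.rank F (Ind F H 1 1 (D l)) +
      (∑ l ∈ T, Module.rank F (Ind F Γ h x (D l)) + 0)))) := by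
    refine step1 (ev F s 0 0) _ _ fun K₁ k₁ h₁ => step1 (ev F h 0 1) _ _ fun K₂ k₂ h₂ =>
      step1 (ev F h 1 0) _ _ fun K k₃ h₃ => ?_
    have kZ : K ≤ Z := k₃.trans (k₂.trans k₁)
    have c0 : ∀ z ∈ K, z.1 = 0 := fun z hz =>
      coc0 G (hZ z (kZ hz)).1.coc (hZ z (kZ hz)).2.1 (hZ z (kZ hz)).2.2 (h₁ z (k₂ (k₃ hz)))
        (h₂ z (k₃ hz)) (h₃ z hz)
    have inv : ∀ z ∈ K, ∀ l ∈ T, ∀ d ∈ D l, cj ρ d (z.2 l) = z.2 l := fun z hz l hl d hd => by
      have e := (hZ z (kZ hz)).1.loc l hl d hd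
      rw [c0 z hz] at e
      exact (sub_eq_zero.1 e.symm).symm
    refine fam T (en ρ 0 0) (fun l => Ind F H 1 1 (D l)) _ K (fun z hz l hl => ?_)
      fun K' k' h' => fam T (en ρ 0 1) (fun l => Ind F Γ h x (D l)) _ K' (fun z hz l hl => ?_)
        fun K'' k'' h'' => nul _ fun z hz => ?_
    · refine ⟨fun γ hγ g => ?_, fun g => ?_, fun d hd g => ?_⟩
      · change cj ρ (γ * g) (z.2 l) 0 0 = cj ρ g (z.2 l) 0 0
        rw [cj_mul, (cjH G hγ _).1]
      · rw [one_mul, one_mul]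
      · change cj ρ (g * d) (z.2 l) 0 0 = cj ρ g (z.2 l) 0 0
        rw [cj_mul, inv z hz l hl d hd]
    · refine ⟨fun γ hγ g => ?_, fun g => ?_, fun d hd g => ?_⟩
      · change cj ρ (γ * g) (z.2 l) 0 1 = cj ρ g (z.2 l) 0 1
        rw [cj_mul, cjG G hγ]
      · change cj ρ (h * g) (z.2 l) 0 1 = x * cj ρ g (z.2 l) 0 1
        rw [cj_mul, (cjh G _).1]
      · change cj ρ (g * d) (z.2 l) 0 1 = cj ρ g (z.2 l) 0 1
        rw [cj_mul, inv z (k' hz) l hl d hd]
    · refine Prod.ext (c0 z (k' (k'' hz))) (funext fun l => ?_)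
      by_cases hl : l ∈ T
      · have a : ∀ g, cj ρ g (z.2 l) 0 0 = 0 := congrFun (h' z (k'' hz) l hl)
        have b : ∀ g, cj ρ g (z.2 l) 0 1 = 0 := congrFun (h'' z hz l hl)
        exact ext4 (by rw [← a 1, cj_one]) (by rw [← b 1, cj_one]) ((cjs G _).2 (b s))
          (by rw [← a s, (cjs G _).1])
      · exact (hZ z (kZ (k' (k'' hz)))).1.zero l hl
  refine main.trans (le_of_eq ?_)
  rw [add_zero, ← add_assoc, ← add_assoc, ← add_assoc, one_add_one_eq_two, two_add_one_eq_three]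

end Vale.Agent.P022D.Sel
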