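import Vale.Agent.P022D.Sel.Defs

/-! # P022, block Sel: the auxiliary elements kill the dual classes -/

set_option linter.all false

noncomputable section

namespace Vale.Agent.P022D.Sel

open NumberField IsDedekindDomain
open Vale.Agent.P022 Vale.Agent.P022.C
open Vale.Agent.P027M.S (Pr Inert mx)

namespace KillAux

variable {L : Type} [Field L] [NumberField L]

theorem fix_range (j : L →+* Qb) (z : Qb) (hz : ∀ g ∈ GK j, g z = z) : ∃ y, j y = z := by
  haveI : IsAlgClosure ℚ Qb := AlgebraicClosure.instIsAlgClosure ℚ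
  haveI : IsGalois ℚ Qb := IsAlgClosure.isGalois ℚ Qb
  have h : z ∈ (j.toRatAlgHom).fieldRange := by
    rw [← InfiniteGalois.fixedField_fixingSubgroup (j.toRatAlgHom).fieldRange,
      IntermediateField.mem_fixedField_iff]
    intro g hg
    refine hz g fun x => ?_
    exact (IntermediateField.mem_fixingSubgroup_iff _ _).1 hg (j x) ⟨x, rfl⟩
  obtain ⟨y, hy⟩ := h
  exact ⟨y, hy⟩

theorem act (j : L →+* Qb) (hn : (GK j).Normal) (g : GQ) :
    ∃ t : L ≃+* L, ∀ y, j (t y) = g (j y) := by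
  have h : ∀ (g : GQ) (y : L), ∃ z, j z = g (j y) := fun g y => fix_range j _ fun γ hγ => by
    have h1 : (g⁻¹ * γ * g⁻¹⁻¹) (j y) = j y := hn.conj_mem γ hγ g⁻¹ y
    rw [inv_inv, AlgEquiv.mul_apply, AlgEquiv.mul_apply] at h1
    have h2 : g (g⁻¹ (γ (g (j y)))) = γ (g (j y)) := by
      rw [← AlgEquiv.mul_apply, mul_inv_cancel]; rfl
    rw [← h2, h1]
  choose f hf using h
  refine ⟨⟨⟨f g, f g⁻¹, fun y => j.injective ?_, fun y => j.injective ?_⟩,
    fun a b => j.injective ?_, fun a b => j.injective ?_⟩, fun y => hf g y⟩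
  · rw [hf, hf, ← AlgEquiv.mul_apply, inv_mul_cancel]; rfl
  · rw [hf, hf, ← AlgEquiv.mul_apply, mul_inv_cancel]; rfl
  · show j (f g (a * b)) = j (f g a * f g b)
    rw [map_mul j (f g a), hf, hf, hf, map_mul, map_mul]
  · show j (f g (a + b)) = j (f g a + f g b)
    rw [map_add j (f g a), hf, hf, hf, map_add, map_add]

theorem el_inj {A : Finset ℕ} {y z : US L A} (h : el y = el z) : y = z :=
  Additive.toMul.injective (Subtype.ext (Units.ext h))

theorem el_ne {A : Finset ℕ} (y : US L A) : el y ≠ 0 := Units.ne_zero _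

theorem el_val {A : Finset ℕ} (y : US L A) (v : Pr L) (hv : v ∉ ov L A) :
    v.valuation L (el y) = 1 := (Additive.toMul y).2 v hv

theorem mk_el {A : Finset ℕ} (z : L) (hz : z ≠ 0) (h : ∀ v ∉ ov L A, v.valuation L z = 1) :
    ∃ y : US L A, el y = z := ⟨Additive.ofMul ⟨Units.mk0 z hz, h⟩, rfl⟩

theorem el_nsmul {A : Finset ℕ} (y : US L A) (n : ℕ) : el (n • y) = el y ^ n := by
  induction n with
  | zero => rw [zero_nsmul, pow_zero]; rfl
  | succ n ih => rw [succ_nsmul, el_add, ih, pow_succ]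

theorem val_two {A : Finset ℕ} (h2 : 2 ∈ A) (v : Pr L) (hv : v ∉ ov L A) :
    v.valuation L (2 : L) = 1 := by
  have h : ((2 : ℕ) : 𝓞 L) ∉ v.asIdeal := fun h => hv ⟨2, h2, two_ne_zero, h⟩
  have h1 : (2 : L) = algebraMap (𝓞 L) L ((2 : ℕ) : 𝓞 L) := by rw [map_natCast]; norm_num
  rw [h1, HeightOneSpectrum.valuation_of_algebraMap]
  exact (HeightOneSpectrum.intValuation_eq_one_iff).2 h

theorem gens {A : Finset ℕ} (h2 : 2 ∈ A) : ∃ a b : US L A, el a = -1 ∧ el b = 2 := by
  obtain ⟨a, ha⟩ := mk_el (A := A) (-1 : L) (by norm_num) fun v _ => by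
    rw [Valuation.map_neg, map_one]
  obtain ⟨b, hb⟩ := mk_el (A := A) (2 : L) two_ne_zero fun v hv => val_two h2 v hv
  exact ⟨a, b, ha, hb⟩

theorem kill0 {F : Type} [Field F] [CharP F 2] {A : Finset ℕ} (h2 : 2 ∈ A) (a b : US L A)
    (ha : el a = -1) (hb : el b = 2) (l : US L A →+ F) (la : l a = 0) (lb : l b = 0)
    (y : US L A) (e f : ℕ) (z : L) (hy : el y = (-1) ^ e * 2 ^ f * z ^ 2) : l y = 0 := by
  have hz : z ≠ 0 := by
    rintro rfl
    exact el_ne y (by rw [hy]; simp)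
  obtain ⟨c, hc⟩ := mk_el (A := A) z hz fun v hv => by
    have h := el_val y v hv
    rw [hy, map_mul, map_mul, map_pow, map_pow, map_pow, Valuation.map_neg, map_one,
      val_two h2 v hv, one_pow, one_pow, one_mul, one_mul] at h
    rcases lt_trichotomy (v.valuation L z) 1 with h' | h' | h'
    · exact absurd h (pow_lt_one₀ zero_le' h' two_ne_zero).ne
    · exact h'
    · exact absurd h (one_lt_pow₀ h' two_ne_zero).ne'
  have h : y = e • a + f • b + 2 • c := el_inj (by
    rw [el_add, el_add, el_nsmul, el_nsmul, el_nsmul, ha, hb, hc, hy])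
  rw [h, map_add, map_add, map_nsmul, map_nsmul, map_nsmul, la, lb, two_nsmul,
    CharTwo.add_self_eq_zero]
  simp

theorem pm (j : L →+* Qb) (t : GQ) (ht : t ∈ GK j) (w : Qb) (y : L) (hw : w ^ 2 = j y) :
    t w = w ∨ t w = -w := by
  have h : (t w) ^ 2 = w ^ 2 := by rw [← map_pow, hw]; exact ht y
  exact sq_eq_sq_iff_eq_or_eq_neg.1 h

end KillAux

open KillAux

theorem killw (hK : KUM) : KILLW := by
  intro L F _ _ _ _ ρ H j h s x τ A G hτ h2 l hl y hy
  obtain ⟨a, b, ha, hb⟩ := gens (L := L) h2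
  have hx : 1 - x ≠ 0 := sub_ne_zero.2 G.x1.symm
  have fx : ∀ c : US L A, τ (el c) = el c → l c = 0 := fun c hc => by
    have h1 : tU τ A c = c := el_inj hc
    have h3 := hl c
    rw [h1] at h3
    exact (mul_eq_zero.1 (show (1 - x) * l c = 0 by linear_combination h3)).resolve_left hx
  have la : l a = 0 := fx a (by rw [ha, map_neg, map_one])
  have lb : l b = 0 := fx b (by rw [hb]; exact map_ofNat τ 2)
  have key : ∀ (σ : GQ) (t : L ≃+* L), σ ∈ Ginf → σ ∉ H → (∀ u, j (t u) = σ (j u)) →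
      l y + l (tU t A y) = 0 := by
    intro σ t hI hH ht
    obtain ⟨w, hw⟩ := IsAlgClosed.exists_pow_nat_eq (j (el y)) two_pos
    have hw' : (w * σ w) ^ 2 = j (el (y + tU t A y)) := by
      rw [el_add, el_tU, map_mul, ht, mul_pow, ← map_pow, hw]
    obtain ⟨e, f, z, hz⟩ := hK L j _ (w * σ w) G.inf (el_ne _) hw' fun g hg hgI => by
      have h1 : (σ * g * (σ * g)) w = w := hy (σ * g) (Ginf.mul_mem hI hgI)
        (fun hh => hH ((H.mul_mem_cancel_right (G.le hg)).1 hh)) w hw
      have h3 : (σ * σ) w = w := hy σ hI hH w hw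
      have h4 : g (σ (g w)) = σ w := σ.injective (h1.trans h3.symm)
      rcases pm j g hg w _ hw with h5 | h5
      · rw [h5] at h4
        rw [map_mul, h5, h4]
      · rw [h5, map_neg, map_neg, neg_eq_iff_eq_neg] at h4
        rw [map_mul, h5, h4, neg_mul_neg]
    rw [← map_add]
    exact kill0 h2 a b ha hb l la lb _ e f z hz
  obtain ⟨t, ht⟩ := act j G.nrm s
  have k1 := key s t G.sI G.sH ht
  have k2 := key (h * s) (t.trans τ) (Ginf.mul_mem G.hI G.sI)
    (fun hh => G.sH ((H.mul_mem_cancel_left G.hH).1 hh)) fun u => by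
      rw [RingEquiv.trans_apply, hτ, ht, AlgEquiv.mul_apply]
  have h5 : tU (t.trans τ) A y = tU τ A (tU t A y) := el_inj rfl
  rw [h5, hl] at k2
  have h6 : l (tU t A y) = 0 :=
    (mul_eq_zero.1 (show (1 - x) * l (tU t A y) = 0 by linear_combination k1 - k2)).resolve_left hx
  rwa [h6, add_zero] at k1

theorem killd (hK : KUM) : KILLD := by
  intro K F _ _ _ _ ρ Γ j h s x τ A G h2
  obtain ⟨a, b, ha, hb⟩ := gens (L := K) h2
  let φ : X F (tU τ A) 1 →ₗ[F] (Fin 2 → F) :=
    { toFun := fun l => ![l.1 a, l.1 b]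
      map_add' := fun l k => by
        ext i; fin_cases i <;> rfl
      map_smul' := fun c l => by
        ext i; fin_cases i <;> rfl }
  refine ⟨(LinearMap.ker φ).map (X F (tU τ A) 1).subtype, Submodule.map_subtype_le _ _, ?_, ?_⟩
  · have h1 := LinearMap.rank_range_add_rank_ker (R := F) (M := X F (tU τ A) 1)
      (M₁ := Fin 2 → F) φ
    have h3 : Module.rank F (LinearMap.range φ) ≤ (2 : ℕ) :=
      (Submodule.rank_le _).trans (le_of_eq (rank_fin_fun 2))
    rw [← (Submodule.equivMapOfInjective _ (X F (tU τ A) 1).injective_subtype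
      (LinearMap.ker φ)).rank_eq]
    refine h1.symm.le.trans ?_
    rw [add_comm]
    exact add_le_add le_rfl h3
  · rintro _ ⟨l, hl, rfl⟩ y hy
    have la : l.1 a = 0 := congrFun (LinearMap.mem_ker.1 hl) 0
    have lb : l.1 b = 0 := congrFun (LinearMap.mem_ker.1 hl) 1
    have hΓ : h ∉ Γ := fun hh => by
      obtain ⟨s1, s2, s3⟩ := (G.sc h).1 hh
      have h1 : mx ρ h 1 1 = 0 :=
        (mul_eq_zero.1 (show (1 - x) * mx ρ h 1 1 = 0 by
          linear_combination G.hx - s3)).resolve_left (sub_ne_zero.2 G.x1.symm)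
      have h3 : (mx ρ h).det ≠ 0 := Matrix.GeneralLinearGroup.det_ne_zero (ρ h)
      rw [Matrix.det_fin_two, h1, s1] at h3
      simp at h3
    obtain ⟨w, hw⟩ := IsAlgClosed.exists_pow_nat_eq (j (el y)) two_pos
    obtain ⟨e, f, z, hz⟩ := hK K j _ w (fun g => by
      obtain ⟨γ, hγ, t, ht, rfl⟩ := G.inf g
      exact ⟨γ, G.le hγ, t, ht, rfl⟩) (el_ne _) hw fun g hg hgI => by
        by_cases hg' : g ∈ Γ
        · have h1 : (h * g) w = w := hy (h * g) (Ginf.mul_mem G.hI hgI) ((GK j).mul_mem G.hH hg)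
            (fun hh => hΓ ((Γ.mul_mem_cancel_right hg').1 hh)) w hw
          have h3 : h w = w := hy h G.hI G.hH hΓ w hw
          exact h.injective (h1.trans h3.symm)
        · exact hy g hgI hg hg' w hw
    exact kill0 h2 a b ha hb l.1 la lb y e f z hz

end Vale.Agent.P022D.Sel
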