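import Vale.Agent.P022D.Sel.Defs
import Vale.Agent.P027M.S.Loc
import Vale.Agent.P027M.S.Kum

/-!
# P022, dihedral case, block Sel: square roots fixed by `Ginf`
-/

set_option linter.all false

noncomputable section

namespace Vale.Agent.P022D.Sel

open NumberField IsDedekindDomain
open Vale.Agent.P022 Vale.Agent.P022.C Vale.Agent.P022.H916
open Vale.Agent.P027M.S (Pr Inert)
open Vale.Agent.P027M.S.Loc (jQ mem_GK belowQ ordvQ not_mem)

namespace Kum

theorem conj_mem (g : GQ) {t : GQ} (ht : t ∈ Ginf) : g⁻¹ * t * g ∈ Ginf := fun n x hx => by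
  rw [AlgEquiv.mul_apply, AlgEquiv.mul_apply, ht n (g x) (by
    rcases hx with h | h
    · exact Or.inl (by rw [← map_pow, h, map_one])
    · exact Or.inr (by rw [← map_pow, h, map_ofNat])), ← AlgEquiv.mul_apply, inv_mul_cancel]
  rfl

/-- the inertia groups at the odd primes are in `Ginf` -/
theorem inert_mem {P : Ideal (𝓞 Qb)} (hP : P.IsPrime) (h2 : (2 : 𝓞 Qb) ∉ P) {g : GQ}
    (hg : Inert P g) : g ∈ Ginf := by
  intro n x hx
  obtain ⟨c, hc, c1, c2⟩ : ∃ c : 𝓞 Qb, x ^ 2 ^ n = c ∧ c ∉ P ∧ g (c : Qb) = c := by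
    rcases hx with h | h
    · exact ⟨1, h, fun k => hP.ne_top ((Ideal.eq_top_iff_one _).2 k), map_one g⟩
    · exact ⟨2, h, h2, map_ofNat g 2⟩
  obtain ⟨X, rfl⟩ : ∃ X : 𝓞 Qb, (X : Qb) = x :=
    ⟨⟨x, IsIntegral.of_pow (n := 2 ^ n) (by positivity) (by rw [hc]; exact c.2)⟩, rfl⟩
  have e1 : X ^ 2 ^ n = c := RingOfIntegers.ext hc
  have e2 : (g • X) ^ 2 ^ n = c := RingOfIntegers.ext (by
    show g (X : Qb) ^ 2 ^ n = c
    rw [← map_pow, hc, c2])
  by_contra hn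
  have e3 := geom_sum₂_mul (g • X) X (2 ^ n)
  rw [e1, e2, sub_self] at e3
  have e4 := congrArg (Ideal.Quotient.mk P) ((mul_eq_zero.1 e3).resolve_right fun k =>
    hn (congrArg (fun z : 𝓞 Qb => (z : Qb)) (sub_eq_zero.1 k)))
  simp only [map_sum, map_mul, map_pow, Ideal.Quotient.eq.2 (hg X), map_zero] at e4
  rw [geom_sum₂_self, ← map_pow, ← map_natCast (Ideal.Quotient.mk P), ← map_mul,
    Ideal.Quotient.eq_zero_iff_mem] at e4
  rcases hP.mem_or_mem e4 with k | k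
  · rw [Nat.cast_pow] at k
    exact h2 (by exact_mod_cast hP.mem_of_pow_mem _ k)
  · exact c1 (e1 ▸ P.pow_mem_of_mem (hP.mem_of_pow_mem _ k) _ (by positivity))

theorem pm {w : Qb} {g : GQ} (h : g (w ^ 2) = w ^ 2) : g w = w ∨ g w = -w :=
  sq_eq_sq_iff_eq_or_eq_neg.1 (by rw [← map_pow, h])

/-- unramified square roots -/
theorem even {l : ℕ} (hl : l.Prime) (h2 : l ≠ 2) {b : Qb} {c : ℤ} (hb : b ^ 2 = c) (c0 : c ≠ 0)
    (hn : ∀ g ∈ Ginf, g b = b) : 2 ∣ padicValInt l c := by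
  obtain ⟨P, hP, h⟩ := exists_prime hl
  have t : (2 : 𝓞 Qb) ∉ P := by
    exact_mod_cast not_mem hP h (c := 2) (Nat.isCoprime_iff_coprime.2
      ((Nat.coprime_primes hl Nat.prime_two).2 h2))
  have hnm : ∀ g ∈ GK jQ, ∀ u ∈ MulAction.stabilizer GQ b,
      g * u * g⁻¹ ∈ MulAction.stabilizer GQ b := by
    intro g _ u hu
    have u1 : u b = b := hu
    have u2 : u (g⁻¹ b) = g⁻¹ b := by
      rcases pm (w := b) (g := g⁻¹) (by rw [hb, map_intCast]) with e | e <;> rw [e]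
      · exact u1
      · rw [map_neg, u1]
    show (g * u * g⁻¹) b = b
    rw [AlgEquiv.mul_apply, AlgEquiv.mul_apply, u2, ← AlgEquiv.mul_apply, mul_inv_cancel]
    rfl
  obtain ⟨M, _, _, _, _, jM, ρ, D, hM, hker⟩ := exists_fld jQ (MulAction.stabilizer GQ b)
    (stabilizer_isOpen_of_isIntegral b) (fun g _ => mem_GK g) hnm
  obtain ⟨b', hb'⟩ : ∃ b', jM b' = b := fixed jM fun g =>
    show (g : GQ) ∈ MulAction.stabilizer GQ b from hM ▸ g.2
  have hne : below jM P ≠ ⊥ := by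
    intro h0
    have : (l : 𝓞 M) ∈ below jM P := by
      show RingOfIntegers.mapRingHom jM (l : 𝓞 M) ∈ P
      rwa [map_natCast]
    rw [h0, Ideal.mem_bot] at this
    exact hl.ne_zero (by exact_mod_cast this)
  let v' : Pr M := ⟨below jM P, Ideal.IsPrime.comap _, hne⟩
  let v : Pr ℚ := ⟨below jQ P, Ideal.IsPrime.comap _, by
    rw [belowQ hP hl h, Ne, Ideal.span_singleton_eq_bot]
    exact_mod_cast hl.ne_zero⟩
  have hin : ∀ g : GK jQ, (∀ x : 𝓞 Qb, (g : GQ) • x - x ∈ P) → ρ g = 1 := fun g hg =>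
    (hker g).2 (hn g (inert_mem hP t hg))
  have key := H269.UNRV ℚ M v v' (D.below_comap P)
    (fun g hg => D.inertia_eq_bot hP hin hg) (c : ℚ)
  rw [ordvQ v hl (belowQ hP hl h) c0] at key
  have b0 : b' ≠ 0 := by
    rintro rfl
    rw [← hb', map_zero, zero_pow (by norm_num)] at hb
    exact c0 (by exact_mod_cast hb.symm)
  have e : (b' ^ 2 : M) = (c : M) := jM.injective (by rw [map_pow, hb', hb, map_intCast])
  rw [map_intCast, ← e, P027M.S.Cls.ordv_pow v' b0] at key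
  exact Int.natCast_dvd_natCast.1 ⟨_, key.symm⟩

end Kum

open Kum

theorem kumq : KUMQ := by
  intro d w d0 hw hf
  have c0 : d.num * d.den ≠ 0 := mul_ne_zero (Rat.num_ne_zero.2 d0) (by exact_mod_cast d.den_nz)
  have e0 : ((d.num * d.den : ℤ) : ℚ) = d * (d.den : ℚ) ^ 2 := by
    rw [Int.cast_mul, Int.cast_natCast, sq, ← mul_assoc, Rat.mul_den_eq_num]
  have e1 : (w * d.den) ^ 2 = ((d.num * d.den : ℤ) : Qb) := by
    rw [mul_pow, hw, ← Rat.cast_intCast, e0]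
    push_cast
    rfl
  have ev := fun l hl h2 => even (l := l) hl h2 e1 c0 fun g hg => by
    rw [map_mul, hf g hg, map_natCast]
  have n0 : (d.den : ℚ) ≠ 0 := by exact_mod_cast d.den_nz
  generalize d.num * d.den = c at c0 e0 ev
  obtain ⟨a, b, hab, ha⟩ := Nat.sq_mul_squarefree c.natAbs
  have b0 : b ≠ 0 := by
    rintro rfl
    exact c0 (Int.natAbs_eq_zero.1 (by simpa using hab.symm))
  have a2 := Nat.eq_prime_pow_of_unique_prime_dvd (p := 2) ha.ne_zero fun {l} hl hla => by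
    by_contra h2
    have := Fact.mk hl
    have k := ev l hl h2
    rw [padicValInt, ← hab, padicValNat.mul (pow_ne_zero _ b0) ha.ne_zero, padicValNat.pow,
      ← Nat.factorization_def a hl, Nat.factorization_eq_one_of_squarefree ha hl hla] at k
    omega
  obtain ⟨e, he⟩ : ∃ e : ℕ, c = (-1) ^ e * (c.natAbs : ℤ) := by
    rcases Int.natAbs_eq c with h | h
    · exact ⟨0, by rw [pow_zero, one_mul, ← h]⟩
    · exact ⟨1, by rw [pow_one, neg_one_mul, ← h]⟩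
  refine ⟨e, a.primeFactorsList.length, b / d.den, ?_⟩
  rw [← hab, a2] at he
  have e2 : (c : ℚ) = (-1) ^ e * ((b : ℚ) ^ 2 * 2 ^ a.primeFactorsList.length) := by
    exact_mod_cast he
  field_simp
  linear_combination e2 - e0

theorem quad : QUAD := by
  intro H hH h2
  by_cases h : ∃ g, g ∉ H
  swap
  · exact ⟨1, 1, one_ne_zero, by simp, fun g _ => map_one g, fun g hg => (h ⟨g, hg⟩).elim⟩
  obtain ⟨s, hs⟩ := h
  obtain ⟨θ, t1, t2⟩ := P027M.S.KumAux.sep H hH hs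
  have a1 : ∀ g ∉ H, g θ = s θ := fun g hg => by
    have := congrArg s (t1 _ (h2 s⁻¹ (fun k => hs (H.inv_mem_iff.1 k)) g hg))
    rwa [← AlgEquiv.mul_apply, ← mul_assoc, mul_inv_cancel, one_mul] at this
  have a2 : ∀ g ∈ H, g (θ - s θ) = θ - s θ := fun g hg => by
    rw [map_sub, t1 g hg, ← AlgEquiv.mul_apply,
      a1 _ fun k => hs ((H.mul_mem_cancel_left hg).1 k)]
  have a3 : ∀ g ∉ H, g (θ - s θ) = -(θ - s θ) := fun g hg => by
    rw [map_sub, a1 g hg, ← AlgEquiv.mul_apply, t1 _ (h2 g hg s hs), neg_sub]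
  obtain ⟨d, hd⟩ := fixed jQ (x := (θ - s θ) ^ 2) fun g => by
    rw [map_pow]
    by_cases k : (g : GQ) ∈ H
    · rw [a2 _ k]
    · rw [a3 _ k, neg_sq]
  refine ⟨d, θ - s θ, ?_, by rw [← hd, eq_ratCast], a2, a3⟩
  rintro rfl
  rw [map_zero] at hd
  exact t2 (sub_eq_zero.1 (pow_eq_zero_iff two_ne_zero |>.1 hd.symm)).symm

theorem kum (hK : KUMQ) (hQ : QUAD) : KUM := by
  intro L _ _ j y w hG y0 hw hf
  have w0 : w ≠ 0 := by
    rintro rfl
    exact y0 ((map_eq_zero j).1 (by rw [← hw]; simp))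
  have p : ∀ γ ∈ GK j, γ w = w ∨ γ w = -w := fun γ hγ => pm (by rw [hw, hγ y])
  have mul : ∀ γ t γ' t' : GQ, γ * t * (γ' * t') = γ * γ' * (γ'⁻¹ * t * γ' * t') := by
    intros
    group
  let H : Subgroup GQ :=
    { carrier := {g | ∃ γ ∈ GK j, γ w = w ∧ ∃ t ∈ Ginf, g = γ * t}
      mul_mem' := by
        rintro _ _ ⟨γ, a1, a2, t, a3, rfl⟩ ⟨γ', b1, b2, t', b3, rfl⟩
        exact ⟨γ * γ', (GK j).mul_mem a1 b1, by rw [AlgEquiv.mul_apply, b2, a2], _,
          Ginf.mul_mem (conj_mem γ' a3) b3, mul _ _ _ _⟩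
      one_mem' := ⟨1, (GK j).one_mem, rfl, 1, Ginf.one_mem, (mul_one _).symm⟩
      inv_mem' := by
        rintro _ ⟨γ, a1, a2, t, a3, rfl⟩
        exact ⟨γ⁻¹, (GK j).inv_mem a1, (MulAction.stabilizer GQ w).inv_mem a2, _,
          conj_mem γ⁻¹ (Ginf.inv_mem a3), by group⟩ }
  obtain ⟨d, x, d0, x1, x2, x3⟩ := hQ H
    (Subgroup.isOpen_mono (H₁ := GK j ⊓ MulAction.stabilizer GQ w)
      (fun g hg => ⟨g, hg.1, hg.2, 1, Ginf.one_mem, (mul_one _).symm⟩)
      ((isOpen_GK j).inter (stabilizer_isOpen_of_isIntegral w))) (by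
      intro g hg g' hg'
      obtain ⟨γ, a1, t, a3, rfl⟩ := hG g
      obtain ⟨γ', b1, t', b3, rfl⟩ := hG g'
      have a2 := (p γ a1).resolve_left fun k => hg ⟨γ, a1, k, t, a3, rfl⟩
      have b2 := (p γ' b1).resolve_left fun k => hg' ⟨γ', b1, k, t', b3, rfl⟩
      exact ⟨γ * γ', (GK j).mul_mem a1 b1, by rw [AlgEquiv.mul_apply, b2, map_neg, a2, neg_neg],
        _, Ginf.mul_mem (conj_mem γ' a3) b3, mul _ _ _ _⟩)
  obtain ⟨e, f, z, hz⟩ := hK d x d0 x1 fun g hg =>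
    x2 g ⟨1, (GK j).one_mem, rfl, g, hg, (one_mul _).symm⟩
  have x0 : x ≠ 0 := by
    rintro rfl
    exact d0 (by exact_mod_cast (show (d : Qb) = 0 by rw [← x1]; simp))
  obtain ⟨u, hu⟩ := fixed j (x := w / x) fun g => by
    rw [map_div₀]
    rcases p g g.2 with k | k
    · rw [k, x2 g ⟨g, g.2, k, 1, Ginf.one_mem, (mul_one _).symm⟩]
    · rw [k, x3 g, neg_div_neg_eq]
      rintro ⟨γ, a1, a2, t, a3, a4⟩
      have a5 : t ∈ GK j := ((GK j).mul_mem_cancel_left a1).1 (a4 ▸ g.2)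
      rw [a4, AlgEquiv.mul_apply, hf t a5 a3, a2] at k
      exact w0 (by linear_combination (1 / 2 : Qb) * k)
  refine ⟨e, f, z * u, j.injective ?_⟩
  have hz' : (d : Qb) = (-1) ^ e * 2 ^ f * (z : Qb) ^ 2 := by exact_mod_cast congrArg Rat.cast hz
  simp only [map_mul, map_pow, map_neg, map_one, map_ofNat, map_ratCast, hu]
  rw [← hw, mul_pow, ← mul_assoc, ← hz', ← x1]
  field_simp

end Vale.Agent.P022D.Sel
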