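import Vale.Agent.P022D.Sel.Defs
import Vale.Agent.P022.H651.FCH
import Vale.Agent.P022.H567.Rec
import Vale.Agent.P022.H477.GCH
import Vale.Agent.P022.H565.Fre

/-!
# P022, dihedral case, block Sel: the reciprocity law for one character
-/

set_option linter.all false

noncomputable section

namespace Vale.Agent.P022D.Sel

open NumberField IsDedekindDomain
open Vale.Agent.P022 Vale.Agent.P022.C
open Vale.Agent.P027M.S (Pr Inert mx)

namespace LawP

variable {L : Type} [Field L] [NumberField L]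

theorem approx (S : Finset (Pr L)) {y : L} (hy : y ≠ 0) (h : ∀ u ∈ S, Sq u y) :
    ∃ (w : 𝓞 L) (z : L), z ≠ 0 ∧ (w : L) = y * z ^ 2 ∧ ∀ u ∈ S, w - 1 ∈ u.asIdeal := by
  classical
  rcases S.eq_empty_or_nonempty with rfl | ⟨u₀, hu₀⟩
  · obtain ⟨n, d, hd, e⟩ := IsFractionRing.div_surjective (A := 𝓞 L) y
    have d0 : algebraMap (𝓞 L) L d ≠ 0 := by
      simpa using nonZeroDivisors.ne_zero hd
    refine ⟨n * d, algebraMap (𝓞 L) L d, d0, ?_, by simp⟩
    change algebraMap (𝓞 L) L (n * d) = _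
    rw [← e, map_mul]
    field_simp
  obtain ⟨d, n, e, hd⟩ : ∃ d n : 𝓞 L, y * algebraMap (𝓞 L) L d = algebraMap (𝓞 L) L n ∧
      ∀ u ∈ S, d ∉ u.asIdeal := by
    by_contra hc
    push Not at hc
    let D : Ideal (𝓞 L) := (1 : Submodule (𝓞 L) L).comap (LinearMap.toSpanSingleton (𝓞 L) L y)
    have hD : ∀ d, d ∈ D ↔ ∃ n : 𝓞 L, y * algebraMap (𝓞 L) L d = algebraMap (𝓞 L) L n := by
      intro d
      simp only [D, Submodule.mem_comap, LinearMap.toSpanSingleton_apply, Submodule.mem_one,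
        Algebra.smul_def, mul_comm y, eq_comm]
    obtain ⟨u, hu, h1⟩ := (Ideal.subset_union_prime (s := S) (f := fun u => u.asIdeal) u₀ u₀
      (fun u _ _ _ => u.isPrime) (I := D)).1 fun d hd => by
        obtain ⟨n, hn⟩ := (hD d).1 hd
        obtain ⟨u, hu, h2⟩ := hc d n hn
        exact Set.mem_biUnion hu h2
    obtain ⟨n, d, hn⟩ := u.exists_primeCompl_mul_eq_of_integer y (h u hu).1.le
    exact d.2 (h1 ((hD d).2 ⟨n, hn⟩))
  choose z hz using fun u : S => (h u u.2).2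
  have z1 : ∀ u : S, u.1.valuation L (z u) = 1 := by
    intro u
    have h1 : u.1.valuation L (y - (y - z u ^ 2)) = u.1.valuation L y :=
      Valuation.map_sub_eq_of_lt_left _ (by rw [(h u u.2).1]; exact hz u)
    rw [sub_sub_cancel, (h u u.2).1, map_pow] at h1
    rcases lt_trichotomy (u.1.valuation L (z u)) 1 with h2 | h2 | h2
    · exact absurd h1 (pow_lt_one₀ zero_le h2 two_ne_zero).ne
    · exact h2
    · exact absurd h1 (one_lt_pow₀ h2 two_ne_zero).ne'
  have d1 : ∀ u : S, u.1.valuation L (algebraMap (𝓞 L) L d) = 1 := fun u =>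
    (HeightOneSpectrum.valuation_eq_one_iff_notMem _).2 (hd u u.2)
  have s1 : ∀ u : S, u.1.valuation L (z u * algebraMap (𝓞 L) L d)⁻¹ = 1 := fun u => by
    rw [map_inv₀, map_mul, z1, d1, mul_one, inv_one]
  choose b hb using fun u : S => u.1.exists_valuation_sub_lt_of_integer (s1 u).le 1
  obtain ⟨a, ha⟩ := IsDedekindDomain.exists_forall_sub_mem_ideal (s := S) (fun u => u.asIdeal)
    (fun _ => 1) (fun u _ => u.prime) (fun u _ v _ huv e => huv (HeightOneSpectrum.ext e)) b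
  have key : ∀ u ∈ S, n * d * a ^ 2 - 1 ∈ u.asIdeal := by
    intro u hu
    have z0 : z ⟨u, hu⟩ ≠ 0 := fun h0 => by simpa [h0] using z1 ⟨u, hu⟩
    have d0 : algebraMap (𝓞 L) L d ≠ 0 := fun h0 => by simpa [h0] using d1 ⟨u, hu⟩
    have h1 := ha u hu
    rw [pow_one, ← u.valuation_lt_one_iff_mem (K := L)] at h1
    change u.valuation L (algebraMap (𝓞 L) L (a - b ⟨u, hu⟩)) < 1 at h1
    rw [map_sub] at h1
    have h2 := hb ⟨u, hu⟩
    have h3 := Valuation.map_add_lt _ h1 h2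
    rw [sub_add_sub_cancel] at h3
    have h4 : u.valuation L (algebraMap (𝓞 L) L a + (z ⟨u, hu⟩ * algebraMap (𝓞 L) L d)⁻¹) ≤ 1 :=
      Valuation.map_add_le _ (u.valuation_le_one a) (s1 ⟨u, hu⟩).le
    rw [← u.valuation_lt_one_iff_mem (K := L)]
    change u.valuation L (algebraMap (𝓞 L) L (n * d * a ^ 2 - 1)) < 1
    have h5 : algebraMap (𝓞 L) L (n * d * a ^ 2 - 1) = y * algebraMap (𝓞 L) L d ^ 2 *
        ((algebraMap (𝓞 L) L a - (z ⟨u, hu⟩ * algebraMap (𝓞 L) L d)⁻¹) *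
          (algebraMap (𝓞 L) L a + (z ⟨u, hu⟩ * algebraMap (𝓞 L) L d)⁻¹)) +
        (y - z ⟨u, hu⟩ ^ 2) * (z ⟨u, hu⟩ ^ 2)⁻¹ := by
      rw [map_sub, map_mul, map_mul, map_pow, map_one, ← e]
      field_simp
      ring
    rw [h5]
    refine Valuation.map_add_lt _ ?_ ?_
    · rw [map_mul, map_mul, map_mul, map_pow, (h u hu).1, d1 ⟨u, hu⟩, one_pow, one_mul, one_mul]
      exact lt_of_le_of_lt (mul_le_of_le_one_right' h4) h3
    · rw [map_mul, map_inv₀, map_pow, z1 ⟨u, hu⟩, one_pow, inv_one, mul_one]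
      exact hz ⟨u, hu⟩
  have e2 : ((n * d * a ^ 2 : 𝓞 L) : L) = y * algebraMap (𝓞 L) L (a * d) ^ 2 := by
    change algebraMap (𝓞 L) L (n * d * a ^ 2) = _
    rw [map_mul, map_mul, map_mul, map_pow, ← e]
    ring
  refine ⟨_, _, fun h0 => ?_, e2, key⟩
  have h1 := key u₀ hu₀
  have h2 : n * d * a ^ 2 = 0 := by
    apply RingOfIntegers.coe_injective
    change ((n * d * a ^ 2 : 𝓞 L) : L) = _
    rw [e2, h0]
    simp
  rw [h2, zero_sub, neg_mem_iff] at h1
  exact u₀.isPrime.ne_top ((Ideal.eq_top_iff_one _).2 h1)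

theorem bin {A : Type*} [CommRing A] (e : A) (m : ℕ) :
    ∃ c, (1 + e) ^ m = 1 + m * e + e ^ 2 * c := by
  induction m with
  | zero => exact ⟨0, by simp⟩
  | succ m ih =>
    obtain ⟨c, hc⟩ := ih
    exact ⟨c + m + e * c, by rw [pow_succ, hc]; push_cast; ring⟩

theorem pw {A : Type*} [CommRing A] (w : A) (m k : ℕ) :
    ∃ b c, w ^ m ^ k - 1 = m * b + (w - 1) ^ (k + 1) * c := by
  induction k with
  | zero => exact ⟨0, 1, by simp⟩
  | succ k ih =>
    obtain ⟨b, c, h⟩ := ih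
    obtain ⟨d, hd⟩ := bin (w ^ m ^ k - 1) m
    rw [add_sub_cancel, ← pow_mul, ← pow_succ] at hd
    refine ⟨w ^ m ^ k - 1 + (m * b ^ 2 + 2 * b * ((w - 1) ^ (k + 1) * c)) * d,
      (w - 1) ^ k * c ^ 2 * d, ?_⟩
    rw [hd]
    nth_rewrite 2 [h]
    ring

theorem fin_ov (Q : Finset ℕ) : (ov L Q).Finite := by
  refine ((Q.finite_toSet.subset (Finset.erase_subset 0 Q)).biUnion
    (t := fun l => {v : Pr L | v.asIdeal ∣ Ideal.span {(l : 𝓞 L)}}) fun l hl =>
      Ideal.finite_factors ?_).subset ?_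
  · simpa using (Finset.mem_erase.1 hl).1
  · rintro v ⟨l, h1, h2, h3⟩
    exact Set.mem_biUnion (Finset.mem_coe.2 (Finset.mem_erase.2 ⟨h2, h1⟩))
      (Ideal.dvd_span_singleton.2 h3)

theorem ordv_pow (v : Pr L) {x : L} (hx : x ≠ 0) (n : ℕ) : ordv v (x ^ n) = n * ordv v x := by
  induction n with
  | zero => rw [pow_zero, ordv_eq_zero (map_one _)]; simp
  | succ n ih => rw [pow_succ, ordv_mul (pow_ne_zero _ hx) hx, ih]; push_cast; ring

theorem below_ne {j : L →+* Qb} {v : Pr L} (h : below j ⊥ = v.asIdeal) : False := by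
  apply v.ne_bot
  rw [← h, below]
  refine Ideal.comap_bot_of_injective _ fun x y hxy => ?_
  ext
  exact j.injective (congrArg (fun z : 𝓞 Qb => (z : Qb)) hxy)

end LawP

open LawP in
theorem law : LAW := by
  classical
  intro L F _ _ _ _ j h x T Q φ a h2 hA ha hF y hy hS
  letI : Algebra (ZMod 2) F := ZMod.algebra F 2
  refine (Module.forall_dual_apply_eq_zero_iff (ZMod 2) _).1 fun Λ => ?_
  have φ1 : φ 1 = 0 := by
    have := hA.add 1 (one_mem _) 1 (one_mem _)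
    rw [mul_one] at this
    exact left_eq_add.1 this
  let θ : GK j →* Multiplicative (ZMod 2) :=
    { toFun := fun g => Multiplicative.ofAdd (Λ (φ g))
      map_one' := by simp [φ1]
      map_mul' := fun g g' => by
        rw [Subgroup.coe_mul, hA.add _ g.2 _ g'.2, map_add, ofAdd_add] }
  have hθ : ∀ g : GK j, (θ g).toAdd = Λ (φ g) := fun g => rfl
  have hθ1 : ∀ g : GK j, φ g = 0 → θ g = 1 := fun g hg => by
    apply Multiplicative.toAdd.injective
    rw [hθ, hg, map_zero, toAdd_one]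
  have ho : IsOpen {g : GK j | θ g = 1} := by
    obtain ⟨U, hU, hU'⟩ := hA.opn
    refine Subgroup.isOpen_of_mem_nhds θ.ker (g := 1) (Filter.mem_of_superset
      ((hU.preimage continuous_subtype_val).mem_nhds U.one_mem) fun g hg => hθ1 g (hU' g hg))
  obtain ⟨m, m0, m1, m2, m3⟩ := H651.FCH REC L j 2 two_pos θ ho
  have mQ : ∀ p : ℕ, p.Prime → p ∣ m → p ∈ Q := by
    intro p hp hpm
    by_contra hn
    obtain ⟨P, hP, hpP, g, hg, hg'⟩ := m1 p hp hpm
    exact hg' (hθ1 g (hA.unr p hp hn P hP hpP g hg))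
  have mo : Odd m := Nat.not_even_iff_odd.1 fun he =>
    h2 (mQ 2 Nat.prime_two (even_iff_two_dvd.1 he))
  obtain ⟨w, z, z0, hw, hw'⟩ := approx (fin_ov (L := L) Q).toFinset hy
    fun u hu => hS u ((Set.Finite.mem_toFinset _).1 hu)
  have hw1 : ∀ u ∈ ov L Q, w - 1 ∈ u.asIdeal := fun u hu =>
    hw' u ((Set.Finite.mem_toFinset _).2 hu)
  obtain ⟨k, hk⟩ : w - 1 ∈ (Ideal.span {(m : 𝓞 L)}).radical := by
    rw [Ideal.radical_eq_sInf, Ideal.mem_sInf]
    rintro J ⟨hJ, hJ'⟩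
    have hm : (m : 𝓞 L) ∈ J := hJ (Ideal.mem_span_singleton_self _)
    obtain ⟨p, hp, hpm, hpJ⟩ := H477.GC.exists_prime_mem hJ' m m0 hm
    have hb : J ≠ ⊥ := by
      rintro rfl
      exact m0 (by simpa using hm)
    exact hw1 ⟨J, hJ', hb⟩ ⟨p, mQ p hp hpm, hp.ne_zero, hpJ⟩
  have w0 : (w : L) ≠ 0 := by rw [hw]; exact mul_ne_zero hy (pow_ne_zero _ z0)
  have α0 : w ^ m ^ k ≠ 0 := pow_ne_zero _ fun h0 => w0 (by rw [h0]; rfl)
  have α1 : (m : 𝓞 L) ∣ w ^ m ^ k - 1 := by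
    obtain ⟨b, c, e⟩ := pw w m k
    rw [e, pow_succ]
    exact dvd_add (dvd_mul_right _ _)
      (((Ideal.mem_span_singleton.1 hk).mul_right _).mul_right _)
  have α2 : ∀ v ∈ ov L Q, ordv v ((w ^ m ^ k : 𝓞 L) : L) = 0 := by
    intro v hv
    refine H477.GC.ordv_eq_zero fun hm => ?_
    have h1 := v.asIdeal.sub_mem (v.isPrime.mem_of_pow_mem _ hm) (hw1 v hv)
    rw [sub_sub_cancel] at h1
    exact v.isPrime.ne_top ((Ideal.eq_top_iff_one _).2 h1)
  have α3 : ∀ v : Pr L, (ordv v y : F) = (ordv v ((w ^ m ^ k : 𝓞 L) : L) : F) := by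
    intro v
    have e : ((w ^ m ^ k : 𝓞 L) : L) = (y * z ^ 2) ^ m ^ k := by rw [← hw]; rfl
    obtain ⟨i, hi⟩ := mo.pow (n := k)
    have h0 : (2 : F) = 0 := by exact_mod_cast CharP.cast_eq_zero F 2
    rw [e, ordv_pow v (mul_ne_zero hy (pow_ne_zero _ z0)), ordv_mul hy (pow_ne_zero _ z0),
      ordv_pow v z0, hi]
    push_cast
    rw [h0]
    ring
  choose P fr hfr using H565.fre_exists j
  have key := m3 (fun v => (θ (fr v)).toAdd) (fun v P' g hmv hg => by
    rw [H565.fre_unique j θ v (fun R hR hRv g' hg' => m2 R hR ?_ ?_ g' hg') P' (P v) g _ hg (hfr v)]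
    · rintro rfl
      exact below_ne hRv
    · intro hmem
      apply hmv
      rw [← hRv, below, Ideal.mem_comap, map_natCast]
      exact hmem) (fun _ => 0) (fun ψ g hg => by
    obtain ⟨Φ, -, hΦ⟩ := hg
    rw [hθ, hA.cj g ⟨Φ, hΦ⟩, map_zero]) _ α0 α1
  simp only [finsum_zero, add_zero] at key
  simp only [α3]
  rw [← key]
  refine (Λ.toAddMonoidHom.map_finsum ((H477.GC.fin_ordv α0).subset fun v hv h0 => hv ?_)).trans
    (finsum_congr fun v => ?_)
  · simp only [h0, Int.cast_zero, zero_mul]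
  · rw [← zsmul_eq_mul, map_zsmul]
    by_cases hv : v ∈ ov L Q
    · rw [α2 v hv, zero_smul, zero_smul]
    · rw [hθ, hF v hv _ _ (hfr v)]
      rfl

end Vale.Agent.P022D.Sel
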