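import Vale.Agent.P022D.Sel.Defs

/-!
# P022, dihedral case, block Sel: odd order cosets and the congruences
-/

set_option linter.all false

noncomputable section

namespace Vale.Agent.P022D.Sel

open NumberField
open Vale.Agent.P022 Vale.Agent.P022.C

namespace OddP

/-- the roots of `1` and `2` of order `2 ^ k`, `k ≤ n` -/
def Rt (n : ℕ) : Set Qb := {x | ∃ k ≤ n, x ^ 2 ^ k = 1 ∨ x ^ 2 ^ k = 2}

/-- the elements which fix these roots -/
def Gn (n : ℕ) : Subgroup GQ where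
  carrier := {g | ∀ x ∈ Rt n, g x = x}
  mul_mem' {g h} hg hh x hx := by rw [AlgEquiv.mul_apply, hh x hx, hg x hx]
  one_mem' x hx := rfl
  inv_mem' {g} hg x hx := by
    have h : g⁻¹ (g x) = x := by rw [← AlgEquiv.mul_apply, inv_mul_cancel]; rfl
    rwa [hg x hx] at h

theorem fin_root (N : ℕ) (hN : 0 < N) (c : Qb) : {x : Qb | x ^ N = c}.Finite := by
  classical
  refine (Polynomial.nthRoots N c).toFinset.finite_toSet.subset ?_
  intro x hx
  simp only [Finset.mem_coe, Multiset.mem_toFinset, Polynomial.mem_nthRoots hN]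
  exact hx

theorem rt_fin (n : ℕ) : (Rt n).Finite := by
  have h : Rt n ⊆ ⋃ k ∈ Set.Iic n, ({x : Qb | x ^ 2 ^ k = 1} ∪ {x : Qb | x ^ 2 ^ k = 2}) := by
    rintro x ⟨k, hk, hx⟩
    exact Set.mem_biUnion (Set.mem_Iic.2 hk) hx
  exact ((Set.finite_Iic n).biUnion fun k _ =>
    (fin_root _ (by positivity) 1).union (fin_root _ (by positivity) 2)).subset h

theorem gn_open (n : ℕ) : IsOpen (Gn n : Set GQ) := by
  have h1 : Algebra.IsAlgebraic ℚ Qb := AlgebraicClosure.isAlgebraic ℚ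
  have h2 : Algebra.IsIntegral ℚ Qb := Algebra.isAlgebraic_iff_isIntegral.1 h1
  have h : (Gn n : Set GQ) = ⋂ x ∈ Rt n, (MulAction.stabilizer GQ x : Set GQ) := by
    ext g
    simp only [Set.mem_iInter, SetLike.mem_coe, MulAction.mem_stabilizer_iff]
    exact Iff.rfl
  rw [h]
  exact (rt_fin n).isOpen_biInter fun x _ => stabilizer_isOpen_of_isIntegral x

theorem pow_fix (g : GQ) (c : ℚ) : ∀ (k : ℕ) (x : Qb), x ^ 2 ^ k = (c : Qb) → (g ^ 2 ^ k) x = x := by
  intro k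
  induction k with
  | zero =>
    intro x hx
    rw [pow_zero, pow_one] at hx
    rw [hx]
    exact map_ratCast _ c
  | succ k ih =>
    intro x hx
    have h2 : (x ^ 2) ^ 2 ^ k = (c : Qb) := by rw [← pow_mul, ← pow_succ']; exact hx
    have h3 := ih _ h2
    rw [map_pow] at h3
    rw [pow_succ, pow_mul, sq (g ^ 2 ^ k), AlgEquiv.mul_apply]
    rcases sq_eq_sq_iff_eq_or_eq_neg.1 h3 with h | h
    · rw [h, h]
    · rw [h, map_neg, h, neg_neg]

theorem pow_mem (g : GQ) (n : ℕ) : g ^ 2 ^ n ∈ Gn n := by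
  rintro x ⟨k, hk, hx⟩
  have h1 : (g ^ 2 ^ k) x = x := by
    rcases hx with hx | hx
    · exact pow_fix g 1 k x (by rw [hx]; norm_num)
    · exact pow_fix g 2 k x (by rw [hx]; norm_num)
  have h2 : g ^ 2 ^ k ∈ MulAction.stabilizer GQ x := h1
  obtain ⟨j, rfl⟩ := Nat.exists_eq_add_of_le hk
  have h3 : (g ^ 2 ^ k) ^ 2 ^ j ∈ MulAction.stabilizer GQ x := Subgroup.pow_mem _ h2 _
  rw [← pow_mul, ← pow_add] at h3
  exact h3

theorem compact_GQ : CompactSpace GQ := by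
  have h1 : Algebra.IsAlgebraic ℚ Qb := AlgebraicClosure.isAlgebraic ℚ
  have h2 : IsAlgClosure ℚ Qb := ⟨inferInstance, inferInstance⟩
  have h3 : IsGalois ℚ Qb := IsAlgClosure.isGalois ℚ Qb
  infer_instance

/-- a root fixed by a Frobenius element gives a root modulo `q` -/
theorem red (q : ℕ) (hq : q.Prime) (φ : GQ) (hφ : IsFrob q φ) (N : ℕ) (hN : 0 < N) (c : ℤ)
    (x : Qb) (hx : x ^ N = (c : Qb)) (hf : φ x = x) : ∃ z : ZMod q, z ^ N = (c : ZMod q) := by
  obtain ⟨P, hP, hqP, hfr⟩ := hφ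
  haveI : Fact q.Prime := ⟨hq⟩
  have hi : IsIntegral ℤ x := by
    refine IsIntegral.of_pow hN ?_
    rw [hx]
    exact isIntegral_algebraMap (R := ℤ) (A := Qb) (x := c)
  let y : 𝓞 Qb := ⟨x, hi⟩
  have hy : y ^ N = (c : 𝓞 Qb) := by
    apply RingOfIntegers.coe_injective
    rw [map_pow, map_intCast]
    exact hx
  have hfy : φ • y = y := by
    apply RingOfIntegers.ext
    exact hf
  let R := 𝓞 Qb ⧸ P
  let K := FractionRing R
  let π : 𝓞 Qb →+* K := (algebraMap R K).comp (Ideal.Quotient.mk P)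
  have hπ : ∀ a ∈ P, π a = 0 := fun a ha => by
    have h0 : Ideal.Quotient.mk P a = 0 := Ideal.Quotient.eq_zero_iff_mem.2 ha
    show algebraMap R K (Ideal.Quotient.mk P a) = 0
    rw [h0, map_zero]
  have hq0 : (q : K) = 0 := by
    have h := hπ _ hqP
    rwa [map_natCast] at h
  haveI : CharP K q := (CharP.charP_iff_prime_eq_zero hq).2 hq0
  have hpw : π y ^ q = π y := by
    have h := hπ _ (hfr y)
    rw [hfy, map_sub, map_pow] at h
    exact (sub_eq_zero.1 h).symm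
  have hb : π y ∈ (⊥ : Subfield K) := (Subfield.mem_bot_iff_pow_eq_self K q).2 hpw
  obtain ⟨a, ha⟩ := (mem_bot_iff_intCast q K).1 hb
  refine ⟨(a : ZMod q), ?_⟩
  have h1 : ((a ^ N : ℤ) : K) = (c : K) := by
    rw [Int.cast_pow, ha, ← map_pow, hy, map_intCast]
  have h2 := (CharP.intCast_eq_intCast K q).1 h1
  rw [← Int.cast_pow]
  exact (ZMod.intCast_eq_intCast_iff _ _ _).2 h2

end OddP

open OddP

theorem odd : ODD := by
  intro Γ g m hΓ hm hg
  have hc := compact_GQ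
  let C : ℕ → Set GQ := fun n => (Gn n : Set GQ) ∩ {t | g * t⁻¹ ∈ Γ}
  have hcl : ∀ n, IsClosed (C n) := fun n =>
    ((Gn n).isClosed_of_isOpen (gn_open n)).inter
      ((Γ.isClosed_of_isOpen hΓ).preimage (continuous_const.mul continuous_inv))
  have hne : ∀ n, (C n).Nonempty := fun n => by
    have hco : IsCoprime ((2 : ℤ) ^ n) (m : ℤ) := by
      have h1 : Nat.Coprime (2 ^ n) m := Nat.Coprime.pow_left n (Nat.coprime_two_left.2 hm)
      have h2 := Nat.isCoprime_iff_coprime.2 h1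
      rwa [Nat.cast_pow, Nat.cast_ofNat] at h2
    obtain ⟨a, b, hab⟩ := hco
    refine ⟨(g ^ 2 ^ n) ^ a, Subgroup.zpow_mem _ (pow_mem g n) a, ?_⟩
    have h1 : g * ((g ^ 2 ^ n) ^ a)⁻¹ = (g ^ m) ^ b := by
      rw [← zpow_natCast g (2 ^ n), ← zpow_natCast g m, ← zpow_mul, ← zpow_mul, ← zpow_neg,
        ← zpow_one_add]
      refine congrArg (fun k : ℤ => g ^ k) ?_
      rw [Nat.cast_pow, Nat.cast_ofNat]
      linear_combination -hab
    show g * ((g ^ 2 ^ n) ^ a)⁻¹ ∈ Γ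
    rw [h1]
    exact Subgroup.zpow_mem _ hg b
  have hd : ∀ n, C (n + 1) ⊆ C n := fun n t ht =>
    ⟨fun x ⟨k, hk, hx⟩ => ht.1 x ⟨k, Nat.le_succ_of_le hk, hx⟩, ht.2⟩
  obtain ⟨t, ht⟩ := IsCompact.nonempty_iInter_of_sequence_nonempty_isCompact_isClosed C hd hne
    (hcl 0).isCompact hcl
  rw [Set.mem_iInter] at ht
  refine ⟨g * t⁻¹, (ht 0).2, t, fun n x hx => (ht n).1 x ⟨n, le_rfl, hx⟩, ?_⟩
  rw [inv_mul_cancel_right]

theorem cong : CONG := by
  intro n
  refine ⟨Gn n, gn_open n, ?_⟩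
  intro q m σ φ hq hq2 hσ hφ hU
  haveI : Fact q.Prime := ⟨hq⟩
  have hfix : ∀ x : Qb, (x ^ 2 ^ n = 1 ∨ x ^ 2 ^ n = 2) → φ x = x := fun x hx => by
    have h1 : (φ⁻¹ * σ ^ m) x = x := hU x ⟨n, le_rfl, hx⟩
    have h2 : (σ ^ m) x = x := (Subgroup.pow_mem Ginf hσ m) n x hx
    rw [AlgEquiv.mul_apply, h2] at h1
    have h3 : φ (φ⁻¹ x) = x := by rw [← AlgEquiv.mul_apply, mul_inv_cancel]; rfl
    rwa [h1] at h3
  constructor
  · cases n with
    | zero => simp
    | succ k =>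
      obtain ⟨x, hx⟩ := IsAlgClosed.exists_pow_nat_eq (-1 : Qb) (show 0 < 2 ^ k by positivity)
      have hx1 : x ^ 2 ^ (k + 1) = 1 := by rw [pow_succ, pow_mul, hx]; norm_num
      obtain ⟨z, hz⟩ := red q hq φ hφ (2 ^ k) (by positivity) (-1) x (by rw [hx]; norm_num)
        (hfix x (Or.inl hx1))
      rw [Int.cast_neg, Int.cast_one] at hz
      have hz1 : z ^ 2 ^ (k + 1) = 1 := by rw [pow_succ, pow_mul, hz]; norm_num
      haveI : Fact (2 < q) := ⟨lt_of_le_of_ne hq.two_le (Ne.symm hq2)⟩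
      have hz2 : ¬ z ^ 2 ^ k = 1 := by rw [hz]; exact ZMod.neg_one_ne_one
      have hz0 : z ≠ 0 := by
        rintro rfl
        rw [zero_pow (by positivity)] at hz1
        exact zero_ne_one hz1
      haveI : Fact (Nat.Prime 2) := ⟨Nat.prime_two⟩
      rw [← orderOf_eq_prime_pow hz2 hz1]
      exact ZMod.orderOf_dvd_card_sub_one hz0
  · obtain ⟨x, hx⟩ := IsAlgClosed.exists_pow_nat_eq (2 : Qb) (show 0 < 2 ^ n by positivity)
    obtain ⟨z, hz⟩ := red q hq φ hφ (2 ^ n) (by positivity) 2 x (by rw [hx]; norm_num)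
      (hfix x (Or.inr hx))
    exact ⟨z, by rw [hz]; norm_num⟩

end Vale.Agent.P022D.Sel
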