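import Vale.Agent.P022D.Sel.Defs
import Vale.Agent.P011.Arith.SUnit
import Vale.Agent.P022.H916.Ram

/-! # P022, block Sel: square roots of units, local squares -/

set_option linter.all false

noncomputable section

namespace Vale.Agent.P022D.Sel

open NumberField IsDedekindDomain
open Vale.Agent.P022 Vale.Agent.P022.C
open Vale.Agent.P027M.S (Pr Inert mx)

theorem ov_fin {L : Type} [Field L] [NumberField L] (A : Finset ℕ) : (ov L A).Finite := by
  have h : ov L A ⊆ ⋃ l ∈ (A.erase 0 : Finset ℕ),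
      {v : Pr L | v.asIdeal ∣ Ideal.span {(l : 𝓞 L)}} := by
    rintro v ⟨l, hl, h0, hv⟩
    simp only [Set.mem_iUnion]
    exact ⟨l, Finset.mem_erase.2 ⟨h0, hl⟩, Ideal.dvd_span_singleton.2 hv⟩
  refine Set.Finite.subset (Set.Finite.biUnion (Finset.finite_toSet _) ?_) h
  intro l hl
  apply Ideal.finite_factors
  have h0 : l ≠ 0 := (Finset.mem_erase.1 hl).1
  rw [Ne, Ideal.zero_eq_bot, Ideal.span_singleton_eq_bot]
  exact Nat.cast_ne_zero.2 h0

theorem opn_core (U : Subgroup GQ) (h : IsOpen (U : Set GQ)) :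
    IsOpen (U.normalCore : Set GQ) := by
  haveI := H916.isGalois_Qb
  haveI : Finite (GQ ⧸ U) := Subgroup.quotient_finite_of_isOpen U h
  haveI : U.FiniteIndex := Subgroup.finiteIndex_of_finite_quotient
  exact Subgroup.isOpen_of_isClosed_of_finiteIndex _
    (Subgroup.normalCore_isClosed U (Subgroup.isClosed_of_isOpen U h))

theorem opn : OPEN := by
  intro L _ _ j A
  haveI := H916.isAlg_Qb
  let G : Type := (ov L A).unit L
  let S : Subgroup G := (powMonoidHom 2 : G →* G).range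
  have hS : S.index ≠ 0 := by
    have := Vale.Agent.P011.Arith.sqIdx_Sunit (ov L A) (ov_fin A)
    unfold Vale.Agent.P011.Arith.sqIdx at this
    rw [this]
    positivity
  haveI : S.FiniteIndex := ⟨hS⟩
  haveI : Finite (G ⧸ S) := Subgroup.finite_quotient_of_finiteIndex
  have hw : ∀ c : G ⧸ S, ∃ w : Qb, w ^ 2 = j (((c.out : G) : Lˣ) : L) := fun c =>
    IsAlgClosed.exists_pow_nat_eq _ (by norm_num)
  choose w hw using hw
  let U : Subgroup GQ := GK j ⊓ ⨅ c : G ⧸ S, MulAction.stabilizer GQ (w c)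
  have hU : IsOpen (U : Set GQ) := by
    rw [Subgroup.coe_inf, Subgroup.coe_iInf]
    exact (H916.isOpen_GK j).inter
      (isOpen_iInter_of_finite fun c => stabilizer_isOpen_of_isIntegral (w c))
  refine ⟨U.normalCore, opn_core U hU, inferInstance,
    (Subgroup.normalCore_le U).trans inf_le_left, ?_⟩
  intro g hg y x hx
  have hg' : g ∈ U := Subgroup.normalCore_le U hg
  have h1 : g ∈ GK j := hg'.1
  let y' : G := Additive.toMul y
  let c : G ⧸ S := QuotientGroup.mk y'
  have h2 : g (w c) = w c := Subgroup.mem_iInf.1 hg'.2 c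
  have h3 : (c.out : G)⁻¹ * y' ∈ S := by
    rw [← QuotientGroup.eq]
    exact QuotientGroup.out_eq' c
  obtain ⟨t, ht⟩ := h3
  have h4 : y' = c.out * t ^ 2 := by
    have : t ^ 2 = (c.out : G)⁻¹ * y' := ht
    rw [this, mul_inv_cancel_left]
  have h5 : el y = (((c.out : G) : Lˣ) : L) * ((t : Lˣ) : L) ^ 2 := by
    show ((y' : Lˣ) : L) = _
    rw [h4, pow_two, pow_two]
    rfl
  have h6 : x ^ 2 = (w c * j ((t : Lˣ) : L)) ^ 2 := by
    rw [hx, h5, map_mul, map_pow, mul_pow, hw]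
  have h7 : g (w c * j ((t : Lˣ) : L)) = w c * j ((t : Lˣ) : L) := by
    rw [map_mul, h2, h1]
  rcases sq_eq_sq_iff_eq_or_eq_neg.1 h6 with h | h
  · rw [h, h7]
  · rw [h, map_neg, h7]

theorem loc : LOC := by
  intro L _ _ j u P g y hP hb h2 hg hst hsq w hw
  obtain ⟨hy, z, hz⟩ := hsq
  have hgw : (g w) ^ 2 = w ^ 2 := by rw [← map_pow, hw, hg]
  rcases sq_eq_sq_iff_eq_or_eq_neg.1 hgw with h | h
  · exact h
  exfalso
  have hz1 : u.valuation L z ≤ 1 := by
    have h1 : u.valuation L (z ^ 2) ≤ 1 := by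
      have e : z ^ 2 = y - (y - z ^ 2) := by ring
      rw [e]
      exact (Valuation.map_sub _ _ _).trans (max_le hy.le hz.le)
    rw [map_pow] at h1
    exact (pow_le_one_iff (by norm_num)).1 h1
  obtain ⟨n1, d1, e1⟩ := u.exists_primeCompl_mul_eq_of_integer y hy.le
  obtain ⟨n2, d2, e2⟩ := u.exists_primeCompl_mul_eq_of_integer z hz1
  have v1 : u.valuation L (algebraMap (𝓞 L) L d1) = 1 :=
    (HeightOneSpectrum.valuation_eq_one_iff_notMem u).2 d1.2
  have v2 : u.valuation L (algebraMap (𝓞 L) L d2) = 1 :=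
    (HeightOneSpectrum.valuation_eq_one_iff_notMem u).2 d2.2
  let a : 𝓞 L := (d1 : 𝓞 L) * (d2 : 𝓞 L) ^ 2 * n1
  let b : 𝓞 L := (d1 : 𝓞 L) * n2
  have ea : algebraMap (𝓞 L) L a =
      (algebraMap (𝓞 L) L d1 * algebraMap (𝓞 L) L d2) ^ 2 * y := by
    simp only [a, map_mul, map_pow, ← e1]; ring
  have eb : algebraMap (𝓞 L) L b = (algebraMap (𝓞 L) L d1 * algebraMap (𝓞 L) L d2) * z := by
    simp only [b, map_mul, ← e2]; ring
  have ha : a ∉ u.asIdeal := by
    rw [← HeightOneSpectrum.valuation_eq_one_iff_notMem (K := L), ea, map_mul, map_pow, map_mul,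
      v1, v2, hy]
    simp
  have hab : a - b ^ 2 ∈ u.asIdeal := by
    rw [← HeightOneSpectrum.valuation_lt_one_iff_mem (K := L)]
    have e : (((a - b ^ 2 : 𝓞 L)) : L) =
        (algebraMap (𝓞 L) L d1 * algebraMap (𝓞 L) L d2) ^ 2 * (y - z ^ 2) := by
      show algebraMap (𝓞 L) L (a - b ^ 2) = _
      rw [map_sub, map_pow, ea, eb]; ring
    show u.valuation L (algebraMap (𝓞 L) L (a - b ^ 2)) < 1
    have e' : algebraMap (𝓞 L) L (a - b ^ 2) =
        (algebraMap (𝓞 L) L d1 * algebraMap (𝓞 L) L d2) ^ 2 * (y - z ^ 2) := e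
    rw [e', map_mul, map_pow, map_mul, v1, v2]
    simpa using hz
  let J := RingOfIntegers.mapRingHom j
  have hJ : ∀ r : 𝓞 L, ((J r : 𝓞 Qb) : Qb) = j (algebraMap (𝓞 L) L r) := fun r => rfl
  let W0 : Qb := j (algebraMap (𝓞 L) L d1 * algebraMap (𝓞 L) L d2) * w
  have hW0 : W0 ^ 2 = ((J a : 𝓞 Qb) : Qb) := by
    rw [hJ, ea, map_mul j (_ ^ 2), map_pow, ← hw]
    simp only [W0]; ring
  have hint : IsIntegral ℤ W0 := by
    apply IsIntegral.of_pow (n := 2) (by norm_num)
    rw [hW0]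
    exact (J a).2
  let W : 𝓞 Qb := ⟨W0, hint⟩
  have hW : W ^ 2 = J a := by
    apply Subtype.ext
    exact hW0
  have gW : g • W = -W := by
    apply Subtype.ext
    show g W0 = -W0
    simp only [W0]
    rw [map_mul, hg, h]; ring
  have gZ : g • J b = J b := by
    apply Subtype.ext
    show g (j (algebraMap (𝓞 L) L b)) = j (algebraMap (𝓞 L) L b)
    exact hg _
  have hm : ∀ r : 𝓞 L, J r ∈ P ↔ r ∈ u.asIdeal := fun r => by
    rw [← hb]; rfl
  have hp : (W - J b) * (W + J b) ∈ P := by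
    have e : (W - J b) * (W + J b) = J (a - b ^ 2) := by
      rw [map_sub, map_pow, ← hW]; ring
    rw [e]
    exact (hm _).2 hab
  have h2W : 2 * W ∈ P := by
    rcases hP.mem_or_mem hp with k | k
    · have k' := (hst _).2 k
      rw [smul_sub, gW, gZ] at k'
      have := P.sub_mem k k'
      convert this using 1; ring
    · have k' := (hst _).2 k
      rw [smul_add, gW, gZ] at k'
      have := P.sub_mem k k'
      convert this using 1; ring
  rcases hP.mem_or_mem h2W with k | k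
  · exact h2 k
  · apply ha
    rw [← hm, ← hW]
    exact P.pow_mem_of_mem k 2 (by norm_num)

end Vale.Agent.P022D.Sel
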