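import Vale.Agent.P022D.Sel.Defs
import Vale.Agent.P022.H916.Fld

/-! # P022, block Sel: primes as double cosets, sums over finite sets of primes -/

set_option linter.all false

noncomputable section

namespace Vale.Agent.P022D.Sel

open NumberField IsDedekindDomain
open Vale.Agent.P022 Vale.Agent.P022.C
open Vale.Agent.P027M.S (Pr Inert mx)
open Vale.Agent.P027M.S.Gen (cm val_cm mem_cm)
open scoped Pointwise

namespace Pl

theorem mem_smul (g : GQ) (P : Ideal (𝓞 Qb)) (x : 𝓞 Qb) : x ∈ g • P ↔ g⁻¹ • x ∈ P :=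
  Ideal.mem_pointwise_smul_iff_inv_smul_mem

theorem smul_nat (g : GQ) (l : ℕ) : g • (l : 𝓞 Qb) = l :=
  map_natCast (MulSemiringAction.toRingHom GQ (𝓞 Qb) g) l

theorem prime_smul (g : GQ) {P : Ideal (𝓞 Qb)} (hP : P.IsPrime) : (g • P).IsPrime := by
  refine ⟨?_, fun {x y} h => ?_⟩
  · rw [Ideal.ne_top_iff_one, mem_smul, smul_one]
    exact (Ideal.ne_top_iff_one P).1 hP.1
  · rw [mem_smul, smul_mul'] at h
    rw [mem_smul, mem_smul]
    exact hP.2 h

variable {L : Type} [Field L] [NumberField L]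

theorem mem_below (j : L →+* Qb) (P : Ideal (𝓞 Qb)) (y : 𝓞 L) :
    y ∈ below j P ↔ RingOfIntegers.mapRingHom j y ∈ P := Iff.rfl

/-- the prime below `g P` -/
def bl (j : L →+* Qb) {l : ℕ} (hl : l ≠ 0) {P : Ideal (𝓞 Qb)} (hP : P.IsPrime)
    (hlP : (l : 𝓞 Qb) ∈ P) (g : GQ) : Pr L where
  asIdeal := below j (g • P)
  isPrime := by
    haveI := prime_smul g hP
    exact Ideal.comap_isPrime _ _
  ne_bot := by
    intro h
    have h1 : (l : 𝓞 L) ∈ below j (g • P) := by
      rw [mem_below, map_natCast, mem_smul, smul_nat]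
      exact hlP
    rw [h, Ideal.mem_bot] at h1
    exact hl (Nat.cast_eq_zero.1 h1)

section

variable (j : L →+* Qb) {l : ℕ} (hl : l ≠ 0) {P : Ideal (𝓞 Qb)} (hP : P.IsPrime)
  (hlP : (l : 𝓞 Qb) ∈ P)

theorem mem_bl (g : GQ) (y : 𝓞 L) :
    y ∈ (bl j hl hP hlP g).asIdeal ↔ g⁻¹ • RingOfIntegers.mapRingHom j y ∈ P := by
  rw [← mem_smul]; rfl

theorem bl_ov (g : GQ) : bl j hl hP hlP g ∈ ov L {l} := by
  refine ⟨l, Finset.mem_singleton_self l, hl, ?_⟩
  rw [mem_bl, map_natCast, smul_nat]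
  exact hlP

theorem bl_left {γ : GQ} (hγ : γ ∈ GK j) (g : GQ) :
    bl j hl hP hlP (γ * g) = bl j hl hP hlP g := by
  apply HeightOneSpectrum.ext
  ext y
  have e : γ⁻¹ • RingOfIntegers.mapRingHom j y = RingOfIntegers.mapRingHom j y :=
    RingOfIntegers.ext ((GK j).inv_mem hγ (y : L))
  rw [mem_bl, mem_bl, mul_inv_rev, mul_smul, e]

theorem bl_right {d : GQ} (hd : Stab P d) (g : GQ) :
    bl j hl hP hlP (g * d) = bl j hl hP hlP g := by
  apply HeightOneSpectrum.ext
  ext y
  rw [mem_bl, mem_bl, mul_inv_rev, mul_smul, ← hd, smul_inv_smul]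

theorem bl_mv {h : GQ} {τ : L ≃+* L} (hτ : ∀ y, j (τ y) = h (j y)) (g : GQ) :
    bl j hl hP hlP (h * g) = mv τ (bl j hl hP hlP g) := by
  apply HeightOneSpectrum.ext
  ext y
  have e : h⁻¹ • RingOfIntegers.mapRingHom j y =
      RingOfIntegers.mapRingHom j (RingOfIntegers.mapRingEquiv τ.symm y) := by
    rw [inv_smul_eq_iff]
    apply RingOfIntegers.ext
    have h1 := hτ (τ.symm (y : L))
    rw [RingEquiv.apply_symm_apply] at h1
    exact h1
  rw [mv, mem_cm, mem_bl, mem_bl, mul_inv_rev, mul_smul, e]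

theorem bl_eq {g g' : GQ} (e : bl j hl hP hlP g = bl j hl hP hlP g') :
    ∃ γ ∈ GK j, ∃ d, Stab P d ∧ g' = γ * g * d := by
  obtain ⟨γ, hγ⟩ := H916.exists_smul j (prime_smul g hP) (prime_smul g' hP)
    (congrArg HeightOneSpectrum.asIdeal e)
  refine ⟨γ, γ.2, g⁻¹ * (γ : GQ)⁻¹ * g', fun x => ?_, by group⟩
  have h1 : g' • x ∈ g' • P ↔ x ∈ P := by rw [mem_smul, inv_smul_smul]
  rw [← h1, hγ, mem_smul, mem_smul, mul_smul, mul_smul]

theorem below_rat (hp : l.Prime) {R : Ideal (𝓞 Qb)} (hR : R.IsPrime) (hlR : (l : 𝓞 Qb) ∈ R) :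
    below (algebraMap ℚ Qb) R = Ideal.span {(l : 𝓞 ℚ)} := by
  haveI := hR
  have h1 : (below (algebraMap ℚ Qb) R).IsPrime := Ideal.comap_isPrime _ _
  have h2 : Prime (l : 𝓞 ℚ) := by
    have h3 : Prime (l : ℤ) := Nat.prime_iff_prime_int.1 hp
    have h4 := (MulEquiv.prime_iff Rat.ringOfIntegersEquiv.symm.toMulEquiv).2 h3
    have h5 : Rat.ringOfIntegersEquiv.symm.toMulEquiv (l : ℤ) = (l : 𝓞 ℚ) :=
      map_natCast Rat.ringOfIntegersEquiv.symm l
    rwa [h5] at h4
  have h6 : (Ideal.span {(l : 𝓞 ℚ)}).IsMaximal :=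
    ((Ideal.span_singleton_prime h2.ne_zero).2 h2).isMaximal
      (by rw [Ne, Ideal.span_singleton_eq_bot]; exact h2.ne_zero)
  refine (h6.eq_of_le h1.1 ?_).symm
  rw [Ideal.span_singleton_le_iff_mem, mem_below, map_natCast]
  exact hlR

theorem bl_onto (hp : l.Prime) {v : Pr L} (hv : v ∈ ov L {l}) : ∃ g, bl j hl hP hlP g = v := by
  obtain ⟨l', h1, -, h2⟩ := hv
  rw [Finset.mem_singleton] at h1
  subst h1
  obtain ⟨R, hR, e⟩ := H916.exists_above j v.asIdeal v.isPrime
  have hlR : (l' : 𝓞 Qb) ∈ R := by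
    rw [← e, mem_below, map_natCast] at h2
    exact h2
  obtain ⟨g, hg⟩ := H916.exists_smul (algebraMap ℚ Qb) hP hR
    (by rw [below_rat hp hP hlP, below_rat hp hR hlR])
  refine ⟨g, HeightOneSpectrum.ext ?_⟩
  rw [← e, hg]
  rfl

end

theorem mv_ov (τ : L ≃+* L) (A : Finset ℕ) (v : Pr L) : mv τ v ∈ ov L A ↔ v ∈ ov L A :=
  cm_ov τ.symm A v

theorem fin_ov (A : Finset ℕ) : (ov L A).Finite := by
  have h : ov L A ⊆ ⋃ l ∈ A.erase 0, {v : Pr L | v.asIdeal ∣ Ideal.span {(l : 𝓞 L)}} := by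
    rintro v ⟨l, h1, h2, h3⟩
    simp only [Set.mem_iUnion, Set.mem_setOf_eq]
    exact ⟨l, Finset.mem_erase.2 ⟨h2, h1⟩, Ideal.dvd_span_singleton.2 h3⟩
  refine Set.Finite.subset (Set.Finite.biUnion (Finset.finite_toSet _) fun l hl => ?_) h
  refine Ideal.finite_factors ?_
  rw [Ne, Submodule.zero_eq_bot, Ideal.span_singleton_eq_bot]
  exact Nat.cast_ne_zero.2 (Finset.mem_erase.1 hl).1

section

variable {F : Type} [Field F] {I : Type}

theorem rank_fin (π : I → I) (x : F) {S : Set I} (hS : S.Finite) :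
    Module.rank F (E F π x S) < Cardinal.aleph0 := by
  haveI := hS.to_subtype
  let φ : E F π x S →ₗ[F] (S → F) :=
    { toFun := fun a v => a.1 v.1
      map_add' := fun _ _ => rfl
      map_smul' := fun _ _ => rfl }
  have hφ : Function.Injective φ := by
    intro a b h
    apply Subtype.ext
    funext v
    by_cases hv : v ∈ S
    · exact congrFun h ⟨v, hv⟩
    · rw [a.2.1 v hv, b.2.1 v hv]
  exact (LinearMap.rank_le_of_injective φ hφ).trans_lt (Module.rank_lt_aleph0 F (S → F))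

theorem rank_union (π : I → I) (x : F) {S T : Set I} (hd : Disjoint S T)
    (hS : ∀ v, π v ∈ S ↔ v ∈ S) :
    Module.rank F (E F π x (S ∪ T)) = Module.rank F (E F π x S) + Module.rank F (E F π x T) := by
  classical
  have h1 : E F π x S ⊔ E F π x T = E F π x (S ∪ T) := by
    apply le_antisymm
    · refine sup_le (fun a ha => ⟨fun v hv => ha.1 v fun h => hv (Or.inl h), ha.2⟩)
        (fun a ha => ⟨fun v hv => ha.1 v fun h => hv (Or.inr h), ha.2⟩)
    · intro a ha
      have e : a = (fun v => if v ∈ S then a v else 0) + fun v => if v ∈ S then 0 else a v := by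
        funext v
        by_cases hv : v ∈ S <;> simp [hv]
      rw [e]
      refine Submodule.add_mem_sup ⟨fun v hv => if_neg hv, fun v => ?_⟩
        ⟨fun v hv => ?_, fun v => ?_⟩
      · by_cases hv : v ∈ S
        · simp only [if_pos hv, if_pos ((hS v).2 hv), ha.2 v]
        · simp only [if_neg hv, if_neg (fun h => hv ((hS v).1 h)), mul_zero]
      · by_cases hv' : v ∈ S
        · exact if_pos hv'
        · simp only [if_neg hv']
          exact ha.1 v fun h => h.elim hv' hv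
      · by_cases hv : v ∈ S
        · simp only [if_pos hv, if_pos ((hS v).2 hv), mul_zero]
        · simp only [if_neg hv, if_neg (fun h => hv ((hS v).1 h)), ha.2 v]
  have h2 : E F π x S ⊓ E F π x T = ⊥ := by
    rw [eq_bot_iff]
    intro a ha
    rw [Submodule.mem_bot]
    funext v
    by_cases hv : v ∈ S
    · exact ha.2.1 v (Set.disjoint_left.1 hd hv)
    · exact ha.1.1 v hv
  have h3 := Submodule.rank_sup_add_rank_inf_eq (E F π x S) (E F π x T)
  rw [h1, h2, rank_bot, add_zero] at h3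
  exact h3

end

end Pl

open Pl

theorem pl : PL := by
  intro L F _ _ _ j h τ x l D hτ hl hD
  classical
  rcases hD with ⟨h0, -⟩ | ⟨hp, P, hP, hlP, rfl⟩
  · exact absurd h0 hl
  let φ : E F (mv τ) x (ov L {l}) →ₗ[F] Ind F (GK j) h x {g | Stab P g} :=
    { toFun := fun a => ⟨fun g => a.1 (bl j hl hP hlP g),
        fun γ hγ g => congrArg a.1 (bl_left j hl hP hlP hγ g),
        fun g => (congrArg a.1 (bl_mv j hl hP hlP hτ g)).trans (a.2.2 _),
        fun d hd g => congrArg a.1 (bl_right j hl hP hlP hd g)⟩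
      map_add' := fun _ _ => rfl
      map_smul' := fun _ _ => rfl }
  have hi : Function.Injective φ := by
    intro a b e
    apply Subtype.ext
    funext v
    by_cases hv : v ∈ ov L {l}
    · obtain ⟨g, rfl⟩ := bl_onto j hl hP hlP hp hv
      exact congrFun (congrArg Subtype.val e) g
    · rw [a.2.1 v hv, b.2.1 v hv]
  have hs : Function.Surjective φ := by
    intro f
    let a : Pr L → F := fun v =>
      if hv : v ∈ ov L {l} then f.1 (bl_onto j hl hP hlP hp hv).choose else 0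
    have ha : ∀ g, a (bl j hl hP hlP g) = f.1 g := by
      intro g
      have hv := bl_ov j hl hP hlP g
      obtain ⟨γ, hγ, d, hd, e⟩ := bl_eq j hl hP hlP (bl_onto j hl hP hlP hp hv).choose_spec
      have e1 : a (bl j hl hP hlP g) = f.1 (bl_onto j hl hP hlP hp hv).choose := dif_pos hv
      rw [e1]
      have e2 := congrArg f.1 e
      rw [e2, f.2.2.2 d hd, f.2.1 γ hγ]
    have h0 : ∀ v ∉ ov L {l}, a v = 0 := fun v hv => dif_neg hv
    refine ⟨⟨a, h0, fun v => ?_⟩, Subtype.ext (funext ha)⟩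
    by_cases hv : v ∈ ov L {l}
    · obtain ⟨g, rfl⟩ := bl_onto j hl hP hlP hp hv
      rw [← bl_mv j hl hP hlP hτ, ha, ha, f.2.2.1]
    · rw [h0 v hv, h0 _ (fun h' => hv ((mv_ov τ _ v).1 h')), mul_zero]
  exact (LinearEquiv.ofBijective φ ⟨hi, hs⟩).rank_eq

theorem sum : SUM := by
  intro L F _ _ _ τ x A hA
  refine ⟨rank_fin _ _ (fin_ov A), ?_⟩
  have key : ∀ B : Finset ℕ, (∀ l ∈ B, l.Prime) → Module.rank F (E F (mv τ) x (ov L B)) =
      ∑ l ∈ B, Module.rank F (E F (mv τ) x (ov L {l})) := by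
    intro B
    induction B using Finset.induction_on with
    | empty =>
      intro _
      have h : E F (mv τ) x (ov L ∅) = ⊥ := by
        rw [eq_bot_iff]
        intro a ha
        rw [Submodule.mem_bot]
        funext v
        exact ha.1 v fun ⟨l, h1, _⟩ => Finset.notMem_empty l h1
      rw [h, rank_bot, Finset.sum_empty]
    | insert p B hpB ih =>
      intro hB
      have e : ov L (insert p B) = ov L {p} ∪ ov L B := by
        ext v
        simp only [ov, Set.mem_setOf_eq, Set.mem_union, Finset.mem_insert, Finset.mem_singleton]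
        constructor
        · rintro ⟨l, h1 | h1, h2⟩
          · exact Or.inl ⟨l, h1, h2⟩
          · exact Or.inr ⟨l, h1, h2⟩
        · rintro (⟨l, h1, h2⟩ | ⟨l, h1, h2⟩)
          · exact ⟨l, Or.inl h1, h2⟩
          · exact ⟨l, Or.inr h1, h2⟩
      have hd : Disjoint (ov L {p}) (ov L B) := by
        rw [Set.disjoint_left]
        rintro v ⟨l, h1, -, h2⟩ ⟨l', h3, -, h4⟩
        rw [Finset.mem_singleton] at h1
        subst h1
        have hc : Nat.Coprime l l' :=
          (Nat.coprime_primes (hB l (Finset.mem_insert_self _ _))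
            (hB l' (Finset.mem_insert_of_mem h3))).2 fun h => hpB (h ▸ h3)
        obtain ⟨a, b, hab⟩ := (Nat.isCoprime_iff_coprime.2 hc).intCast (R := 𝓞 L)
        apply v.isPrime.1
        rw [Ideal.eq_top_iff_one, ← hab, Int.cast_natCast, Int.cast_natCast]
        exact v.asIdeal.add_mem (v.asIdeal.mul_mem_left _ h2) (v.asIdeal.mul_mem_left _ h4)
      rw [e, rank_union _ _ hd (mv_ov τ _), Finset.sum_insert hpB,
        ih fun l hl => hB l (Finset.mem_insert_of_mem hl)]
  have e : ov L A = ov L (A.erase 0) := by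
    ext v
    simp only [ov, Set.mem_setOf_eq, Finset.mem_erase]
    constructor
    · rintro ⟨l, h1, h2, h3⟩
      exact ⟨l, ⟨h2, h1⟩, h2, h3⟩
    · rintro ⟨l, h1, h2, h3⟩
      exact ⟨l, h1.2, h2, h3⟩
  rw [e]
  exact key _ fun l hl => (hA l (Finset.mem_erase.1 hl).2).resolve_left (Finset.mem_erase.1 hl).1

end Vale.Agent.P022D.Sel
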