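import Vale.Agent.P022D.Sel.Defs
import Vale.Agent.P022.H916.Fld
import Vale.Agent.P022.H651.FCH

/-!
# P022, dihedral case, block Sel: the choice of the auxiliary elements
-/

set_option linter.all false

noncomputable section

namespace Vale.Agent.P022D.Sel

open NumberField IsDedekindDomain
open Vale.Agent.P022 Vale.Agent.P022.C
open Vale.Agent.P027M.S (Pr Inert mx)

section

variable {L : Type} [Field L] [NumberField L] {j : L →+* Qb}

theorem Fix.of_mul {g g' : GQ} {y : L} (h : Fix j g y) (h' : Fix j (g⁻¹ * g') y) :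
    Fix j g' y := by
  intro w hw
  have e : g' = g * (g⁻¹ * g') := by group
  rw [e, AlgEquiv.mul_apply, h' w hw, h w hw]

theorem Fix.of_pow {g : GQ} {y : L} {m : ℕ} (hg : g ∈ GK j) (hm : Odd m) (h : Fix j (g ^ m) y) :
    Fix j g y := by
  intro w hw
  have e : (g w) ^ 2 = w ^ 2 := by rw [← map_pow, hw, hg y]
  rcases sq_eq_sq_iff_eq_or_eq_neg.1 e with e1 | e1
  · exact e1
  have e2 : ∀ i : ℕ, (g ^ i) w = (-1) ^ i * w := by
    intro i
    induction i with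
    | zero => simp
    | succ i ih =>
      rw [pow_succ', AlgEquiv.mul_apply, ih, map_mul, map_pow, map_neg, map_one, e1]
      ring
  have e3 := h w hw
  rw [e2, hm.neg_one_pow] at e3
  rw [e1]
  linear_combination e3

theorem below_ov {P : Ideal (𝓞 Qb)} (hP : P.IsPrime) {q : ℕ} (hq : q.Prime)
    (hqP : (q : 𝓞 Qb) ∈ P) {Q : Finset ℕ} (hQ : q ∈ Q) :
    ∃ u ∈ ov L Q, below j P = u.asIdeal := by
  have h1 : (q : 𝓞 L) ∈ below j P := by
    show RingOfIntegers.mapRingHom j (q : 𝓞 L) ∈ P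
    rwa [map_natCast]
  have hne : below j P ≠ ⊥ := by
    intro h0
    rw [h0, Ideal.mem_bot] at h1
    exact hq.ne_zero (by exact_mod_cast h1)
  exact ⟨⟨below j P, Ideal.IsPrime.comap _, hne⟩, ⟨q, hQ, hq.ne_zero, h1⟩, rfl⟩

end

theorem two_not_mem {P : Ideal (𝓞 Qb)} (hP : P.IsPrime) {q : ℕ} (hq : q.Prime) (h2 : q ≠ 2)
    (hqP : (q : 𝓞 Qb) ∈ P) : (2 : 𝓞 Qb) ∉ P := by
  intro h
  have h8 : IsCoprime ((2 : ℕ) : 𝓞 Qb) (q : 𝓞 Qb) :=
    Nat.Coprime.cast ((Nat.coprime_primes Nat.prime_two hq).2 h2.symm)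
  obtain ⟨a, b, hab⟩ := h8
  refine hP.ne_top ((Ideal.eq_top_iff_one _).2 ?_)
  rw [← hab]
  exact P.add_mem (P.mul_mem_left _ (by exact_mod_cast h)) (P.mul_mem_left _ hqP)

theorem pow_not_mem {H : Subgroup GQ} (h2 : ∀ g ∉ H, ∀ g' ∉ H, g * g' ∈ H) {g : GQ} (hg : g ∉ H)
    {m : ℕ} (hm : Odd m) : g ^ m ∉ H := by
  obtain ⟨k, rfl⟩ := hm
  intro h
  rw [pow_succ, pow_mul, sq] at h
  exact hg ((H.mul_mem_cancel_left (H.pow_mem (h2 g hg g hg) k)).1 h)

theorem sel (hF : FLD) (hG : GEN) (hA : ASM) (hX : UNITX) (h1 : UNIT1) (hB : BIG) (hO : OPEN)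
    (hL : LOC) (hW : KILLW) (hKD : KILLD) : SEL := by
  classical
  intro F _ _ ρ H T D hD h0 h2 hT
  obtain ⟨K, L, _, _, _, _, _, _, jK, jL, h, s, x, τ, rfl, G, hodd, hx, hj⟩ := hF F ρ H hD
  obtain ⟨AK, pK, bK⟩ := hB K
  obtain ⟨AL, pL, bL⟩ := hB L
  let A : Finset ℕ := T ∪ (AK ∪ AL)
  have hTA : T ⊆ A := Finset.subset_union_left
  have hAp : ∀ l ∈ A, l = 0 ∨ l.Prime := by
    intro l hl
    rcases Finset.mem_union.1 hl with hl | hl
    · exact (hT l hl).imp (fun h => h.1) fun h => h.1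
    · exact Or.inr ((Finset.mem_union.1 hl).elim (pK l) (pL l))
  obtain ⟨UK, oK, nK, lK, fK⟩ := hO K jK A
  obtain ⟨UL, oL, nL, lL, fL⟩ := hO L jL A
  let U : Subgroup GQ := UK ⊓ (UL ⊓ ρ.ker)
  have oU : IsOpen (U : Set GQ) := oK.inter (oL.inter hD.opn)
  have nU : U.Normal := inferInstance
  have : Finite (GQ ⧸ U) := Subgroup.quotient_finite_of_isOpen U oU
  let I : Type := {c : GQ ⧸ U // ∃ σ : GQ, (σ ∈ Ginf ∧ ¬ Sc ρ σ) ∧ (σ : GQ ⧸ U) = c}
  obtain ⟨r, ⟨e⟩⟩ := Finite.exists_equiv_fin I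
  choose σ' hσ' hσc using fun c : I => c.2
  refine ⟨r, fun i => σ' (e.symm i), U, A, oU, nU, fun g hg => hg.2.2, hTA, fun i => hσ' _, ?_⟩
  intro q hq hx'
  have hqp : ∀ i, (q i).Prime := fun i => (hx' i).1
  have hqA : ∀ i, q i ∉ A := fun i => (hx' i).2.1
  choose φ m hφ hm hφU hφS using fun i => (hx' i).2.2
  choose P hP hqP hfr using hφ
  have hst : ∀ i, Stab (P i) (φ i) := fun i => H916.mem_of_frob (hP i) (hqp i).ne_zero (hfr i)
  have h2P : ∀ i, (2 : 𝓞 Qb) ∉ P i := fun i =>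
    two_not_mem (hP i) (hqp i) (fun e => hqA i (e ▸ hTA h2)) (hqP i)
  let Q : Finset ℕ := Finset.univ.image q
  have hQ : ∀ i, q i ∈ Q := fun i => Finset.mem_image_of_mem _ (Finset.mem_univ _)
  have hQ' : ∀ l ∈ Q, ∃ i, q i = l := fun l hl => by
    obtain ⟨i, -, hi⟩ := Finset.mem_image.1 hl
    exact ⟨i, hi⟩
  let D' : ℕ → Set GQ := fun l => if hl : ∃ i, q i = l then {g | Stab (P hl.choose) g} else ∅
  have hD' : ∀ l ∈ Q, IsDec l (D' l) ∧ ∃ g ∈ D' l, g ∉ GK jL := by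
    intro l hl
    have hl' := hQ' l hl
    have e1 : D' l = {g | Stab (P hl'.choose) g} := dif_pos hl'
    have e2 := hl'.choose_spec
    rw [e1]
    generalize hl'.choose = i at e2 ⊢
    subst e2
    exact ⟨Or.inr ⟨hqp _, _, hP _, hqP _, rfl⟩, φ _, hst _, fun hg => hφS _ ((G.sc _).1 hg)⟩
  have hQA : ∀ l ∈ Q, l ∉ A := fun l hl => by
    obtain ⟨i, rfl⟩ := hQ' l hl
    exact hqA i
  have rep : ∀ σ ∈ Ginf, σ ∉ GK jL → ∃ i, ((φ i : GQ) : GQ ⧸ U) = ((σ ^ m i : GQ) : GQ ⧸ U) := by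
    intro σ hs hs'
    let c : I := ⟨σ, σ, ⟨hs, fun hc => hs' ((G.sc _).2 hc)⟩, rfl⟩
    refine ⟨e c, ?_⟩
    have e1 := QuotientGroup.eq.2 (hφU (e c))
    have e2 := hσc c
    simp only [Equiv.symm_apply_apply] at e1
    rw [e1, QuotientGroup.mk_pow, QuotientGroup.mk_pow, e2]
  have kW : Kill (X F (tU τ.toRingEquiv A) x) Q := by
    intro l hl y hy
    refine hW L F ρ (GK jK) jL h s x τ.toRingEquiv A G hj (hTA h2) l hl y fun σ hs hsH => ?_
    obtain ⟨i, hi⟩ := rep σ hs fun hc => hsH (G.le hc)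
    have a1 : φ i ∉ GK jK := fun hc => pow_not_mem G.two hsH (hm i)
      (((GK jK).mul_mem_cancel_left ((GK jK).inv_mem hc)).1 (lK (QuotientGroup.eq.1 hi).1))
    obtain ⟨u, hu, hb⟩ := below_ov (j := jL) (hP i) (hqp i) (hqP i) (hQ i)
    have a2 := hL L jL u (P i) (φ i * φ i) (el y) (hP i) hb (h2P i) (G.sq _ a1)
      (fun z => by rw [mul_smul]; exact (hst i _).trans (hst i _)) (hy u hu)
    have a3 : ((φ i * φ i : GQ) : GQ ⧸ U) = (((σ * σ) ^ m i : GQ) : GQ ⧸ U) := by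
      rw [QuotientGroup.mk_mul, hi, ← QuotientGroup.mk_mul, (Commute.refl σ).mul_pow]
    exact Fix.of_pow (G.sq _ hsH) (hm i) (a2.of_mul (fL _ (QuotientGroup.eq.1 a3).2.1 y))
  obtain ⟨Y, hY, rY, kY⟩ := hKD K F ρ (GK jL) jK h s x (1 : K ≃ₐ[K] K).toRingEquiv A G (hTA h2)
  have kD : Kill Y Q := by
    intro l hl y hy
    refine kY l hl y fun σ hs hsH hsG => ?_
    obtain ⟨i, hi⟩ := rep σ hs hsG
    have a0 := (QuotientGroup.eq.1 hi).1
    have a1 : φ i ∈ GK jK := (GK jK).inv_mem_iff.1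
      (((GK jK).mul_mem_cancel_right ((GK jK).pow_mem hsH (m i))).1 (lK a0))
    obtain ⟨u, hu, hb⟩ := below_ov (j := jK) (hP i) (hqp i) (hqP i) (hQ i)
    have a2 := hL K jK u (P i) (φ i) (el y) (hP i) hb (h2P i) a1 (hst i) (hy u hu)
    exact Fix.of_pow hsH (hm i) (a2.of_mul (fK _ a0 y))
  have b1 := hG K K F jK 1 1 1 1 T Q A D D' Y 2 odd_one (one_pow _) (one_pow _) (fun _ => rfl) h0
    h2 hTA hAp hQA hT (fun l hl => (hD' l hl).1)
    (bK A (Finset.subset_union_left.trans Finset.subset_union_right)) hY kD ((h1 K F A).trans rY)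
  have hτ : τ ^ Module.finrank K L = 1 := by
    rw [← IsGalois.card_aut_eq_finrank]
    exact pow_card_eq_one'
  have b2 := hG K L F jL h τ _ x T Q A D D' _ 0 hodd hx hτ hj h0
    h2 hTA hAp hQA hT (fun l hl => (hD' l hl).1)
    (bL A (Finset.subset_union_right.trans Finset.subset_union_right)) le_rfl kW
    ((hX K L F τ x A hodd hx G.x1).trans (by simp))
  have b3 := hA F ρ (GK jK) (GK jL) h s x T Q D D' G h0 hT (fun l hl => (hD' l hl).2) b1 b2
  have hc : Q.card = r := by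
    rw [Finset.card_image_of_injective _ hq, Finset.card_univ, Fintype.card_fin]
  rwa [hc] at b3

end Vale.Agent.P022D.Sel
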