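import Vale.Agent.P022D.Sel.Defs
import Vale.Agent.P011.Arith.SUnit

/-!
# P022, block Sel: squares modulo a prime, and a large set of primes
-/

set_option linter.all false

noncomputable section

namespace Vale.Agent.P022D.Sel

open NumberField IsDedekindDomain
open Vale.Agent.P022 Vale.Agent.P022.C
open Vale.Agent.P027M.S (Pr Inert mx)

namespace Sym

variable {L : Type} [Field L] [NumberField L]

theorem near (u : Pr L) {y : L} (h : u.valuation L y ≤ 1) :
    ∃ a : 𝓞 L, u.valuation L (y - (a : L)) < 1 := by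
  obtain ⟨a, ha⟩ := u.exists_valuation_sub_lt_of_integer h 1
  refine ⟨a, ?_⟩
  rw [Valuation.map_sub_swap]
  simpa using ha

theorem val_eq (u : Pr L) {y a : L} (hy : u.valuation L y = 1) (h : u.valuation L (y - a) < 1) :
    u.valuation L a = 1 := by
  have e : a = y - (y - a) := by ring
  rw [e, Valuation.map_sub_eq_of_lt_left _ (by rw [hy]; exact h), hy]

theorem mem_iff (u : Pr L) (a : 𝓞 L) : u.valuation L (a : L) < 1 ↔ a ∈ u.asIdeal :=
  u.valuation_lt_one_iff_mem a

theorem sq_iff (u : Pr L) {y : L} {a : 𝓞 L} (hy : u.valuation L y = 1)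
    (h : u.valuation L (y - (a : L)) < 1) :
    Sq u y ↔ IsSquare (Ideal.Quotient.mk u.asIdeal a) := by
  constructor
  · rintro ⟨-, z, hz⟩
    have h1 : u.valuation L z ^ 2 = 1 := by rw [← map_pow]; exact val_eq u hy hz
    have h2 : u.valuation L z ≤ 1 := by
      by_contra hc
      exact absurd h1 (one_lt_pow₀ (not_le.mp hc) two_ne_zero).ne'
    obtain ⟨b, hb⟩ := near u h2
    refine ⟨Ideal.Quotient.mk u.asIdeal b, ?_⟩
    rw [← map_mul, Ideal.Quotient.eq, ← mem_iff]
    have e : ((a - b * b : 𝓞 L) : L) = (y - z ^ 2) - (y - (a : L)) + (z - (b : L)) * (z + (b : L)) := by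
      push_cast; ring
    rw [e]
    refine Valuation.map_add_lt _ (Valuation.map_sub_lt _ hz h) ?_
    rw [map_mul]
    have h3 : u.valuation L (z + (b : L)) ≤ 1 :=
      Valuation.map_add_le _ h2 (u.valuation_le_one b)
    exact lt_of_le_of_lt (mul_le_of_le_one_right' h3) hb
  · rintro ⟨r, hr⟩
    obtain ⟨b, rfl⟩ := Ideal.Quotient.mk_surjective r
    rw [← map_mul, Ideal.Quotient.eq, ← mem_iff] at hr
    refine ⟨hy, (b : L), ?_⟩
    have e : y - (b : L) ^ 2 = (y - (a : L)) + ((a - b * b : 𝓞 L) : L) := by push_cast; ring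
    rw [e]
    exact Valuation.map_add_lt _ h hr

theorem fin_field {k : Type} [Field k] [Finite k] {a b : k} (ha : a ≠ 0) (hb : b ≠ 0) :
    (IsSquare a → (IsSquare (a * b) ↔ IsSquare b)) ∧
      (¬ IsSquare a → ¬ IsSquare b → IsSquare (a * b)) := by
  classical
  haveI : Fintype k := Fintype.ofFinite k
  constructor
  · intro h
    rw [← quadraticChar_one_iff_isSquare (mul_ne_zero ha hb), ← quadraticChar_one_iff_isSquare hb,
      map_mul, (quadraticChar_one_iff_isSquare ha).mpr h, one_mul]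
  · intro h k
    rw [← quadraticChar_one_iff_isSquare (mul_ne_zero ha hb), map_mul,
      quadraticChar_neg_one_iff_not_isSquare.mpr h, quadraticChar_neg_one_iff_not_isSquare.mpr k]
    norm_num

theorem below (v : Pr L) : ∃ l : ℕ, l.Prime ∧ (l : 𝓞 L) ∈ v.asIdeal := by
  haveI := v.isMaximal
  letI : Field (𝓞 L ⧸ v.asIdeal) := Ideal.Quotient.field _
  haveI : Finite (𝓞 L ⧸ v.asIdeal) := Ideal.finiteQuotientOfFreeOfNeBot _ v.ne_bot
  obtain ⟨p, hp⟩ := CharP.exists (𝓞 L ⧸ v.asIdeal)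
  refine ⟨p, CharP.char_is_prime (𝓞 L ⧸ v.asIdeal) p, ?_⟩
  rw [← Ideal.Quotient.eq_zero_iff_mem, map_natCast]
  exact CharP.cast_eq_zero _ p

end Sym

theorem sym : SYM := by
  intro L _ _ u y z hy hz
  obtain ⟨a, ha⟩ := Sym.near u hy.le
  obtain ⟨b, hb⟩ := Sym.near u hz.le
  have hyz : u.valuation L (y * z) = 1 := by rw [map_mul, hy, hz, one_mul]
  have va := Sym.val_eq u hy ha
  have vb := Sym.val_eq u hz hb
  have hab : u.valuation L (y * z - ((a * b : 𝓞 L) : L)) < 1 := by
    have e : y * z - ((a * b : 𝓞 L) : L) = (y - (a : L)) * z + (a : L) * (z - (b : L)) := by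
      push_cast; ring
    rw [e]
    refine Valuation.map_add_lt _ ?_ ?_
    · rw [map_mul, hz, mul_one]; exact ha
    · rw [map_mul, va, one_mul]; exact hb
  rw [Sym.sq_iff u hy ha, Sym.sq_iff u hz hb, Sym.sq_iff u hyz hab, map_mul]
  haveI := u.isMaximal
  letI : Field (𝓞 L ⧸ u.asIdeal) := Ideal.Quotient.field _
  haveI : Finite (𝓞 L ⧸ u.asIdeal) := Ideal.finiteQuotientOfFreeOfNeBot _ u.ne_bot
  have n0 : ∀ c : 𝓞 L, u.valuation L (c : L) = 1 → Ideal.Quotient.mk u.asIdeal c ≠ 0 := by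
    intro c hc h0
    rw [Ideal.Quotient.eq_zero_iff_mem, ← Sym.mem_iff, hc] at h0
    exact lt_irrefl _ h0
  exact Sym.fin_field (n0 a va) (n0 b vb)

theorem big : BIG := by
  intro L _ _
  classical
  obtain ⟨S, -, hS, hP⟩ := P011.Arith.exists_Pr (F := L) ∅ Set.finite_empty
  choose l hl using fun v : Pr L => Sym.below v
  refine ⟨hS.toFinset.image l, ?_, ?_⟩
  · intro x hx
    obtain ⟨v, -, rfl⟩ := Finset.mem_image.mp hx
    exact (hl v).1
  · intro A hA
    have sub : S ⊆ ov L A := fun v hv =>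
      ⟨l v, hA (Finset.mem_image_of_mem l (hS.mem_toFinset.mpr hv)), (hl v).1.ne_zero, (hl v).2⟩
    intro v hv
    obtain ⟨π, h1, h2⟩ := (hP.mono sub).2 v hv
    refine ⟨(π : L), π.ne_zero, ?_, fun v' hv' hne => ?_⟩
    · rw [ordv, h1, WithZero.log_exp, neg_neg]
    · rw [ordv, h2 v' hv' hne, WithZero.log_one, neg_zero]

end Vale.Agent.P022D.Sel
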