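import Vale.Agent.P022D.Sel.Defs
import Vale.Agent.P011.Arith.SUnit

/-!
# P022, dihedral case, block Sel: the unit theorem for the trivial action
-/

set_option linter.all false

noncomputable section

namespace Vale.Agent.P022D.Sel

open NumberField IsDedekindDomain
open Vale.Agent.P027M.S (Pr)

theorem u1_grp (G F : Type) [CommGroup G] [Field F] [CharP F 2] (n : ℕ)
    (h : P011.Arith.sqIdx G = 2 ^ n) : (n : Cardinal) ≤ Module.rank F (Additive G →+ F) := by
  classical
  let N : AddSubgroup (Additive G) := Subgroup.toAddSubgroup (powMonoidHom 2 : G →* G).range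
  have hN : ∀ x : Additive G, 2 • x ∈ N := fun x => ⟨Additive.toMul x, rfl⟩
  letI : Module (ZMod 2) (Additive G ⧸ N) := QuotientAddGroup.zmodModule hN
  have hc : Nat.card (Additive G ⧸ N) = 2 ^ n := by
    have h1 : N.index = 2 ^ n := by
      rw [← h]; exact Subgroup.index_toAddSubgroup
    exact h1
  haveI : Finite (Additive G ⧸ N) := Nat.finite_of_card_ne_zero (by rw [hc]; positivity)
  haveI : Fact (Nat.Prime 2) := ⟨Nat.prime_two⟩
  haveI : Module.Finite (ZMod 2) (Additive G ⧸ N) := Module.Finite.of_finite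
  have hr : Module.finrank (ZMod 2) (Additive G ⧸ N) = n := by
    have h2 := Module.natCard_eq_pow_finrank (K := ZMod 2) (V := Additive G ⧸ N)
    rw [hc, Nat.card_zmod] at h2
    exact (Nat.pow_right_injective (le_refl 2) h2).symm
  let b : Module.Basis (Fin n) (ZMod 2) (Additive G ⧸ N) := Module.finBasisOfFinrankEq _ _ hr
  let l : Fin n → (Additive G →+ F) := fun i =>
    ((ZMod.castHom (dvd_refl 2) F).toAddMonoidHom.comp (b.coord i).toAddMonoidHom).comp
      (QuotientAddGroup.mk' N)
  have hl : ∀ i (a : Additive G), l i a = ZMod.castHom (dvd_refl 2) F (b.repr (a : Additive G ⧸ N) i) :=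
    fun i a => rfl
  have hi : LinearIndependent F l := by
    rw [Fintype.linearIndependent_iff]
    intro c hc0 j
    obtain ⟨a, ha⟩ := QuotientAddGroup.mk_surjective (b j)
    have h3 : (∑ i, c i • l i) a = 0 := by rw [hc0]; rfl
    rw [AddMonoidHom.finset_sum_apply, Finset.sum_eq_single j] at h3
    · rw [AddMonoidHom.smul_apply, hl, ha, b.repr_self, Finsupp.single_eq_same, map_one,
        smul_eq_mul, mul_one] at h3
      exact h3
    · intro i _ hij
      rw [AddMonoidHom.smul_apply, hl, ha, b.repr_self, Finsupp.single_eq_of_ne hij, map_zero,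
        smul_zero]
    · intro hj; exact absurd (Finset.mem_univ j) hj
  have h4 := hi.cardinal_lift_le_rank
  simpa using h4

theorem u1_E (F : Type) [Field F] {I : Type} (π : I → I) (x : F) (S : Set I) (h : S.Finite) :
    Module.rank F (E F π x S) ≤ (S.ncard : Cardinal) := by
  classical
  haveI : Fintype S := h.fintype
  let f : E F π x S →ₗ[F] (S → F) :=
    { toFun := fun a v => a.1 v.1
      map_add' := fun a b => rfl
      map_smul' := fun c a => rfl }
  have hf : Function.Injective f := by
    intro a b hab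
    apply Subtype.ext
    funext v
    by_cases hv : v ∈ S
    · exact congrFun hab ⟨v, hv⟩
    · rw [a.2.1 v hv, b.2.1 v hv]
  have h1 := f.rank_le_of_injective hf
  rw [rank_fun', ← Nat.card_eq_fintype_card, Nat.card_coe_set_eq] at h1
  exact h1

theorem unit1 : UNIT1 := by
  intro K F _ _ _ _ A
  have hfin : (ov K A).Finite := by
    have : ov K A ⊆ ⋃ l ∈ (A.filter (· ≠ 0) : Set ℕ), {v : Pr K | (l : 𝓞 K) ∈ v.asIdeal} := by
      rintro v ⟨l, hl, h0, hv⟩
      simp only [Set.mem_iUnion]
      exact ⟨l, by simp [hl, h0], hv⟩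
    refine Set.Finite.subset (Set.Finite.biUnion (Finset.finite_toSet _) ?_) this
    intro l hl
    have h0 : (l : 𝓞 K) ≠ 0 := by
      have : l ≠ 0 := by simpa using (Finset.mem_filter.1 hl).2
      exact_mod_cast this
    have h1 := Ideal.finite_factors (I := Ideal.span {(l : 𝓞 K)}) (by simpa using h0)
    refine h1.subset ?_
    intro v hv
    simp only [Set.mem_setOf_eq, Ideal.dvd_span_singleton]
    exact hv
  have hX : X F (tU (1 : K ≃ₐ[K] K).toRingEquiv A) (1 : F) = ⊤ := by
    rw [eq_top_iff]
    intro l _ a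
    have : tU (1 : K ≃ₐ[K] K).toRingEquiv A a = a := rfl
    rw [this, one_mul]
  rw [hX, rank_top]
  have h1 := u1_grp _ F _ (P011.Arith.sqIdx_Sunit (ov K A) hfin)
  refine le_trans ?_ h1
  rw [Nat.cast_add]
  refine add_le_add (u1_E F _ _ _ hfin) ?_
  refine le_trans (u1_E F _ _ _ Set.finite_univ) ?_
  rw [Set.ncard_univ, Nat.card_eq_fintype_card]

end Vale.Agent.P022D.Sel
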