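import Vale.Agent.P022D.Sel.Defs
import Vale.Agent.P027M.S.Cls
import Vale.Agent.P024.H903.Mink

/-!
# P022, block Sel: the unit theorem modulo squares, non trivial eigenvalue
-/

set_option linter.all false

noncomputable section

namespace Vale.Agent.P022D.Sel

open NumberField IsDedekindDomain
open Vale.Agent.P022 Vale.Agent.P022.C
open Vale.Agent.P027M.S (Pr)
open Vale.Agent.P027M.S.Gen (cm val_cm mem_cm)
open Vale.Agent.P027M.S.Cls

namespace Ux

theorem core (hLB : LB) (A F I J : Type) [AddCommGroup A] [Field F] [CharP F 2] (S : Set I)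
    [Fintype S] [Fintype J] (π₀ : I → I) (π : S ≃ S) (hπ : ∀ w : S, (π w : I) = π₀ w) (κ : J ≃ J)
    (Y : S → A) (U : J → A) (t : A →+ A) (hY : ∀ i, t (Y i) = Y (π i))
    (hU : ∀ j, t (U j) = U (κ j)) (e : J → ℤ) (he : ∀ j, e (κ j) = e j)
    (ker : ∀ (a : S → ℤ) (b : J → ℤ), ∑ i, a i • Y i + ∑ j, b j • U j = 0 →
      a = 0 ∧ ∃ k : ℤ, b = k • e)
    (m N : ℕ) (hN : N ≠ 0)
    (sur : ∀ z, ∃ (a : S → ℤ) (b : J → ℤ), ∑ i, a i • Y i + ∑ j, b j • U j = N • z)
    (x : F) (hm : Odd m) (hx : x ^ m = 1) (x1 : x ≠ 1) (ht : ∀ a, t^[m] a = a) :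
    Module.rank F (E F π₀ x S) + Module.rank F (E F κ x Set.univ) ≤ Module.rank F (X F t x) := by
  classical
  let f : (S → ℤ) × (J → ℤ) →+ A := AddMonoidHom.mk'
    (fun c => ∑ i, c.1 i • Y i + ∑ j, c.2 j • U j) (fun c d => by
      simp only [Prod.fst_add, Prod.snd_add, Pi.add_apply, add_smul, Finset.sum_add_distrib]
      abel)
  let s : (S → ℤ) × (J → ℤ) →+ (S → ℤ) × (J → ℤ) := AddMonoidHom.mk'
    (fun c => (fun i => c.1 (π.symm i), fun j => c.2 (κ.symm j))) (fun c d => rfl)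
  let Φ : (E F π₀ x S × E F κ x Set.univ) →ₗ[F] ((S → ℤ) × (J → ℤ) →+ F) :=
    { toFun := fun p => AddMonoidHom.mk'
        (fun c => ∑ i, (c.1 i : F) * p.1.1 i + ∑ j, (c.2 j : F) * p.2.1 j) (fun c d => by
          simp only [Prod.fst_add, Prod.snd_add, Pi.add_apply, Int.cast_add, add_mul,
            Finset.sum_add_distrib]
          abel)
      map_add' := fun p q => AddMonoidHom.ext fun c => by
        simp only [AddMonoidHom.mk'_apply, AddMonoidHom.add_apply, Prod.fst_add, Prod.snd_add,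
          Submodule.coe_add, Pi.add_apply, mul_add, Finset.sum_add_distrib]
        abel
      map_smul' := fun r p => AddMonoidHom.ext fun c => by
        simp only [AddMonoidHom.mk'_apply, AddMonoidHom.smul_apply, Prod.smul_fst, Prod.smul_snd,
          Submodule.coe_smul, Pi.smul_apply, smul_eq_mul, RingHom.id_apply, mul_add,
          Finset.mul_sum, mul_left_comm] }
  have Φa : ∀ p c, Φ p c = ∑ i, (c.1 i : F) * p.1.1 i + ∑ j, (c.2 j : F) * p.2.1 j :=
    fun _ _ => rfl
  have inj : Function.Injective Φ := by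
    rw [injective_iff_map_eq_zero]
    intro p hp
    refine Prod.ext (Subtype.ext (funext fun i => ?_)) (Subtype.ext (funext fun j => ?_))
    · by_cases hi : i ∈ S
      · have := Φa p (Pi.single ⟨i, hi⟩ 1, 0)
        rw [hp] at this
        simpa [Pi.single_apply] using this.symm
      · exact p.1.2.1 i hi
    · have := Φa p (0, Pi.single j 1)
      rw [hp] at this
      simpa [Pi.single_apply] using this.symm
  rw [← rank_prod', ← rank_range_of_injective Φ inj]
  refine hLB A _ F f s t m N x hm hx ht (fun c => ?_) hN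
    (fun z => let ⟨a, b, h⟩ := sur z; ⟨(a, b), h⟩) _ ?_ ?_
  · change ∑ i, c.1 (π.symm i) • Y i + ∑ j, c.2 (κ.symm j) • U j =
      t (∑ i, c.1 i • Y i + ∑ j, c.2 j • U j)
    simp only [map_add, map_sum, map_zsmul, hY, hU]
    rw [← π.sum_comp, ← κ.sum_comp]
    simp
  · rintro _ ⟨p, rfl⟩ c
    rw [Φa, Φa]
    change ∑ i, (c.1 (π.symm i) : F) * p.1.1 i + ∑ j, (c.2 (κ.symm j) : F) * p.2.1 j = _
    rw [← π.sum_comp, ← κ.sum_comp, mul_add, Finset.mul_sum, Finset.mul_sum]
    simp only [Equiv.symm_apply_apply, hπ, p.1.2.2, p.2.2.2, mul_left_comm]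
  · rintro _ ⟨p, rfl⟩ c hc
    obtain ⟨h1, k, h2⟩ := ker c.1 c.2 hc
    have h3 : ∑ j, (e j : F) * p.2.1 j = x * ∑ j, (e j : F) * p.2.1 j := by
      conv_lhs => rw [← κ.sum_comp]
      rw [Finset.mul_sum]
      simp only [he, p.2.2.2, mul_left_comm]
    have h4 : ∑ j, (e j : F) * p.2.1 j = 0 := by
      by_contra h
      exact x1 (mul_right_cancel₀ h (h3.symm.trans (one_mul _).symm))
    rw [Φa, h1, h2]
    simp only [Pi.zero_apply, Int.cast_zero, zero_mul, Finset.sum_const_zero, zero_add,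
      Pi.smul_apply, smul_eq_mul, Int.cast_mul, mul_assoc]
    rw [← Finset.mul_sum, h4, mul_zero]

variable {K L : Type} [Field K] [Field L] [NumberField L] [Algebra K L]

/-- the right action on the primes -/
def c (σ : L ≃ₐ[K] L) (v : Pr L) : Pr L := cm σ.toRingEquiv v

theorem c_mul (σ σ' : L ≃ₐ[K] L) (v : Pr L) : c (σ * σ') v = c σ' (c σ v) :=
  HeightOneSpectrum.ext (Ideal.ext fun _ => Iff.rfl)

theorem c_one (v : Pr L) : c (1 : L ≃ₐ[K] L) v = v :=
  HeightOneSpectrum.ext (Ideal.ext fun _ => Iff.rfl)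

theorem c_inj (σ : L ≃ₐ[K] L) {v w : Pr L} (h : c σ v = c σ w) : v = w := by
  have := congrArg (c σ⁻¹) h
  rwa [← c_mul, ← c_mul, mul_inv_cancel, c_one, c_one] at this

theorem ord_c (σ : L ≃ₐ[K] L) (v : Pr L) (y : L) : ordv v (σ y) = ordv (c σ v) y := by
  rw [ordv, ordv, c, val_cm]; rfl

theorem ord_prod {ι : Type} (v : Pr L) (s : Finset ι) (g : ι → L) (hg : ∀ i, g i ≠ 0) :
    ordv v (∏ i ∈ s, g i) = ∑ i ∈ s, ordv v (g i) := by
  classical
  induction s using Finset.induction_on with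
  | empty => simp [ordv]
  | insert i s hi ih =>
    rw [Finset.prod_insert hi, Finset.sum_insert hi,
      ordv_mul v (hg i) (Finset.prod_ne_zero_iff.2 fun j _ => hg j), ih]

open Classical in
theorem gens [FiniteDimensional K L] : ∃ (n : ℕ) (y : Pr L → L), n ≠ 0 ∧ (∀ w, y w ≠ 0) ∧
    (∀ w v, ordv v (y w) = if v = w then (n : ℤ) else 0) ∧
    ∀ (τ : L ≃ₐ[K] L) w, τ (y w) = y (c τ⁻¹ w) := by
  choose y0 h0 h1 using gen_pow (L := L)
  have h2 : ∀ (σ : L ≃ₐ[K] L) w, σ (y0 w) ≠ 0 := fun σ w => by simpa using h0 w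
  refine ⟨Fintype.card (L ≃ₐ[K] L) * classNumber L, fun w => ∏ σ : L ≃ₐ[K] L, σ (y0 (c σ w)),
    mul_ne_zero Fintype.card_ne_zero (classNumber_pos L).ne',
    fun w => Finset.prod_ne_zero_iff.2 fun σ _ => h2 _ _, fun w v => ?_, fun τ w => ?_⟩
  · rw [ord_prod v _ _ fun σ => h2 _ _]
    simp only [ord_c, h1]
    by_cases h : v = w
    · simp [h]
    · rw [if_neg h]
      exact Finset.sum_eq_zero fun σ _ => if_neg fun e => h (c_inj σ e)
  · rw [map_prod]
    refine Fintype.prod_equiv (Equiv.mulLeft τ) _ _ fun σ => ?_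
    rw [Equiv.coe_mulLeft, ← c_mul, inv_mul_cancel_left]
    rfl

theorem el_ne {A : Finset ℕ} (y : US L A) : el y ≠ 0 := Units.ne_zero _

theorem el_inj {A : Finset ℕ} {y z : US L A} (h : el y = el z) : y = z :=
  Additive.toMul.injective (Subtype.ext (Units.ext h))

/-- the order at `v` -/
def o {A : Finset ℕ} (v : Pr L) : US L A →+ ℤ :=
  AddMonoidHom.mk' (fun y => ordv v (el y)) fun y z => ordv_mul v (el_ne y) (el_ne z)

theorem val_unit (u : (𝓞 L)ˣ) (v : Pr L) : v.valuation L ((u : 𝓞 L) : L) = 1 := by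
  have e : v.valuation L ((u : 𝓞 L) : L) = v.intValuation (u : 𝓞 L) :=
    HeightOneSpectrum.valuation_of_algebraMap v _
  rw [e, HeightOneSpectrum.intValuation_eq_one_iff]
  exact fun h => v.isPrime.ne_top (Ideal.eq_top_of_isUnit_mem _ h u.isUnit)

/-- global units -/
def ι (A : Finset ℕ) : (𝓞 L)ˣ →* (ov L A).unit L where
  toFun u := ⟨Units.map (algebraMap (𝓞 L) L : 𝓞 L →* L) u, fun v _ => val_unit u v⟩
  map_one' := Subtype.ext (map_one _)
  map_mul' _ _ := Subtype.ext (map_mul _ _ _)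

theorem el_ι (A : Finset ℕ) (u : (𝓞 L)ˣ) : el (Additive.ofMul (ι A u)) = ((u : 𝓞 L) : L) := rfl

theorem sum_ι (A : Finset ℕ) {J : Type} [Fintype J] (u : J → (𝓞 L)ˣ) (b : J → ℤ) :
    ∑ j, b j • (Additive.ofMul (ι A (u j)) : US L A) = Additive.ofMul (ι A (∏ j, u j ^ b j)) := by
  rw [map_prod, ofMul_prod]
  simp only [map_zpow, ofMul_zpow]

theorem ov_fin (A : Finset ℕ) : (ov L A).Finite := by
  refine ((A.erase 0).finite_toSet.biUnion (t := fun l : ℕ =>
    {v : Pr L | v.asIdeal ∣ Ideal.span {(l : 𝓞 L)}}) fun l hl => Ideal.finite_factors ?_).subset ?_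
  · simpa using (Finset.mem_erase.1 hl).1
  · rintro v ⟨l, h1, h2, h3⟩
    exact Set.mem_biUnion (Finset.mem_erase.2 ⟨h2, h1⟩) (Ideal.dvd_span_singleton.2 h3)

end Ux

open Ux in
theorem unitx (hLB : LB) : UNITX := by
  intro K L F _ _ _ _ _ _ _ _ τ x A hodd hx x1
  classical
  obtain ⟨-, u, hu, hfi, e, -, he, hrel⟩ := P024.H903.mink (F := K) (L := L) hodd
  obtain ⟨n, y, n0, y0, hy, hτ⟩ := gens (K := K) (L := L)
  haveI : Fintype (ov L A) := (ov_fin A).fintype
  let π : ov L A ≃ ov L A :=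
    { toFun := fun w => ⟨c τ⁻¹ w, (cm_ov _ A _).2 w.2⟩
      invFun := fun w => ⟨c τ w, (cm_ov _ A _).2 w.2⟩
      left_inv := fun w => Subtype.ext (by simp only [← c_mul, inv_mul_cancel, c_one])
      right_inv := fun w => Subtype.ext (by simp only [← c_mul, mul_inv_cancel, c_one]) }
  let Y : ov L A → US L A := fun w => Additive.ofMul ⟨Units.mk0 (y w) (y0 w), fun v hv => by
    have : v ≠ w := fun h => hv (h ▸ w.2)
    change v.valuation L (y w) = 1
    rw [val_eq v (y0 w), hy, if_neg this]; rfl⟩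
  have oY : ∀ (v : Pr L) (w : ov L A), o v (Y w) = if v = w then (n : ℤ) else 0 :=
    fun v w => hy w v
  have oU : ∀ (v : Pr L) (ε : (𝓞 L)ˣ), o v (Additive.ofMul (ι A ε) : US L A) = 0 := fun v ε => by
    change ordv v ((ε : 𝓞 L) : L) = 0
    rw [ordv, val_unit]; rfl
  have oS : ∀ (a : ov L A → ℤ) (v : ov L A), o (v : Pr L) (∑ i, a i • Y i) = a v * n := by
    intro a v
    simp only [map_sum, map_zsmul, oY, Subtype.val_inj]
    simp
  refine core hLB (US L A) F _ _ (ov L A) _ π (fun _ => rfl) (MulAction.toPerm τ) Y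
    (fun w => Additive.ofMul (ι A (u w))) (tU τ.toRingEquiv A) (fun w => el_inj (hτ τ w))
    (fun w => el_inj (hu τ w).symm) e (he τ) (fun a b h => ?_) (Module.finrank K L)
    ((Subgroup.closure (Set.range u)).index * n) (mul_ne_zero hfi.index_ne_zero n0) (fun z => ?_)
    x hodd hx x1 fun z => el_inj ?_
  · have ha : a = 0 := funext fun v => by
      have := congrArg (o (v : Pr L)) h
      rw [sum_ι, map_add, oS, oU, add_zero, map_zero] at this
      exact (mul_eq_zero.1 this).resolve_right (Int.natCast_ne_zero.2 n0)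
    refine ⟨ha, (hrel b).1 ?_⟩
    rw [ha, sum_ι] at h
    simp only [Pi.zero_apply, zero_smul, Finset.sum_const_zero, zero_add] at h
    have := congrArg el h
    rw [el_ι] at this
    exact Units.ext (RingOfIntegers.coe_injective this)
  · obtain ⟨ε, hε⟩ := unit_of (el_ne (n • z - ∑ i : ov L A, o (i : Pr L) z • Y i)) fun v => by
      by_cases hv : v ∈ ov L A
      · change o v _ = 0
        rw [map_sub, oS _ ⟨v, hv⟩, map_nsmul]
        simp [mul_comm]
      · rw [ordv, el, (Additive.toMul (n • z - ∑ i : ov L A, o (i : Pr L) z • Y i)).2 v hv]; rfl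
    obtain ⟨b, hb⟩ := Subgroup.mem_closure_range_iff_of_fintype.1
      ((Subgroup.closure (Set.range u)).pow_index_mem ε)
    refine ⟨fun i => ((Subgroup.closure (Set.range u)).index : ℤ) * o (i : Pr L) z, b, ?_⟩
    have h1 : (Additive.ofMul (ι A ε) : US L A) = n • z - ∑ i : ov L A, o (i : Pr L) z • Y i :=
      el_inj hε
    rw [sum_ι, ← hb, map_pow, ofMul_pow, h1, mul_smul, nsmul_sub, ← Finset.sum_nsmul]
    simp only [mul_zsmul, natCast_zsmul]
    abel
  · have h1 : ∀ k : ℕ, el ((tU τ.toRingEquiv A)^[k] z) = (τ ^ k) (el z) := fun k => by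
      induction k with
      | zero => rfl
      | succ k ih => rw [Function.iterate_succ_apply', el_tU, ih, pow_succ']; rfl
    rw [h1, ← IsGalois.card_aut_eq_finrank, pow_card_eq_one']; rfl

end Vale.Agent.P022D.Sel
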