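import Vale.Agent.P022D.Sel.Adm
import Vale.Agent.P022D.Sel.Alg
import Vale.Agent.P022D.Sel.Art
import Vale.Agent.P022D.Sel.AuxQ
import Vale.Agent.P022D.Sel.Count
import Vale.Agent.P022D.Sel.Fld
import Vale.Agent.P022D.Sel.Gen
import Vale.Agent.P022D.Sel.Inj
import Vale.Agent.P022D.Sel.Ker
import Vale.Agent.P022D.Sel.Kill
import Vale.Agent.P022D.Sel.Kum
import Vale.Agent.P022D.Sel.Law
import Vale.Agent.P022D.Sel.Odd
import Vale.Agent.P022D.Sel.Open
import Vale.Agent.P022D.Sel.Pl
import Vale.Agent.P022D.Sel.Pli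
import Vale.Agent.P022D.Sel.Sel
import Vale.Agent.P022D.Sel.Sym
import Vale.Agent.P022D.Sel.Unit1
import Vale.Agent.P022D.Sel.Unitx
import Vale.Agent.P027M.TW.Dens

/-!
# P022, dihedral case, block Sel: the closed statements
-/

namespace Vale.Agent.P022D.Sel

theorem fldC : FLD := fld quad kumq odd

theorem selC : SEL :=
  sel fldC (gen (art law (inj P027M.TW.dens)) (count ext sym) pl sum pli) (asm two adm ker)
    (unitx (lb ext)) unit1 big opn loc (killw (kum kumq quad)) (killd (kum kumq quad))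

theorem auxC : AUX := aux P027M.TW.dens

end Vale.Agent.P022D.Sel
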