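import Vale.Agent.P027M.S.Gen
import Vale.Agent.P027M.TW.Defs
import Vale.Agent.P022.H567.Gch

/-!
# P022, dihedral case, block Sel: the relative tangent space and the auxiliary primes

Definitions and statements. Only class field theory for quadratic characters, Kummer theory and
the unit theorem are used.
-/

set_option linter.all false

noncomputable section

namespace Vale.Agent.P022D.Sel

open NumberField IsDedekindDomain
open Vale.Agent.P022 Vale.Agent.P022.C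
open Vale.Agent.P027M.S (Pr Inert mx)
open Vale.Agent.P027M.S.Gen (cm val_cm mem_cm)

/-! ### the output -/

/-- `2 × 2` matrices -/
abbrev M2 (F : Type) : Type := Matrix (Fin 2) (Fin 2) F

/-- the elements which fix all roots of `1` and of `2` of order a power of `2` -/
def Ginf : Subgroup GQ where
  carrier := {g | ∀ (n : ℕ) (x : Qb), (x ^ 2 ^ n = 1 ∨ x ^ 2 ^ n = 2) → g x = x}
  mul_mem' {g h} hg hh n x hx := by rw [AlgEquiv.mul_apply, hh n x hx, hg n x hx]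
  one_mem' n x hx := rfl
  inv_mem' {g} hg n x hx := by
    have h : g⁻¹ (g x) = x := by rw [← AlgEquiv.mul_apply, inv_mul_cancel]; rfl
    rwa [hg n x hx] at h

/-- `g` is in the decomposition group of `P` -/
def Stab (P : Ideal (𝓞 Qb)) (g : GQ) : Prop := ∀ x : 𝓞 Qb, g • x ∈ P ↔ x ∈ P

/-- `D` is a decomposition group at the prime `l`, or at infinity if `l = 0` -/
def IsDec (l : ℕ) (D : Set GQ) : Prop :=
  (l = 0 ∧ ∃ c : GQ, IsConj c ∧ D = {1, c}) ∨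
    (l.Prime ∧ ∃ P : Ideal (𝓞 Qb), P.IsPrime ∧ (l : 𝓞 Qb) ∈ P ∧ D = {g | Stab P g})

section

variable {F : Type} [Field F]

/-- `ρ` is diagonal on `H`, antidiagonal outside, irreducible, and the field of `H` is not in
`ℚ(ζ₈)` -/
structure Dh (ρ : GQ →* GL (Fin 2) F) (H : Subgroup GQ) : Prop where
  dg : ∀ g ∈ H, mx ρ g 0 1 = 0 ∧ mx ρ g 1 0 = 0
  ad : ∀ g ∉ H, mx ρ g 0 0 = 0 ∧ mx ρ g 1 1 = 0
  opn : IsOpen {g : GQ | ρ g = 1}
  irr : ∃ g ∈ H, mx ρ g 0 0 ≠ mx ρ g 1 1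
  cyc : ∃ g ∉ H, ∀ z : Qb, z ^ 8 = 1 → g z = z

/-- `ρ g` is a scalar matrix -/
def Sc (ρ : GQ →* GL (Fin 2) F) (g : GQ) : Prop :=
  mx ρ g 0 1 = 0 ∧ mx ρ g 1 0 = 0 ∧ mx ρ g 0 0 = mx ρ g 1 1

/-- a relative tangent vector: a continuous cocycle of `ad ρ`, unramified outside `T` and `Q`,
with a trivialisation at each place of `T` -/
structure TanP (ρ : GQ →* GL (Fin 2) F) (T Q : Finset ℕ) (D : ℕ → Set GQ)
    (c : GQ → M2 F) (a : ℕ → M2 F) : Prop where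
  coc : ∀ g h, c (g * h) = c g + mx ρ g * c h * mx ρ g⁻¹
  opn : ∃ U : Subgroup GQ, IsOpen (U : Set GQ) ∧ ∀ σ ∈ U, c σ = 0
  unr : ∀ l : ℕ, l.Prime → l ∉ T → l ∉ Q → ∀ P : Ideal (𝓞 Qb), P.IsPrime → (l : 𝓞 Qb) ∈ P →
    ∀ g, Inert P g → c g = 0
  loc : ∀ l ∈ T, ∀ g ∈ D l, c g = a l - mx ρ g * a l * mx ρ g⁻¹
  zero : ∀ l ∉ T, a l = 0

/-- the space of relative tangent vectors has dimension at most `N` -/
def Tan (ρ : GQ →* GL (Fin 2) F) (T Q : Finset ℕ) (D : ℕ → Set GQ) (N : ℕ) : Prop :=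
  ∀ Z : Submodule F ((GQ → M2 F) × (ℕ → M2 F)), (∀ z ∈ Z, TanP ρ T Q D z.1 z.2) →
    Module.rank F Z ≤ N

/-- `q` is a prime outside `A` with a non scalar Frobenius in `σ ^ m U`, `m` odd -/
def Aux (ρ : GQ →* GL (Fin 2) F) (U : Subgroup GQ) (A : Finset ℕ) (σ : GQ) (q : ℕ) : Prop :=
  q.Prime ∧ q ∉ A ∧ ∃ (φ : GQ) (m : ℕ), IsFrob q φ ∧ Odd m ∧ φ⁻¹ * σ ^ m ∈ U ∧ ¬ Sc ρ φ

end

/-- **The output of the block.** `T` contains `0` (the infinite place) and `2`. -/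
def SEL : Prop := ∀ (F : Type) [Field F] [CharP F 2] (ρ : GQ →* GL (Fin 2) F) (H : Subgroup GQ)
  (T : Finset ℕ) (D : ℕ → Set GQ), Dh ρ H → 0 ∈ T → 2 ∈ T → (∀ l ∈ T, IsDec l (D l)) →
  ∃ (r : ℕ) (σ : Fin r → GQ) (U : Subgroup GQ) (A : Finset ℕ), IsOpen (U : Set GQ) ∧ U.Normal ∧
    (∀ g ∈ U, ρ g = 1) ∧ T ⊆ A ∧ (∀ i, σ i ∈ Ginf ∧ ¬ Sc ρ (σ i)) ∧
    ∀ q : Fin r → ℕ, Function.Injective q → (∀ i, Aux ρ U A (σ i) (q i)) →
      Tan ρ T (Finset.univ.image q) D (2 * r + 5)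

/-- **Existence of the auxiliary primes.** -/
def AUX : Prop := ∀ (F : Type) [Field F] [CharP F 2] (ρ : GQ →* GL (Fin 2) F) (H : Subgroup GQ),
  Dh ρ H → ∀ (U : Subgroup GQ) (A : Finset ℕ) (σ : GQ), IsOpen (U : Set GQ) → ¬ Sc ρ σ →
  ∃ q : ℕ, Aux ρ U A σ q

/-- **The congruences.** -/
def CONG : Prop := ∀ n : ℕ, ∃ U : Subgroup GQ, IsOpen (U : Set GQ) ∧
  ∀ (q m : ℕ) (σ φ : GQ), q.Prime → q ≠ 2 → σ ∈ Ginf → IsFrob q φ → φ⁻¹ * σ ^ m ∈ U →
    2 ^ n ∣ q - 1 ∧ ∃ z : ZMod q, z ^ 2 ^ n = 2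

/-- **Regular elements**: every coset contains an element with non zero discriminant. -/
def DISC : Prop := ∀ (F O : Type) [Field F] [CharP F 2] [CommRing O] [IsDomain O] [CharZero O]
  (red : O →+* F) (r : GQ →* GL (Fin 2) O) (ρ : GQ →* GL (Fin 2) F) (H : Subgroup GQ), Dh ρ H →
  (∀ g, mx ρ g = (r g : M2 O).map red) → (∀ x : O, red x ≠ 0 → IsUnit x) →
  ∀ (U : Subgroup GQ) (σ : GQ), IsOpen (U : Set GQ) → U.Normal → σ ∈ Ginf → ¬ Sc ρ σ →
  ∃ u ∈ U, u ∈ Ginf ∧ (r (σ * u) : M2 O).trace ^ 2 - 4 * (r (σ * u) : M2 O).det ≠ 0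

/-! ### linear algebra -/

/-- the additive maps to `F` on which `t` acts by `x` -/
def X (F : Type) [Field F] {A : Type} [AddCommGroup A] (t : A →+ A) (x : F) :
    Submodule F (A →+ F) where
  carrier := {l | ∀ a, l (t a) = x * l a}
  add_mem' {l k} hl hk a := by
    rw [AddMonoidHom.add_apply, AddMonoidHom.add_apply, hl a, hk a, mul_add]
  zero_mem' a := by simp
  smul_mem' c l hl a := by
    rw [AddMonoidHom.smul_apply, AddMonoidHom.smul_apply, hl a, smul_eq_mul, smul_eq_mul]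
    ring

/-- the functions with support in `S` on which `π` acts by `x` -/
def E (F : Type) [Field F] {I : Type} (π : I → I) (x : F) (S : Set I) : Submodule F (I → F) where
  carrier := {a | (∀ v ∉ S, a v = 0) ∧ ∀ v, a (π v) = x * a v}
  add_mem' {a b} ha hb := ⟨fun v hv => by rw [Pi.add_apply, ha.1 v hv, hb.1 v hv, add_zero],
    fun v => by rw [Pi.add_apply, Pi.add_apply, ha.2 v, hb.2 v, mul_add]⟩
  zero_mem' := ⟨fun _ _ => rfl, fun v => by simp⟩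
  smul_mem' c a ha := ⟨fun v hv => by rw [Pi.smul_apply, ha.1 v hv, smul_zero],
    fun v => by rw [Pi.smul_apply, Pi.smul_apply, ha.2 v, smul_eq_mul, smul_eq_mul]; ring⟩

/-- the functions on the double cosets on which `h` acts by `x` -/
def Ind (F : Type) [Field F] (Γ : Subgroup GQ) (h : GQ) (x : F) (D : Set GQ) :
    Submodule F (GQ → F) where
  carrier := {f | (∀ γ ∈ Γ, ∀ g, f (γ * g) = f g) ∧ (∀ g, f (h * g) = x * f g) ∧
    ∀ d ∈ D, ∀ g, f (g * d) = f g}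
  add_mem' {a b} ha hb := ⟨fun γ hγ g => by
      rw [Pi.add_apply, Pi.add_apply, ha.1 γ hγ g, hb.1 γ hγ g],
    fun g => by rw [Pi.add_apply, Pi.add_apply, ha.2.1 g, hb.2.1 g, mul_add],
    fun d hd g => by rw [Pi.add_apply, Pi.add_apply, ha.2.2 d hd g, hb.2.2 d hd g]⟩
  zero_mem' := ⟨fun _ _ _ => rfl, fun g => by simp, fun _ _ _ => rfl⟩
  smul_mem' c a ha := ⟨fun γ hγ g => by rw [Pi.smul_apply, Pi.smul_apply, ha.1 γ hγ g],
    fun g => by rw [Pi.smul_apply, Pi.smul_apply, ha.2.1 g, smul_eq_mul, smul_eq_mul]; ring,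
    fun d hd g => by rw [Pi.smul_apply, Pi.smul_apply, ha.2.2 d hd g]⟩

/-- Extension of eigenfunctionals. -/
def EXT : Prop := ∀ (A B F : Type) [AddCommGroup A] [AddCommGroup B] [Field F] [CharP F 2]
  (f : A →+ B) (s : A →+ A) (t : B →+ B) (m : ℕ) (x : F), Odd m → x ^ m = 1 →
  (∀ b, t^[m] b = b) → (∀ a, f (s a) = t (f a)) → ∀ l ∈ X F s x,
  (∀ a b, f a = 2 • b → l a = 0) → ∃ k ∈ X F t x, ∀ a, k (f a) = l a

/-- The lower bound given by a subgroup of finite exponent. -/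
def LB : Prop := ∀ (A C F : Type) [AddCommGroup A] [AddCommGroup C] [Field F] [CharP F 2]
  (f : C →+ A) (s : C →+ C) (t : A →+ A) (m N : ℕ) (x : F), Odd m → x ^ m = 1 →
  (∀ a, t^[m] a = a) → (∀ c, f (s c) = t (f c)) → N ≠ 0 → (∀ a, ∃ c, f c = N • a) →
  ∀ P : Submodule F (C →+ F), P ≤ X F s x → (∀ l ∈ P, ∀ c, f c = 0 → l c = 0) →
  Module.rank F P ≤ Module.rank F (X F t x)

/-! ### the arithmetic side -/

section

variable {L : Type} [Field L] [NumberField L]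

variable (L) in
/-- the primes of `L` above the elements of `A` other than `0` -/
def ov (A : Finset ℕ) : Set (Pr L) := {v | ∃ l ∈ A, l ≠ 0 ∧ (l : 𝓞 L) ∈ v.asIdeal}

/-- the prime `τ v` -/
def mv (τ : L ≃+* L) (v : Pr L) : Pr L := cm τ.symm v

theorem cm_ov (τ : L ≃+* L) (A : Finset ℕ) (v : Pr L) : cm τ v ∈ ov L A ↔ v ∈ ov L A := by
  simp only [ov, Set.mem_setOf_eq, mem_cm, map_natCast]

variable (L) in
/-- the units outside `A` -/
abbrev US (A : Finset ℕ) : Type := Additive ((ov L A).unit L)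

/-- the element of `L` -/
def el {A : Finset ℕ} (y : US L A) : L := ((Additive.toMul y : (ov L A).unit L) : Lˣ)

/-- the action on the units outside `A` -/
def tU (τ : L ≃+* L) (A : Finset ℕ) : US L A →+ US L A where
  toFun y := Additive.ofMul ⟨Units.map (τ : L →* L) (Additive.toMul y : (ov L A).unit L),
    fun v hv => by
      have h := (Additive.toMul y).2 (cm τ v) (fun h => hv ((cm_ov τ A v).1 h))
      rwa [val_cm] at h⟩
  map_zero' := congrArg Additive.ofMul (Subtype.ext (map_one _))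
  map_add' y z := congrArg Additive.ofMul (Subtype.ext (map_mul _ _ _))

theorem el_tU (τ : L ≃+* L) (A : Finset ℕ) (y : US L A) : el (tU τ A y) = τ (el y) := rfl

theorem el_add {A : Finset ℕ} (y z : US L A) : el (y + z) = el y * el z := rfl

/-- `y` is a unit at `u` and a square modulo `u` -/
def Sq (u : Pr L) (y : L) : Prop :=
  u.valuation L y = 1 ∧ ∃ z : L, u.valuation L (y - z ^ 2) < 1

variable (L) in
/-- every prime outside `A` is principal up to the primes above `A` -/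
def Big (A : Finset ℕ) : Prop := ∀ v ∉ ov L A, ∃ y : L, y ≠ 0 ∧ ordv v y = 1 ∧
  ∀ v' ∉ ov L A, v' ≠ v → ordv v' y = 0

variable {F : Type} [Field F]

/-- a ray class character -/
structure Ray (τ : L ≃+* L) (x : F) (T Q : Finset ℕ) (a : Pr L → F) : Prop where
  zero : ∀ v, (v ∈ ov L T ∨ v ∈ ov L Q) → a v = 0
  eqv : ∀ v, a (mv τ v) = x * a v
  law : ∀ y : L, y ≠ 0 → (∀ u ∈ ov L Q, Sq u y) → ∑ᶠ v : Pr L, (ordv v y : F) * a v = 0

/-- the functionals of `Y` vanish on the units which are squares modulo `Q` -/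
def Kill {A : Finset ℕ} (Y : Submodule F (US L A →+ F)) (Q : Finset ℕ) : Prop :=
  ∀ l ∈ Y, ∀ y : US L A, (∀ u ∈ ov L Q, Sq u (el y)) → l y = 0

/-- `g` fixes the square roots of `y` -/
def Fix (j : L →+* Qb) (g : GQ) (y : L) : Prop := ∀ w : Qb, w ^ 2 = j y → g w = w

/-- a character of `Γ` with the local conditions -/
structure Adm (Γ : Subgroup GQ) (h : GQ) (x : F) (T Q : Finset ℕ) (φ : GQ → F) : Prop where
  add : ∀ σ ∈ Γ, ∀ τ ∈ Γ, φ (σ * τ) = φ σ + φ τ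
  off : ∀ g ∉ Γ, φ g = 0
  opn : ∃ U : Subgroup GQ, IsOpen (U : Set GQ) ∧ ∀ σ ∈ U, φ σ = 0
  unr : ∀ l : ℕ, l.Prime → l ∉ Q → ∀ P : Ideal (𝓞 Qb), P.IsPrime → (l : 𝓞 Qb) ∈ P →
    ∀ g, Inert P g → φ g = 0
  dec : ∀ l ∈ T, l ≠ 0 → ∀ P : Ideal (𝓞 Qb), P.IsPrime → (l : 𝓞 Qb) ∈ P →
    ∀ g, Stab P g → φ g = 0
  cj : ∀ c : GQ, IsConj c → φ c = 0
  eqv : ∀ σ ∈ Γ, φ (h * σ * h⁻¹) = x * φ σ

end

/-- Squares modulo a prime have index at most two. -/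
def SYM : Prop := ∀ (L : Type) [Field L] [NumberField L] (u : Pr L) (y z : L),
  u.valuation L y = 1 → u.valuation L z = 1 →
  (Sq u y → (Sq u (y * z) ↔ Sq u z)) ∧ (¬ Sq u y → ¬ Sq u z → Sq u (y * z))

/-- A large set of primes. -/
def BIG : Prop := ∀ (L : Type) [Field L] [NumberField L], ∃ A₀ : Finset ℕ,
  (∀ l ∈ A₀, l.Prime) ∧ ∀ A : Finset ℕ, A₀ ⊆ A → Big L A

/-- The unit theorem modulo squares, non trivial eigenvalue. -/
def UNITX : Prop := ∀ (K L F : Type) [Field K] [NumberField K] [Field L] [NumberField L]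
  [Algebra K L] [IsGalois K L] [Field F] [CharP F 2] (τ : L ≃ₐ[K] L) (x : F) (A : Finset ℕ),
  Odd (Module.finrank K L) → x ^ Module.finrank K L = 1 → x ≠ 1 →
  Module.rank F (E F (mv τ.toRingEquiv) x (ov L A)) +
    Module.rank F (E F (fun w : InfinitePlace L => τ • w) x Set.univ) ≤
    Module.rank F (X F (tU τ.toRingEquiv A) x)

/-- The unit theorem modulo squares, trivial group. -/
def UNIT1 : Prop := ∀ (K F : Type) [Field K] [NumberField K] [Field F] [CharP F 2]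
  (A : Finset ℕ),
  Module.rank F (E F (mv (1 : K ≃ₐ[K] K).toRingEquiv) 1 (ov K A)) +
    Module.rank F (E F (fun w : InfinitePlace K => (1 : K ≃ₐ[K] K) • w) 1 Set.univ) ≤
    Module.rank F (X F (tU (1 : K ≃ₐ[K] K).toRingEquiv A) 1)

/-- The count. -/
def COUNT : Prop := ∀ (L F : Type) [Field L] [NumberField L] [Field F] [CharP F 2]
  (τ : L ≃+* L) (m : ℕ) (x : F) (T Q A : Finset ℕ) (Y : Submodule F (US L A →+ F))
  (R : Submodule F (Pr L → F)), Odd m → x ^ m = 1 → (∀ y, τ^[m] y = y) → T ⊆ A →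
  (∀ l ∈ A, l = 0 ∨ l.Prime) → (∀ q ∈ Q, q.Prime ∧ q ∉ A) → Big L A → Y ≤ X F (tU τ A) x →
  Kill Y Q → (∀ a ∈ R, Ray τ x T Q a) →
  Module.rank F R + Module.rank F Y + Module.rank F (E F (mv τ) x (ov L T)) ≤
    Module.rank F (E F (mv τ) x (ov L Q)) + Module.rank F (E F (mv τ) x (ov L A))

/-! ### the Galois side -/

/-- The reciprocity law for one character. -/
def LAW : Prop := ∀ (L F : Type) [Field L] [NumberField L] [Field F] [CharP F 2] (j : L →+* Qb)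
  (h : GQ) (x : F) (T Q : Finset ℕ) (φ : GQ → F) (a : Pr L → F), 2 ∉ Q →
  Adm (GK j) h x T Q φ → (∀ v ∈ ov L Q, a v = 0) →
  (∀ v ∉ ov L Q, ∀ (P : Ideal (𝓞 Qb)) (g : GK j), FrI j v P g → φ g = a v) →
  ∀ y : L, y ≠ 0 → (∀ u ∈ ov L Q, Sq u y) → ∑ᶠ v : Pr L, (ordv v y : F) * a v = 0

/-- A character which kills almost all Frobenius elements is trivial. -/
def INJ : Prop := ∀ (L F : Type) [Field L] [NumberField L] [Field F] [CharP F 2] (j : L →+* Qb)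
  (h : GQ) (x : F) (T Q : Finset ℕ) (φ : GQ → F), Adm (GK j) h x T Q φ →
  (∀ v ∉ ov L Q, ∀ (P : Ideal (𝓞 Qb)) (g : GK j), FrI j v P g → φ g = 0) → φ = 0

/-- From characters of the Galois group to ray class characters. -/
def ART : Prop := ∀ (L F : Type) [Field L] [NumberField L] [Field F] [CharP F 2] (j : L →+* Qb)
  (h : GQ) (τ : L ≃+* L) (x : F) (T Q : Finset ℕ) (Z : Submodule F (GQ → F)), 2 ∉ Q →
  (∀ y, j (τ y) = h (j y)) → (∀ φ ∈ Z, Adm (GK j) h x T Q φ) →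
  ∃ R : Submodule F (Pr L → F), (∀ a ∈ R, Ray τ x T Q a) ∧ Module.rank F Z ≤ Module.rank F R

/-- Primes as double cosets. -/
def PL : Prop := ∀ (L F : Type) [Field L] [NumberField L] [Field F] (j : L →+* Qb)
  (h : GQ) (τ : L ≃+* L) (x : F) (l : ℕ) (D : Set GQ), (∀ y, j (τ y) = h (j y)) → l ≠ 0 →
  IsDec l D → Module.rank F (E F (mv τ) x (ov L {l})) = Module.rank F (Ind F (GK j) h x D)

/-- The primes above a finite set of primes. -/
def SUM : Prop := ∀ (L F : Type) [Field L] [NumberField L] [Field F] (τ : L ≃+* L) (x : F)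
  (A : Finset ℕ), (∀ l ∈ A, l = 0 ∨ l.Prime) →
  Module.rank F (E F (mv τ) x (ov L A)) < Cardinal.aleph0 ∧
  Module.rank F (E F (mv τ) x (ov L A)) =
    ∑ l ∈ A.erase 0, Module.rank F (E F (mv τ) x (ov L {l}))

/-- Infinite places as double cosets. -/
def PLI : Prop := ∀ (K L F : Type) [Field K] [Field L] [NumberField L] [Algebra K L] [Field F]
  (j : L →+* Qb) (h : GQ) (τ : L ≃ₐ[K] L) (x : F) (D : Set GQ), (∀ y, j (τ y) = h (j y)) →
  IsDec 0 D → Module.rank F (Ind F (GK j) h x D) ≤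
    Module.rank F (E F (fun w : InfinitePlace L => τ • w) x Set.univ)

/-- the bound for the characters -/
def Bd (F : Type) [Field F] (Γ : Subgroup GQ) (h : GQ) (x : F) (T Q : Finset ℕ)
    (D D' : ℕ → Set GQ) (e : ℕ) : Prop :=
  ∀ Z : Submodule F (GQ → F), (∀ φ ∈ Z, Adm Γ h x T Q φ) →
    Module.rank F Z + ∑ l ∈ T, Module.rank F (Ind F Γ h x (D l)) ≤
      ∑ q ∈ Q, Module.rank F (Ind F Γ h x (D' q)) + e

/-- The general bound. -/
def GEN : Prop := ∀ (K L F : Type) [Field K] [NumberField K] [Field L] [NumberField L]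
  [Algebra K L] [Field F] [CharP F 2] (j : L →+* Qb) (h : GQ) (τ : L ≃ₐ[K] L) (m : ℕ) (x : F)
  (T Q A : Finset ℕ) (D D' : ℕ → Set GQ) (Y : Submodule F (US L A →+ F)) (e : ℕ),
  Odd m → x ^ m = 1 → τ ^ m = 1 → (∀ y, j (τ y) = h (j y)) → 0 ∈ T → 2 ∈ T → T ⊆ A →
  (∀ l ∈ A, l = 0 ∨ l.Prime) → (∀ q ∈ Q, q ∉ A) → (∀ l ∈ T, IsDec l (D l)) →
  (∀ q ∈ Q, IsDec q (D' q)) → Big L A → Y ≤ X F (tU τ.toRingEquiv A) x → Kill Y Q →
  Module.rank F (E F (mv τ.toRingEquiv) x (ov L A)) +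
    Module.rank F (E F (fun w : InfinitePlace L => τ • w) x Set.univ) ≤ Module.rank F Y + e →
  Bd F (GK j) h x T Q D D' e

/-- Square roots fixed by the inertia groups at the odd primes. -/
def KUMQ : Prop := ∀ (d : ℚ) (w : Qb), d ≠ 0 → w ^ 2 = (d : Qb) → (∀ g ∈ Ginf, g w = w) →
  ∃ (e f : ℕ) (z : ℚ), d = (-1) ^ e * 2 ^ f * z ^ 2

/-- A quadratic character has a Kummer generator. -/
def QUAD : Prop := ∀ H : Subgroup GQ, IsOpen (H : Set GQ) → (∀ g ∉ H, ∀ g' ∉ H, g * g' ∈ H) →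
  ∃ (d : ℚ) (w : Qb), d ≠ 0 ∧ w ^ 2 = (d : Qb) ∧ (∀ g ∈ H, g w = w) ∧ ∀ g ∉ H, g w = -w

/-- Square roots fixed by `Ginf`. -/
def KUM : Prop := ∀ (L : Type) [Field L] [NumberField L] (j : L →+* Qb) (y : L) (w : Qb),
  (∀ g : GQ, ∃ γ ∈ GK j, ∃ t ∈ Ginf, g = γ * t) → y ≠ 0 → w ^ 2 = j y →
  (∀ g ∈ GK j, g ∈ Ginf → g w = w) → ∃ (e f : ℕ) (z : L), y = (-1) ^ e * 2 ^ f * z ^ 2

/-- Odd order cosets meet `Ginf`. -/
def ODD : Prop := ∀ (Γ : Subgroup GQ) (g : GQ) (m : ℕ), IsOpen (Γ : Set GQ) → Odd m →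
  g ^ m ∈ Γ → ∃ γ ∈ Γ, ∃ t ∈ Ginf, g = γ * t

/-- Square roots of units generate a finite extension. -/
def OPEN : Prop := ∀ (L : Type) [Field L] [NumberField L] (j : L →+* Qb) (A : Finset ℕ),
  ∃ U : Subgroup GQ, IsOpen (U : Set GQ) ∧ U.Normal ∧ U ≤ GK j ∧
    ∀ g ∈ U, ∀ y : US L A, Fix j g (el y)

/-- Local squares. -/
def LOC : Prop := ∀ (L : Type) [Field L] [NumberField L] (j : L →+* Qb) (u : Pr L)
  (P : Ideal (𝓞 Qb)) (g : GQ) (y : L), P.IsPrime → below j P = u.asIdeal → (2 : 𝓞 Qb) ∉ P →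
  g ∈ GK j → Stab P g → Sq u y → Fix j g y

/-- the group data -/
structure Gd {F : Type} [Field F] (ρ : GQ →* GL (Fin 2) F) (H Γ : Subgroup GQ) (h s : GQ)
    (x : F) : Prop where
  dh : Dh ρ H
  sc : ∀ g, g ∈ Γ ↔ Sc ρ g
  nrm : Γ.Normal
  le : Γ ≤ H
  two : ∀ g ∉ H, ∀ g' ∉ H, g * g' ∈ H
  sq : ∀ g ∉ H, g * g ∈ Γ
  hH : h ∈ H
  hI : h ∈ Ginf
  sH : s ∉ H
  sI : s ∈ Ginf
  hx : mx ρ h 0 0 = x * mx ρ h 1 1
  x1 : x ≠ 1
  gen : ∀ g ∈ H, ∃ i : ℕ, ∃ γ ∈ Γ, g = h ^ i * γ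
  inf : ∀ g : GQ, ∃ γ ∈ Γ, ∃ t ∈ Ginf, g = γ * t

/-- The fields. -/
def FLD : Prop := ∀ (F : Type) [Field F] [CharP F 2] (ρ : GQ →* GL (Fin 2) F) (H : Subgroup GQ),
  Dh ρ H → ∃ (K L : Type) (_ : Field K) (_ : NumberField K) (_ : Field L) (_ : NumberField L)
    (_ : Algebra K L) (_ : IsGalois K L) (jK : K →+* Qb) (jL : L →+* Qb) (h s : GQ) (x : F)
    (τ : L ≃ₐ[K] L), GK jK = H ∧ Gd ρ H (GK jL) h s x ∧ Odd (Module.finrank K L) ∧
    x ^ Module.finrank K L = 1 ∧ ∀ y, jL (τ y) = h (jL y)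

/-- The antidiagonal classes are killed by the elements outside `H`. -/
def KILLW : Prop := ∀ (L F : Type) [Field L] [NumberField L] [Field F] [CharP F 2]
  (ρ : GQ →* GL (Fin 2) F) (H : Subgroup GQ) (j : L →+* Qb) (h s : GQ) (x : F) (τ : L ≃+* L)
  (A : Finset ℕ), Gd ρ H (GK j) h s x → (∀ y, j (τ y) = h (j y)) → 2 ∈ A →
  ∀ l ∈ X F (tU τ A) x, ∀ y : US L A,
    (∀ σ ∈ Ginf, σ ∉ H → Fix j (σ * σ) (el y)) → l y = 0

/-- The diagonal classes are killed by the non scalar elements of `H`. -/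
def KILLD : Prop := ∀ (K F : Type) [Field K] [NumberField K] [Field F] [CharP F 2]
  (ρ : GQ →* GL (Fin 2) F) (Γ : Subgroup GQ) (j : K →+* Qb) (h s : GQ) (x : F) (τ : K ≃+* K)
  (A : Finset ℕ), Gd ρ (GK j) Γ h s x → 2 ∈ A →
  ∃ Y : Submodule F (US K A →+ F), Y ≤ X F (tU τ A) 1 ∧
    Module.rank F (X F (tU τ A) 1) ≤ Module.rank F Y + (2 : ℕ) ∧
    ∀ l ∈ Y, ∀ y : US K A, (∀ σ ∈ Ginf, σ ∈ GK j → σ ∉ Γ → Fix j σ (el y)) → l y = 0

/-- The two spaces at an auxiliary prime. -/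
def TWO : Prop := ∀ (F : Type) [Field F] [CharP F 2] (ρ : GQ →* GL (Fin 2) F)
  (H Γ : Subgroup GQ) (h s : GQ) (x : F) (D : Set GQ) (φ : GQ), Gd ρ H Γ h s x → φ ∈ D →
  φ ∉ Γ → Module.rank F (Ind F H 1 1 D) + Module.rank F (Ind F Γ h x D) ≤ 2

/-- The characters attached to a tangent vector. -/
def ADM : Prop := ∀ (F : Type) [Field F] [CharP F 2] (ρ : GQ →* GL (Fin 2) F)
  (H Γ : Subgroup GQ) (h s : GQ) (x : F) (T Q : Finset ℕ) (D : ℕ → Set GQ) (c : GQ → M2 F)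
  (a : ℕ → M2 F), Gd ρ H Γ h s x → 0 ∈ T → (∀ l ∈ T, IsDec l (D l)) → TanP ρ T Q D c a →
  Adm H 1 1 T Q ((H : Set GQ).indicator fun g => c g 0 0) ∧
    Adm Γ h x T Q ((Γ : Set GQ).indicator fun g => c g 0 1)

/-- The kernel. -/
def KER : Prop := ∀ (F : Type) [Field F] [CharP F 2] (ρ : GQ →* GL (Fin 2) F)
  (H Γ : Subgroup GQ) (h s : GQ) (x : F) (T Q : Finset ℕ) (D : ℕ → Set GQ)
  (Z : Submodule F ((GQ → M2 F) × (ℕ → M2 F))), Gd ρ H Γ h s x →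
  (∀ z ∈ Z, TanP ρ T Q D z.1 z.2 ∧ (∀ g ∈ H, z.1 g 0 0 = 0) ∧ ∀ g ∈ Γ, z.1 g 0 1 = 0) →
  Module.rank F Z ≤ 3 + ∑ l ∈ T, Module.rank F (Ind F H 1 1 (D l)) +
    ∑ l ∈ T, Module.rank F (Ind F Γ h x (D l))

/-- The assembly of the tangent space bound. -/
def ASM : Prop := ∀ (F : Type) [Field F] [CharP F 2] (ρ : GQ →* GL (Fin 2) F)
  (H Γ : Subgroup GQ) (h s : GQ) (x : F) (T Q : Finset ℕ) (D D' : ℕ → Set GQ),
  Gd ρ H Γ h s x → 0 ∈ T → (∀ l ∈ T, IsDec l (D l)) → (∀ q ∈ Q, ∃ φ ∈ D' q, φ ∉ Γ) →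
  Bd F H 1 1 T Q D D' 2 → Bd F Γ h x T Q D D' 0 → Tan ρ T Q D (2 * Q.card + 5)

end Vale.Agent.P022D.Sel
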