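import Vale.Agent.P022D.Sel.Defs
import Vale.Agent.P027M.F.Tra

/-!
# P022D, block Sel, row ADM: the characters attached to a tangent vector
-/

set_option linter.all false

noncomputable section

namespace Vale.Agent.P022D.Sel

open NumberField IsDedekindDomain
open Vale.Agent.P022 Vale.Agent.P022.C
open Vale.Agent.P027M.S (Pr Inert mx)
open scoped Pointwise

namespace AdmA

variable {F : Type} [Field F] {ρ : GQ →* GL (Fin 2) F}

theorem mx_mul (g h : GQ) : mx ρ (g * h) = mx ρ g * mx ρ h := by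
  simp only [mx, map_mul, Units.val_mul]

theorem mx_inv (g : GQ) : mx ρ g * mx ρ g⁻¹ = 1 := by
  rw [← mx_mul, mul_inv_cancel]
  simp only [mx, map_one, Units.val_one]

theorem dg {H : Subgroup GQ} (hd : Dh ρ H) {g : GQ} (hg : g ∈ H) (M : M2 F) :
    (mx ρ g * M * mx ρ g⁻¹) 0 0 = M 0 0 ∧ mx ρ g 1 1 * mx ρ g⁻¹ 1 1 = 1 ∧
      (mx ρ g * M * mx ρ g⁻¹) 0 1 = mx ρ g 0 0 * M 0 1 * mx ρ g⁻¹ 1 1 := by
  obtain ⟨a1, a2⟩ := hd.dg g hg
  obtain ⟨b1, b2⟩ := hd.dg g⁻¹ (H.inv_mem hg)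
  have e0 := congrFun (congrFun (mx_inv (ρ := ρ) g) 0) 0
  have e1 := congrFun (congrFun (mx_inv (ρ := ρ) g) 1) 1
  rw [Matrix.mul_apply, Fin.sum_univ_two, Matrix.one_apply_eq] at e0 e1
  rw [a1, zero_mul, add_zero] at e0
  rw [a2, zero_mul, zero_add] at e1
  refine ⟨?_, e1, ?_⟩
  · simp only [Matrix.mul_apply, Fin.sum_univ_two, a1, b2]
    linear_combination M 0 0 * e0
  · simp only [Matrix.mul_apply, Fin.sum_univ_two, a1, b1]
    ring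

theorem sc {g : GQ} (hg : Sc ρ g) (M : M2 F) : mx ρ g * M * mx ρ g⁻¹ = M := by
  obtain ⟨a1, a2, a3⟩ := hg
  have e : mx ρ g * M = M * mx ρ g := by
    ext i j
    fin_cases i <;> fin_cases j <;>
      simp [Matrix.mul_apply, Fin.sum_univ_two, a1, a2, a3, mul_comm]
  rw [e, mul_assoc, mx_inv, mul_one]

theorem cnj {c : GQ → M2 F} (hc : ∀ g h, c (g * h) = c g + mx ρ g * c h * mx ρ g⁻¹)
    {g t g' : GQ} (e : g * t = t * g') :
    c g = c t + mx ρ t * c g' * mx ρ t⁻¹ - mx ρ g * c t * mx ρ g⁻¹ := by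
  rw [← hc t g', ← e, hc g t, add_sub_cancel_right]

theorem cob {c : GQ → M2 F} (hc : ∀ g h, c (g * h) = c g + mx ρ g * c h * mx ρ g⁻¹)
    {g t g' : GQ} (e : g * t = t * g') {a : M2 F} (ha : c g' = a - mx ρ g' * a * mx ρ g'⁻¹) :
    ∃ b : M2 F, c g = b - mx ρ g * b * mx ρ g⁻¹ := by
  refine ⟨c t + mx ρ t * a * mx ρ t⁻¹, ?_⟩
  have e1 : mx ρ t * mx ρ g' = mx ρ g * mx ρ t := by rw [← mx_mul, ← mx_mul, e]
  have e2 : mx ρ g'⁻¹ * mx ρ t⁻¹ = mx ρ t⁻¹ * mx ρ g⁻¹ := by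
    rw [← mx_mul, ← mx_mul, ← mul_inv_rev, ← mul_inv_rev, e]
  have e3 : mx ρ t * (mx ρ g' * a * mx ρ g'⁻¹) * mx ρ t⁻¹ =
      mx ρ g * (mx ρ t * a * mx ρ t⁻¹) * mx ρ g⁻¹ := by
    calc _ = mx ρ t * mx ρ g' * a * (mx ρ g'⁻¹ * mx ρ t⁻¹) := by simp only [mul_assoc]
      _ = _ := by rw [e1, e2]; simp only [mul_assoc]
  rw [cnj hc e, ha, mul_sub, sub_mul, e3, mul_add, add_mul]
  abel

theorem conj_conj {c c' : GQ} (h : IsConj c) (h' : IsConj c') : ∃ t : GQ, c * t = t * c' := by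
  obtain ⟨φ, hφ⟩ := h
  obtain ⟨ψ, hψ⟩ := h'
  letI : Algebra Qb ℂ := φ.toAlgebra
  haveI : IsScalarTower ℚ Qb ℂ := IsScalarTower.of_algebraMap_eq' (RingHom.ext_rat _ _)
  let t : GQ := ψ.toRatAlgHom.restrictNormal' Qb
  have ht : ∀ x, φ (t x) = ψ x := fun x => ψ.toRatAlgHom.restrictNormal_commutes Qb x
  refine ⟨t, AlgEquiv.ext fun x => φ.injective ?_⟩
  rw [AlgEquiv.mul_apply, AlgEquiv.mul_apply, hφ, ht, ht, hψ]

theorem stab {P : Ideal (𝓞 Qb)} {g : GQ} (h : Inert P g) : Stab P g := fun x =>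
  ⟨fun k => by simpa using P.sub_mem k (h x), fun k => by simpa using P.add_mem (h x) k⟩

theorem stab_conj {P : Ideal (𝓞 Qb)} {g t : GQ} (h : Stab (t • P) g) : Stab P (t⁻¹ * g * t) :=
  fun x => by
    rw [mul_smul, mul_smul, ← Ideal.mem_pointwise_smul_iff_inv_smul_mem, h,
      Ideal.mem_pointwise_smul_iff_inv_smul_mem, inv_smul_smul]

theorem gen {T Q : Finset ℕ} {D : ℕ → Set GQ} {c : GQ → M2 F} {a : ℕ → M2 F} (h0 : 0 ∈ T)
    (hD : ∀ l ∈ T, IsDec l (D l)) (hc : TanP ρ T Q D c a) (S : Subgroup GQ) (i j : Fin 2)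
    (hS : ∀ g ∈ S, ∀ M : M2 F, (mx ρ g * M * mx ρ g⁻¹) i j = M i j) (h : GQ) (x : F)
    (he : ∀ σ ∈ S, h * σ * h⁻¹ ∈ S ∧ c (h * σ * h⁻¹) i j = x * c σ i j) :
    Adm S h x T Q ((S : Set GQ).indicator fun g => c g i j) := by
  have z1 : ∀ g, c g = 0 → (S : Set GQ).indicator (fun g => c g i j) g = 0 := fun g hg =>
    Set.indicator_apply_eq_zero.2 fun _ => by rw [hg]; rfl
  have z2 : ∀ g, (∃ b : M2 F, c g = b - mx ρ g * b * mx ρ g⁻¹) →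
      (S : Set GQ).indicator (fun g => c g i j) g = 0 := fun g ⟨b, hb⟩ =>
    Set.indicator_apply_eq_zero.2 fun k => by rw [hb, Matrix.sub_apply, hS g k, sub_self]
  have dec : ∀ l ∈ T, l ≠ 0 → ∀ P : Ideal (𝓞 Qb), P.IsPrime → (l : 𝓞 Qb) ∈ P →
      ∀ g, Stab P g → (S : Set GQ).indicator (fun g => c g i j) g = 0 := by
    intro l hl l0 P hP hlP g hg
    obtain ⟨e, -⟩ | ⟨lp, P₀, p0, p1, e⟩ := hD l hl
    · exact absurd e l0
    obtain ⟨t, rfl⟩ := P027M.F.Tra.trans lp p0 hP p1 hlP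
    exact z2 g (cob hc.coc (t := t) (g' := t⁻¹ * g * t) (by group)
      (hc.loc l hl _ (by rw [e]; exact stab_conj hg)))
  refine ⟨fun σ hσ τ hτ => ?_, fun g hg => Set.indicator_of_notMem hg _, ?_,
    fun l lp lQ P hP hl g hg => ?_, dec, fun c₀ k => ?_, fun σ hσ => ?_⟩
  · rw [Set.indicator_of_mem (S.mul_mem hσ hτ), Set.indicator_of_mem hσ, Set.indicator_of_mem hτ,
      hc.coc, Matrix.add_apply, hS σ hσ]
  · obtain ⟨U, u1, u2⟩ := hc.opn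
    exact ⟨U, u1, fun σ hσ => z1 σ (u2 σ hσ)⟩
  · by_cases hT : l ∈ T
    · exact dec l hT lp.ne_zero P hP hl g (stab hg)
    · exact z1 g (hc.unr l lp hT lQ P hP hl g hg)
  · obtain ⟨-, c₁, k1, e⟩ | ⟨lp, -⟩ := hD 0 h0
    · obtain ⟨t, ht⟩ := conj_conj k k1
      exact z2 c₀ (cob hc.coc ht (hc.loc 0 h0 c₁ (by rw [e]; exact Or.inr rfl)))
    · exact absurd lp Nat.not_prime_zero
  · rw [Set.indicator_of_mem (he σ hσ).1, Set.indicator_of_mem hσ, (he σ hσ).2]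

end AdmA

open AdmA in
theorem adm : ADM := by
  intro F _ _ ρ H Γ h s x T Q D c a G h0 hD hc
  refine ⟨gen h0 hD hc H 0 0 (fun g hg M => (dg G.dh hg M).1) 1 1 fun σ hσ => ?_,
    gen h0 hD hc Γ 0 1 (fun g hg M => by rw [sc ((G.sc g).1 hg)]) h x fun σ hσ => ?_⟩
  · rw [one_mul, inv_one, mul_one, one_mul]
    exact ⟨hσ, rfl⟩
  · have m := G.nrm.conj_mem σ hσ h
    refine ⟨m, ?_⟩
    obtain ⟨-, d1, d2⟩ := dg G.dh G.hH (c σ)
    rw [cnj hc.coc (g := h * σ * h⁻¹) (t := h) (g' := σ) (by group), sc ((G.sc _).1 m),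
      add_sub_cancel_left, d2, G.hx]
    linear_combination x * c σ 0 1 * d1

end Vale.Agent.P022D.Sel
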