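import Vale.Agent.P022D.Sel.Defs
import Vale.Agent.P022.H916.Fld

/-!
# P022, dihedral case, block Sel: regular elements
-/

set_option linter.all false

noncomputable section

namespace Vale.Agent.P022D.Sel

open Vale.Agent.P022 Vale.Agent.P022.C
open Vale.Agent.P027M.S (mx)

namespace DiscP

variable {O : Type} [CommRing O]

theorem pw (g : M2 O) (h : g.trace ^ 2 - 4 * g.det = 0) (k : ℕ) :
    (2 : O) ^ (k + 1) • g ^ (k + 1) = g.trace ^ (k + 1) • (1 : M2 O) +
      (((k : O) + 1) * g.trace ^ k) • ((2 : O) • g - g.trace • (1 : M2 O)) := by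
  induction k with
  | zero => simp
  | succ k ih =>
    have e : (2 : O) ^ (k + 1 + 1) • g ^ (k + 1 + 1) =
        ((2 : O) ^ (k + 1) • g ^ (k + 1)) * ((2 : O) • g) := by
      rw [smul_mul_smul_comm, ← pow_succ, ← pow_succ]
    rw [e, ih]
    rw [Matrix.trace_fin_two, Matrix.det_fin_two] at h
    ext i j
    fin_cases i <;> fin_cases j <;>
      simp [Matrix.mul_apply, Fin.sum_univ_two, Matrix.trace_fin_two, Matrix.one_apply]
    · linear_combination (-((k : O) + 1) * (g 0 0 + g 1 1) ^ k) * -h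
    · ring
    · ring
    · linear_combination (-((k : O) + 1) * (g 0 0 + g 1 1) ^ k) * -h

theorem key (g g' : M2 O) (h : g.trace ^ 2 - 4 * g.det = 0) (ht : g'.trace = g.trace)
    (hd : g'.det = g.det) (k : ℕ) :
    4 ^ (k + 2) * ((g * g' ^ (k + 1)).trace ^ 2 - 4 * (g * g' ^ (k + 1)).det) =
      16 * ((k : O) + 1) * g.trace ^ (2 * k) * ((g * g').trace - 2 * g.det) *
        (g.trace ^ 2 + ((k : O) + 1) * ((g * g').trace - 2 * g.det)) := by
  have h1 := pw g' (by rw [ht, hd]; exact h) k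
  have h2 : 2 ^ (k + 2) * (g * g' ^ (k + 1)).trace = 2 * g.trace ^ (k + 2) +
      4 * ((k : O) + 1) * g.trace ^ k * ((g * g').trace - 2 * g.det) := by
    have e := congrArg (fun m => (g * m).trace) h1
    simp only [mul_add, mul_sub, Matrix.mul_smul, mul_one, Matrix.trace_add, Matrix.trace_sub,
      Matrix.trace_smul, smul_eq_mul, ht] at e
    linear_combination 2 * e - 2 * ((k : O) + 1) * g.trace ^ k * h
  have h3 : 4 ^ (k + 2) * (g * g' ^ (k + 1)).det = g.trace ^ (2 * k + 4) := by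
    rw [Matrix.det_mul, Matrix.det_pow, hd, ← pow_succ', ← mul_pow, ← sub_eq_zero.1 h, ← pow_mul]
    ring
  have h4 : (4 : O) ^ (k + 2) = 2 ^ (k + 2) * 2 ^ (k + 2) := by rw [← mul_pow]; norm_num
  have h5 : 4 ^ (k + 2) * (g * g' ^ (k + 1)).trace ^ 2 =
      (2 ^ (k + 2) * (g * g' ^ (k + 1)).trace) ^ 2 := by rw [h4]; ring
  rw [mul_sub, h5, h2, mul_left_comm, h3]
  ring

end DiscP

theorem disc (hF : FLD) : DISC := by
  intro F O _ _ _ _ _ red r ρ H hD hr _ U σ oU nU hs hS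
  have two : (2 : F) = 0 := by exact_mod_cast CharP.cast_eq_zero F 2
  obtain ⟨K, L, _, _, _, _, _, _, jK, jL, h, s, x, τ, -, G, -, -, -⟩ := hF F ρ H hD
  have rt : ∀ g, red (r g : M2 O).trace = mx ρ g 0 0 + mx ρ g 1 1 := by
    intro g
    rw [hr, Matrix.trace_fin_two, map_add]
    rfl
  by_cases h0 : (r σ : M2 O).trace ^ 2 - 4 * (r σ : M2 O).det = 0
  swap
  · exact ⟨1, U.one_mem, Ginf.one_mem, by rwa [mul_one]⟩
  have hsH : σ ∉ H := by
    intro hc
    have e := congrArg red h0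
    rw [map_sub, map_pow, map_mul, rt, map_zero, map_ofNat,
      show (4 : F) = 0 by linear_combination 2 * two, zero_mul, sub_zero] at e
    refine hS ⟨(hD.dg σ hc).1, (hD.dg σ hc).2, ?_⟩
    linear_combination (pow_eq_zero_iff two_ne_zero).1 e - mx ρ σ 1 1 * two
  have : Finite (GQ ⧸ U) := Subgroup.quotient_finite_of_isOpen U oU
  have hn : 0 < orderOf (σ : GQ ⧸ U) := orderOf_pos _
  have hU : ∀ c : ℕ, σ ^ (orderOf (σ : GQ ⧸ U) * c) ∈ U := fun c => by
    rw [← QuotientGroup.eq_one_iff, QuotientGroup.mk_pow, pow_mul, pow_orderOf_eq_one, one_pow]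
  set g : M2 O := (r σ : M2 O) with hg
  set g' : M2 O := (r (h * σ * h⁻¹) : M2 O) with hg'
  have ht : g'.trace = g.trace := by
    rw [hg', map_mul, map_mul, map_inv, Units.val_mul, Units.val_mul, Matrix.trace_units_conj]
  have hd : g'.det = g.det := by
    rw [hg', map_mul, map_mul, map_inv, Units.val_mul, Units.val_mul, Matrix.det_units_conj]
  have hdet : ∀ y : GQ, mx ρ y 0 0 * mx ρ y 1 1 - mx ρ y 0 1 * mx ρ y 1 0 ≠ 0 := fun y => by
    rw [← Matrix.det_fin_two]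
    exact ((Matrix.isUnit_iff_isUnit_det _).1 (ρ y).isUnit).ne_zero
  have hk : (g * g').trace - 2 * g.det ≠ 0 := by
    intro e
    have e1 := congrArg red e
    have e2 : g * g' = (r (σ * (h * σ * h⁻¹)) : M2 O) := by rw [map_mul, Units.val_mul]
    rw [map_sub, map_mul, map_ofNat, two, zero_mul, sub_zero, map_zero, e2, rt] at e1
    have m1 : mx ρ (σ * (h * σ * h⁻¹)) * mx ρ h = mx ρ σ * mx ρ h * mx ρ σ := by
      show ((ρ _ : GL (Fin 2) F) : M2 F) * (ρ h : M2 F) = (ρ σ : M2 F) * (ρ h : M2 F) * (ρ σ : M2 F)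
      rw [← Units.val_mul, ← Units.val_mul, ← Units.val_mul, ← map_mul, ← map_mul, ← map_mul]
      congr 2
      group
    obtain ⟨a1, a2⟩ := hD.dg h G.hH
    obtain ⟨b1, b2⟩ := hD.ad σ hsH
    have c0 := congrFun (congrFun m1 0) 0
    have c1 := congrFun (congrFun m1 1) 1
    simp only [Matrix.mul_apply, Fin.sum_univ_two, a1, a2, b1, b2, mul_zero, zero_mul, add_zero,
      zero_add] at c0 c1
    have d1 := hdet h
    have d2 := hdet σ
    rw [a1, zero_mul, sub_zero, G.hx] at d1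
    rw [b1, zero_mul, zero_sub, neg_ne_zero] at d2
    rw [G.hx] at c0 c1
    have d3 : mx ρ h 1 1 ≠ 0 := right_ne_zero_of_mul d1
    have d4 : mx ρ h 1 1 * (mx ρ σ 0 1 * mx ρ σ 1 0) * (x - 1) ^ 2 = 0 := by
      linear_combination x * mx ρ h 1 1 * e1 - c0 - x * c1 -
        x * mx ρ h 1 1 * (mx ρ σ 0 1 * mx ρ σ 1 0) * two
    exact mul_ne_zero (mul_ne_zero d3 d2) (pow_ne_zero 2 (sub_ne_zero.2 G.x1)) d4
  have ht0 : g.trace ≠ 0 := by
    intro e
    rw [e] at h0
    have e1 : g.det ≠ 0 := ((Matrix.isUnit_iff_isUnit_det _).1 (r σ).isUnit).ne_zero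
    exact mul_ne_zero (by norm_num : (4 : O) ≠ 0) e1 (by linear_combination -h0)
  have main : ∀ k : ℕ, σ ^ (k + 1) ∈ U →
      g.trace ^ 2 + ((k : O) + 1) * ((g * g').trace - 2 * g.det) ≠ 0 →
      ∃ u ∈ U, u ∈ Ginf ∧ (r (σ * u) : M2 O).trace ^ 2 - 4 * (r (σ * u) : M2 O).det ≠ 0 := by
    intro k hk1 hk2
    refine ⟨h * σ ^ (k + 1) * h⁻¹, nU.conj_mem _ hk1 h,
      Ginf.mul_mem (Ginf.mul_mem G.hI (Ginf.pow_mem hs _)) (Ginf.inv_mem G.hI), fun e => ?_⟩
    have e1 : (r (σ * (h * σ ^ (k + 1) * h⁻¹)) : M2 O) = g * g' ^ (k + 1) := by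
      rw [← conj_pow, map_mul, map_pow, Units.val_mul, Units.val_pow_eq_pow_val]
    have e2 := DiscP.key g g' h0 ht hd k
    rw [← e1, e, mul_zero] at e2
    have e3 : ((k : O) + 1) ≠ 0 := by exact_mod_cast Nat.succ_ne_zero k
    exact mul_ne_zero (mul_ne_zero (mul_ne_zero (mul_ne_zero (by norm_num) e3)
      (pow_ne_zero _ ht0)) hk) hk2 e2.symm
  obtain ⟨n, hn'⟩ := Nat.exists_eq_succ_of_ne_zero hn.ne'
  by_cases hc : g.trace ^ 2 + ((n : O) + 1) * ((g * g').trace - 2 * g.det) = 0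
  · have h2 := hU 2
    rw [hn', show n.succ * 2 = 2 * n + 1 + 1 by omega] at h2
    refine main (2 * n + 1) h2 fun e => ?_
    push_cast at e
    exact pow_ne_zero 2 ht0 (by linear_combination 2 * hc - e)
  · exact main n (by have := hU 1; rwa [hn', mul_one] at this) hc

end Vale.Agent.P022D.Sel
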