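import Vale.Agent.P022D.Sel.All
import Vale.Agent.P022D.Sel.Disc

/-!
# P022, dihedral case, block Sel: regular elements, closed form
-/

namespace Vale.Agent.P022D.Sel

theorem discC : DISC := disc fldC

end Vale.Agent.P022D.Sel
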