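import Vale.Agent.P022D.Sel.Defs

/-!
# P022, block Sel: infinite places as double cosets
-/

set_option linter.all false

noncomputable section

namespace Vale.Agent.P022D.Sel

open NumberField
open Vale.Agent.P022 Vale.Agent.P022.C

theorem pli : PLI := by
  classical
  intro K L F _ _ _ _ _ j h τ x D hτ hD
  obtain ⟨c, ⟨Φ, hΦ⟩, rfl⟩ : ∃ c : GQ, IsConj c ∧ D = {1, c} := by
    rcases hD with ⟨-, hc⟩ | ⟨hp, -⟩
    · exact hc
    · exact absurd hp Nat.not_prime_zero
  let e : GQ → (L →+* ℂ) := fun g => Φ.comp ((g⁻¹ : GQ).toRingEquiv.toRingHom.comp j)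
  have he : ∀ g y, e g y = Φ (g⁻¹ (j y)) := fun g y => rfl
  let w : GQ → InfinitePlace L := fun g => InfinitePlace.mk (e g)
  have hw : ∀ g, w (h * g) = τ • w g := fun g => by
    show InfinitePlace.mk _ = τ • InfinitePlace.mk _
    rw [InfinitePlace.smul_mk]
    congr 1
    ext y
    show Φ ((h * g)⁻¹ (j y)) = Φ (g⁻¹ (j (τ.symm y)))
    have h1 : j y = h (j (τ.symm y)) := by rw [← hτ, AlgEquiv.apply_symm_apply]
    rw [h1, ← AlgEquiv.mul_apply, mul_inv_rev, inv_mul_cancel_right]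
  refine (Submodule.rank_mono (t := (E F (fun w : InfinitePlace L => τ • w) x Set.univ).map
    (LinearMap.funLeft F F w)) fun f hf => ?_).trans (rank_map_le _ _)
  obtain ⟨f1, f2, f3⟩ := hf
  have wd : ∀ g g₁, w g = w g₁ → f g = f g₁ := fun g g₁ hg => by
    rcases InfinitePlace.mk_eq_iff.1 hg with h1 | h1
    · have h2 : g₁ * g⁻¹ ∈ GK j := fun y => by
        have h3 : g⁻¹ (j y) = g₁⁻¹ (j y) := Φ.injective (by rw [← he, ← he, h1])
        rw [AlgEquiv.mul_apply, h3, ← AlgEquiv.mul_apply, mul_inv_cancel]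
        rfl
      rw [← f1 _ h2 g, inv_mul_cancel_right]
    · have h2 : g₁ * c * g⁻¹ ∈ GK j := fun y => by
        have h3 : c (g⁻¹ (j y)) = g₁⁻¹ (j y) := Φ.injective (by
          rw [hΦ, ← he, ← he, ← h1]
          rfl)
        rw [AlgEquiv.mul_apply, AlgEquiv.mul_apply, h3, ← AlgEquiv.mul_apply, mul_inv_cancel]
        rfl
      rw [← f1 _ h2 g, inv_mul_cancel_right, f3 c (by simp) g₁]
  let a : InfinitePlace L → F := fun v => if hv : ∃ g, w g = v then f hv.choose else 0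
  have ha : ∀ g, a (w g) = f g := fun g => by
    have hv : ∃ g₁, w g₁ = w g := ⟨g, rfl⟩
    exact (dif_pos hv).trans (wd _ _ hv.choose_spec)
  refine ⟨a, ⟨fun v hv => absurd (Set.mem_univ v) hv, fun v => ?_⟩, funext fun g => ha g⟩
  by_cases hv : ∃ g, w g = v
  · obtain ⟨g, rfl⟩ := hv
    show a (τ • w g) = _
    rw [← hw, ha, ha, f2]
  · have hv' : ¬ ∃ g, w g = τ • v := fun ⟨g, hg⟩ => hv ⟨h⁻¹ * g, by
      have h1 := hw (h⁻¹ * g)
      rw [mul_inv_cancel_left, hg] at h1
      exact (MulAction.injective τ h1).symm⟩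
    show a (τ • v) = _
    rw [show a (τ • v) = 0 from dif_neg hv', show a v = 0 from dif_neg hv, mul_zero]

end Vale.Agent.P022D.Sel
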